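import Vale.Agent.P032X.H61.SymF
import Vale.Agent.P032X.H820.K.Pipe

/-!
# P032: from lists of certified patterns to trees of dead patterns; the master with several sources of clauses

* `wnF`, `vlB` : the check that all literals of a pattern are valid atoms of class 0,
* `chT`, `tr_all` : a tree of packed patterns from a list of certified patterns,
* `imT`, `imT_ho` : clauses of images (whole group), `imS`, `imS_ho` : clauses of images (the reflection which fixes the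
  direction `b`, and colours only),
* `bsC`, `bsC_ho` : base clauses and the units of a pattern,
* `dead_E`, `dead_M` : a certificate with clauses from a function (two trees) shows that a pattern is dead,
* `dead_Q`, `dead_qy`, `dead_MQ` : the same from a query of any engine.
-/

open Set Filter Topology Metric

noncomputable section

namespace Vale.Agent.P032.H61

open Vale.Agent.P032.Six Vale.Agent.P032.Words Vale.Agent.P032.S5.H767 Vale.Agent.P032.H892
  Vale.Agent.P032.H913 Vale.Agent.P032.H357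
open Vale.Agent.P032.H357.MK (fx0 cf al al_spec Tb nbeq co alL alL_spec alLL alLL_spec Pat Qy)
open Vale.Agent.P032.H820.K (a0 a1 a2 a3 a4 En en_eq dec Md av lv Ho ps ng lv_ps lv_ng nbf lb lb_iff trv ho_trv nthC
  nthC_ho gen gen_ho inC inC_sat mpl mpl_mem dmk unL aL ho_bif Crt)

/-! ### valid atoms -/

/-- check of a valid atom -/
def wnF (NP NW TC kd x j k q : ℕ) : Bool :=
  (lb x NP && fx0 TC x) && lb q 6 &&
  (bif Nat.beq kd 0 then (Nat.beq (Nat.mod j 2) 0 && lb j 12) && (Nat.ble 1 k && lb k 4) else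
   bif Nat.beq kd 9 then (Nat.beq (Nat.mod j 2) 0 && lb j 12) && (lb k 4 && lb x NW) else
   bif Nat.beq kd 6 then (Nat.beq j 0 && Nat.beq k 0) && Nat.beq q 0 else
   bif Nat.beq kd 4 || Nat.beq kd 5 then Nat.beq j 0 && Nat.beq k 0 else
   (Nat.beq kd 11 || (Nat.beq kd 14 || Nat.beq kd 15)) && (lb j 6 && Nat.beq k 0))

theorem wa_of_F {NP NW TC kd x j k q : ℕ} (h : wnF NP NW TC kd x j k q = true) :
    Wa (Gp NP TC) (Ce NW TC) kd x j k q := by
  unfold wnF at h
  rw [Bool.and_eq_true, Bool.and_eq_true, Bool.and_eq_true, lb_iff, lb_iff] at h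
  obtain ⟨⟨⟨h1, h2⟩, h3⟩, h4⟩ := h
  by_cases e0 : kd = 0
  · subst e0
    rw [nbeq.2 rfl, cond_true, Bool.and_eq_true, Bool.and_eq_true, Bool.and_eq_true, nbeq, lb_iff, lb_iff,
      Nat.ble_eq] at h4
    obtain ⟨⟨g1, g2⟩, g3, g4⟩ := h4
    exact ⟨⟨Or.inl ⟨rfl, g1, g2, g3, by omega⟩, ⟨h1, h2⟩, h3, fun e => by omega⟩, fun e => by omega⟩
  have n0 : Nat.beq kd 0 = false := by rw [← Bool.not_eq_true, nbeq]; exact e0
  rw [n0, cond_false] at h4
  by_cases e9 : kd = 9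
  · subst e9
    rw [nbeq.2 rfl, cond_true, Bool.and_eq_true, Bool.and_eq_true, Bool.and_eq_true, nbeq, lb_iff, lb_iff,
      lb_iff] at h4
    obtain ⟨⟨g1, g2⟩, g3, g4⟩ := h4
    exact ⟨⟨Or.inr (Or.inr (Or.inl ⟨rfl, g1, g2, g3⟩)), ⟨h1, h2⟩, h3, fun e => by omega⟩, fun _ => ⟨g4, h2⟩⟩
  have n9 : Nat.beq kd 9 = false := by rw [← Bool.not_eq_true, nbeq]; exact e9
  rw [n9, cond_false] at h4
  by_cases e6 : kd = 6
  · subst e6
    rw [nbeq.2 rfl, cond_true, Bool.and_eq_true, Bool.and_eq_true, nbeq, nbeq, nbeq] at h4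
    obtain ⟨⟨g1, g2⟩, g3⟩ := h4
    exact ⟨⟨Or.inr (Or.inl ⟨Or.inr (Or.inr rfl), g1, g2⟩), ⟨h1, h2⟩, h3, fun _ => g3⟩, fun e => by omega⟩
  have n6 : Nat.beq kd 6 = false := by rw [← Bool.not_eq_true, nbeq]; exact e6
  rw [n6, cond_false] at h4
  by_cases e4 : kd = 4 ∨ kd = 5
  · have n4 : (Nat.beq kd 4 || Nat.beq kd 5) = true := by rw [Bool.or_eq_true, nbeq, nbeq]; exact e4
    rw [n4, cond_true, Bool.and_eq_true, nbeq, nbeq] at h4
    exact ⟨⟨Or.inr (Or.inl ⟨e4.imp id Or.inl, h4.1, h4.2⟩), ⟨h1, h2⟩, h3, fun e => by omega⟩, fun e => by omega⟩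
  · have n4 : (Nat.beq kd 4 || Nat.beq kd 5) = false := by
      rw [← Bool.not_eq_true, Bool.or_eq_true, nbeq, nbeq]; exact e4
    rw [n4, cond_false, Bool.and_eq_true, Bool.and_eq_true, Bool.or_eq_true, Bool.or_eq_true, nbeq, nbeq, nbeq,
      nbeq, lb_iff] at h4
    exact ⟨⟨Or.inr (Or.inr (Or.inr ⟨h4.1, h4.2.1, h4.2.2⟩)), ⟨h1, h2⟩, h3, fun e => by omega⟩, fun e => by omega⟩

/-- check of a valid literal -/
def wnL (NP NW TC l : ℕ) : Bool :=
  wnF NP NW TC (a0 (Nat.div l 2)) (a1 (Nat.div l 2)) (a2 (Nat.div l 2)) (a3 (Nat.div l 2)) (a4 (Nat.div l 2))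

/-- check of a valid pattern -/
def vlB (NP NW TC : ℕ) (P : List ℕ) : Bool := alL (wnL NP NW TC) P

theorem vl_of_B {NP NW TC : ℕ} {P : List ℕ} (h : vlB NP NW TC P = true) : Vl (Gp NP TC) (Ce NW TC) P :=
  fun l hl => wa_of_F (alL_spec h l hl)

/-! ### equality of lists -/

/-- equality of lists of numbers -/
def eqLc (a : List ℕ) : List ℕ → Bool :=
  @List.rec ℕ (fun _ => List ℕ → Bool) (fun b => @List.rec ℕ (fun _ => Bool) true (fun _ _ _ => false) b)
    (fun x _ ih b => @List.rec ℕ (fun _ => Bool) false (fun y b' _ => Nat.beq x y && ih b') b) a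

theorem eqLc_spec {a b : List ℕ} (h : eqLc a b = true) : a = b := by
  induction a generalizing b with
  | nil =>
    cases b with
    | nil => rfl
    | cons y b => exact absurd h Bool.false_ne_true
  | cons x a ih =>
    cases b with
    | nil => exact absurd h Bool.false_ne_true
    | cons y b =>
      have h1 : (Nat.beq x y && eqLc a b) = true := h
      rw [Bool.and_eq_true, nbeq] at h1
      rw [h1.1, ih h1.2]

/-! ### trees from lists -/

/-- the leaves, in front of `acc` -/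
def PTr.lvs (t : PTr) : List ℕ → List ℕ :=
  @PTr.rec (fun _ => List ℕ → List ℕ) (fun n acc => n :: acc) (fun _ _ f g acc => f (g acc)) t

theorem PTr.all_of {P : ℕ → Prop} {t : PTr} {acc : List ℕ} (h : ∀ n ∈ t.lvs acc, P n) :
    t.All P ∧ ∀ n ∈ acc, P n := by
  induction t generalizing acc with
  | leaf m =>
    have h1 : ∀ n ∈ m :: acc, P n := h
    exact ⟨h1 m List.mem_cons_self, fun n hn => h1 n (List.mem_cons_of_mem _ hn)⟩
  | node l r ihl ihr =>
    have h1 : ∀ n ∈ l.lvs (r.lvs acc), P n := h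
    obtain ⟨h2, h3⟩ := ihl h1
    obtain ⟨h4, h5⟩ := ihr h3
    exact ⟨⟨h2, h4⟩, h5⟩

/-- the packed patterns `N` are the patterns `L`, all are valid -/
def chL (NP NW TC : ℕ) (N : List ℕ) : List (List ℕ) → Bool :=
  @List.rec ℕ (fun _ => List (List ℕ) → Bool)
    (fun L => @List.rec (List ℕ) (fun _ => Bool) true (fun _ _ _ => false) L)
    (fun x _ ih L => @List.rec (List ℕ) (fun _ => Bool) false
      (fun P L' _ => (eqLc (pk x) P && vlB NP NW TC P) && ih L') L) N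

theorem chL_spec {NP NW TC : ℕ} {N : List ℕ} {L : List (List ℕ)} (h : chL NP NW TC N L = true) :
    ∀ x ∈ N, pk x ∈ L ∧ Vl (Gp NP TC) (Ce NW TC) (pk x) := by
  induction N generalizing L with
  | nil => exact fun x hx => absurd hx List.not_mem_nil
  | cons y N ih =>
    cases L with
    | nil => exact absurd h Bool.false_ne_true
    | cons P L =>
      have h1 : ((eqLc (pk y) P && vlB NP NW TC P) && chL NP NW TC N L) = true := h
      rw [Bool.and_eq_true, Bool.and_eq_true] at h1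
      intro x hx
      rcases List.mem_cons.1 hx with rfl | hx
      · have e := eqLc_spec h1.1.1
        rw [e]
        exact ⟨List.mem_cons_self, vl_of_B h1.1.2⟩
      · obtain ⟨h2, h3⟩ := ih h1.2 x hx
        exact ⟨List.mem_cons_of_mem _ h2, h3⟩

/-- the tree `t` is the tree of the patterns `L` -/
def chT (NP NW TC : ℕ) (t : PTr) (L : List (List ℕ)) : Bool := chL NP NW TC (t.lvs []) L

/-- **the tree of a list of certified patterns** -/
theorem tr_all {NP NW TB TC : ℕ} {t : PTr} {L : List (List ℕ)} {E : List (List ℕ)} (h : chT NP NW TC t L = true)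
    (hL : ∀ P ∈ L, Crt NP NW TB TC E P) (B : Tb NP NW TB TC) {C : Fr → Prop}
    (hC : ∀ F, C F → FOk (kap TC) (cxv NW TC) F) (hE : ∀ F M, C F → Mdl B F M → ∀ c ∈ E, Ho M c) :
    t.All fun p => Dead (kap TC) C (pk p) ∧ Vl (Gp NP TC) (Ce NW TC) (pk p) := by
  refine (PTr.all_of (acc := []) fun x hx => ?_).1
  obtain ⟨h1, h2⟩ := chL_spec h x hx
  obtain ⟨I, hI⟩ := hL _ h1
  exact ⟨dead_of_pat (B := B) hC hE h2 hI, h2⟩

/-! ### sources of clauses -/

section
variable {NP NW TB TC TG : ℕ} {B : Tb NP NW TB TC} {F : Fr} {M : Md 2 NP NW (nbf 2 TB)} {C : Fr → Prop}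

/-- the clause of an image, code `g + 16 i + 4096 n` -/
def imT (G : ℕ → Bool) (t : PTr) (PT NPM TG c : ℕ) : List ℕ :=
  bif G (Nat.land c 15) && lb (Nat.land (Nat.shiftRight c 4) 255) NPM then
    imC TG (Nat.land (Nat.shiftRight PT (Nat.mul 18 (Nat.land (Nat.shiftRight c 4) 255))) 262143)
      (Nat.land c 15) (t.get (Nat.shiftRight c 12)) else trv

/-- the class `C` is closed under the element `g` -/
def Cl1 (κ : ℕ → ℤ × ℤ) (tab : ℕ → ℕ → ℕ) (C : Fr → Prop) (G C1 : ℕ → Prop) (g : ℕ) : Prop :=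
  ∀ P, Dead κ C P → Vl G C1 P → Dead κ C (P.map (lm (gn tab g)))

/-- **clauses of images hold in every model** -/
theorem imT_ho (t : Tabs (kap TC) (Gp NP TC) (Ce NW TC) (ptb TG)) (hM : Mdl B F M) (hF : C F) {G : ℕ → Bool}
    (hG : ∀ g, G g = true → g < 12 ∧ Cl1 (kap TC) (ptb TG) C (Gp NP TC) (Ce NW TC) g) {PT NPM : ℕ}
    (hPT : OkPT C PT NPM) {tr : PTr}
    (ht : tr.All fun p => Dead (kap TC) C (pk p) ∧ Vl (Gp NP TC) (Ce NW TC) (pk p)) (c : ℕ) :
    Ho M (imT G tr PT NPM TG c) := by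
  unfold imT
  cases h1 : G (Nat.land c 15) && lb (Nat.land (Nat.shiftRight c 4) 255) NPM
  · rw [cond_false]; exact ho_trv M
  · rw [cond_true]
    rw [Bool.and_eq_true, lb_iff] at h1
    generalize Nat.land c 15 = g at h1
    generalize Nat.land (Nat.shiftRight c 4) 255 = i at h1
    obtain ⟨hg, hg1⟩ := hG g h1.1
    obtain ⟨π, h2, h3⟩ := hPT i h1.2
    generalize Nat.land (Nat.shiftRight PT (Nat.mul 18 i)) 262143 = cp at h2
    obtain ⟨h4, h5⟩ := PTr.get_all ht (Nat.shiftRight c 12)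
    generalize tr.get (Nat.shiftRight c 12) = x at h4 h5
    have h7 := dead_col t (hg1 _ h4 h5) (h5.map fun n hn => wn_gn t hg hn) π h3
    rw [map_lm_lm] at h7
    have h6 := ho_ncl hM h7 hF (vl_img t h5 hg π)
    have e1 : imC TG cp g x = ncl ((pk x).map (lm fun n => nc (pn π) (gn (ptb TG) g n))) := by
      unfold imC ncl pk
      rw [upk_map (gL TG cp g), List.map_map]
      refine List.map_congr_left fun l hl => ?_
      show gL TG cp g l = Nat.xor (lm (fun n => nc (pn π) (gn (ptb TG) g n)) l) 1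
      rw [gL_eq]
      congr 1
      unfold lm
      rw [gB_eq t hg (h5 l hl)]
      congr 2
      have hw := wn_gn t hg (h5 l hl)
      unfold nc
      congr 1
      unfold qc
      split_ifs
      · rfl
      · exact (h2 _ hw.va.col).symm
    rw [e1]; exact h6

/-- closed under rotations and reflections -/
theorem cl1_all (t : Tabs (kap TC) (Gp NP TC) (Ce NW TC) (ptb TG)) (hCr : ∀ F, C F → C (F.rot (ptb TG 1)))
    (hCm : ∀ F, C F → C (F.mir (ptb TG 6))) {g : ℕ} (hg : g < 12) :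
    Cl1 (kap TC) (ptb TG) C (Gp NP TC) (Ce NW TC) g := fun _ hP hv => dead_gn t hP hv hCr hCm hg

/-- closed under the reflection `6` only -/
theorem cl1_six (t : Tabs (kap TC) (Gp NP TC) (Ce NW TC) (ptb TG)) (hCm : ∀ F, C F → C (F.mir (ptb TG 6))) {g : ℕ}
    (hg : g = 0 ∨ g = 6) : Cl1 (kap TC) (ptb TG) C (Gp NP TC) (Ce NW TC) g := by
  intro P hP hv
  rcases hg with rfl | rfl
  · refine (hP.of_map (g := id) (fun F hF => hF) fun F hF l hl => ?_)
    obtain ⟨e0, e1, e2, e3, e4⟩ := gn_zero t (hv l hl)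
    unfold tv
    rw [e0, e1, e2, e3, e4]
    exact Iff.rfl
  · have h1 := dead_mir t hP hv hCm
    rw [map_congr' hv (fun n hn => (gn_six t hn).symm)] at h1
    exact h1

/-- all elements -/
def gA (g : ℕ) : Bool := lb g 12

/-- the elements which fix the direction `b` -/
def gS (g : ℕ) : Bool := Nat.beq g 0 || Nat.beq g 6

theorem gA_ok (t : Tabs (kap TC) (Gp NP TC) (Ce NW TC) (ptb TG)) (hCr : ∀ F, C F → C (F.rot (ptb TG 1)))
    (hCm : ∀ F, C F → C (F.mir (ptb TG 6))) (g : ℕ) (hg : gA g = true) :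
    g < 12 ∧ Cl1 (kap TC) (ptb TG) C (Gp NP TC) (Ce NW TC) g := by
  have h := lb_iff.1 hg
  exact ⟨h, cl1_all t hCr hCm h⟩

theorem gS_ok (t : Tabs (kap TC) (Gp NP TC) (Ce NW TC) (ptb TG)) (hCm : ∀ F, C F → C (F.mir (ptb TG 6))) (g : ℕ)
    (hg : gS g = true) : g < 12 ∧ Cl1 (kap TC) (ptb TG) C (Gp NP TC) (Ce NW TC) g := by
  unfold gS at hg
  rw [Bool.or_eq_true, nbeq, nbeq] at hg
  exact ⟨by omega, cl1_six t hCm hg⟩

/-- base clauses (even numbers), units of a pattern (odd numbers) -/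
def bsC (e : List (List ℕ)) (P : List ℕ) (c : ℕ) : List ℕ :=
  bif Nat.beq (Nat.land c 1) 0 then nthC e (Nat.shiftRight c 1) else nthC (uns P) (Nat.shiftRight c 1)

theorem bsC_ho {e : List (List ℕ)} {P : List ℕ} (he : ∀ c ∈ e, Ho M c) (hP : ∀ l ∈ P, lv M l) (c : ℕ) :
    Ho M (bsC e P c) := by
  unfold bsC
  refine ho_bif (nthC_ho he _) (nthC_ho (fun c hc => ?_) _)
  obtain ⟨l, hl, rfl⟩ := List.mem_map.1 hc
  exact ⟨l, List.mem_singleton_self _, hP l hl⟩

/-- four sources -/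
def sel4 (f0 f1 f2 f3 : ℕ → List ℕ) (c : ℕ) : List ℕ :=
  bif Nat.beq (Nat.land c 1) 0 then
    (bif Nat.beq (Nat.land c 2) 0 then f0 (Nat.shiftRight c 2) else f2 (Nat.shiftRight c 2))
  else (bif Nat.beq (Nat.land c 2) 0 then f1 (Nat.shiftRight c 2) else f3 (Nat.shiftRight c 2))

theorem sel4_ho {f0 f1 f2 f3 : ℕ → List ℕ} (h0 : ∀ i, Ho M (f0 i)) (h1 : ∀ i, Ho M (f1 i)) (h2 : ∀ i, Ho M (f2 i))
    (h3 : ∀ i, Ho M (f3 i)) (c : ℕ) : Ho M (sel4 f0 f1 f2 f3 c) :=
  ho_bif (ho_bif (h0 _) (h2 _)) (ho_bif (h1 _) (h3 _))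

end

/-! ### the master -/

section
variable {NP NW TB TC TG : ℕ} {C' : Fr → Prop}

/-- **A pattern is dead by a certificate.** -/
theorem dead_E (B : Tb NP NW TB TC) (hOk : ∀ F, C' F → FOk (kap TC) (cxv NW TC) F) {P : List ℕ}
    (hv : Vl (Gp NP TC) (Ce NW TC) P) {E : ℕ → List ℕ}
    (hE : ∀ F M, C' F → Mdl B F M → (∀ l ∈ P, lv M l) → ∀ i, Ho M (E i)) {b HB dA d : ℕ} {A CC D H : List ℕ}
    (hq : chkE 2 NP NW TB E b HB dA d A CC D H = true) : Dead (kap TC) C' P := by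
  intro F hF hall
  obtain ⟨M, hM⟩ := exists_mdl B (hOk F hF)
  exact chkE_sound hq (M := M) (hE F M hF hM fun l hl => (hM.lv (hv l hl)).2 (hall l hl))

/-- **A pattern is dead by a query** (any engine). -/
theorem dead_Q (B : Tb NP NW TB TC) (hOk : ∀ F, C' F → FOk (kap TC) (cxv NW TC) F) {P : List ℕ}
    (hv : Vl (Gp NP TC) (Ce NW TC) P) {E : ℕ → List ℕ}
    (hE : ∀ F M, C' F → Mdl B F M → (∀ l ∈ P, lv M l) → ∀ i, Ho M (E i)) {cs : List ℕ}
    (hq : Qy NP NW TB (cs.map E)) : Dead (kap TC) C' P := by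
  intro F hF hall
  obtain ⟨M, hM⟩ := exists_mdl B (hOk F hF)
  refine hq M fun c hc => ?_
  obtain ⟨i, -, rfl⟩ := List.mem_map.1 hc
  exact hE F M hF hM (fun l hl => (hM.lv (hv l hl)).2 (hall l hl)) i

/-- **A pattern is dead by a query with images of dead patterns** (any engine; the codes of `eC`). -/
theorem dead_qy (B : Tb NP NW TB TC) (hT : gchk NP NW TC TG = true) {C : Fr → Prop}
    (hOk : ∀ F, C' F → FOk (kap TC) (cxv NW TC) F) (hCC : ∀ F, C' F → C F) (hCr : ∀ F, C F → C (F.rot (ptb TG 1)))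
    (hCm : ∀ F, C F → C (F.mir (ptb TG 6))) {PT NPM : ℕ} (hPT : OkPT C PT NPM) {tr : PTr}
    (ht : tr.All fun p => Dead (kap TC) C (pk p) ∧ Vl (Gp NP TC) (Ce NW TC) (pk p))
    {e : List (List ℕ)} (he : ∀ F M, C' F → Mdl B F M → ∀ c ∈ e, Ho M c) {P : List ℕ}
    (hv : Vl (Gp NP TC) (Ce NW TC) P) {cs : List ℕ}
    (hq : Qy NP NW TB (cs.map (eC (e ++ uns P) tr PT NPM TG))) : Dead (kap TC) C' P := by
  have t := tabs_of_gchk B.hNP B.hNW hT
  refine dead_Q B hOk hv (fun F M hF hM hP i => ?_) hq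
  refine eC_ho t hM (hCC F hF) hCr hCm hPT ht (fun c hc => ?_) i
  rcases List.mem_append.1 hc with hc | hc
  · exact he F M hF hM c hc
  · obtain ⟨l, hl, rfl⟩ := List.mem_map.1 hc
    exact ⟨l, List.mem_singleton_self _, hP l hl⟩

/-- the clauses of a master: base clauses and units, images of the patterns of `t1` under the whole group, images of the
patterns of `t2` under the reflection which fixes `b` -/
def mEc (e : List (List ℕ)) (P : List ℕ) (t1 t2 : PTr) (PT NPM PT' NPM' TG : ℕ) : ℕ → List ℕ :=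
  sel4 (bsC e P) (imT gA t1 PT NPM TG) (fun _ => trv) (imT gS t2 PT' NPM' TG)

/-- **The master.**  `C` : the class of the patterns of `t1`, `C'` : the class of the patterns of `t2`, `C''` : the class
of the conclusion. -/
theorem dead_M (B : Tb NP NW TB TC) (hT : gchk NP NW TC TG = true) {C C' C'' : Fr → Prop}
    (hOk : ∀ F, C'' F → FOk (kap TC) (cxv NW TC) F)
    (hCC : ∀ F, C'' F → C F) (hCC' : ∀ F, C'' F → C' F) (hCr : ∀ F, C F → C (F.rot (ptb TG 1)))
    (hCm : ∀ F, C F → C (F.mir (ptb TG 6))) (hCm' : ∀ F, C' F → C' (F.mir (ptb TG 6)))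
    {PT NPM PT' NPM' : ℕ} (hPT : OkPT C PT NPM) (hPT' : OkPT C' PT' NPM') {t1 t2 : PTr}
    (ht1 : t1.All fun p => Dead (kap TC) C (pk p) ∧ Vl (Gp NP TC) (Ce NW TC) (pk p))
    (ht2 : t2.All fun p => Dead (kap TC) C' (pk p) ∧ Vl (Gp NP TC) (Ce NW TC) (pk p))
    {e : List (List ℕ)} (he : ∀ F M, C'' F → Mdl B F M → ∀ c ∈ e, Ho M c) {P : List ℕ}
    (hv : Vl (Gp NP TC) (Ce NW TC) P) {b HB dA d : ℕ} {A CC D H : List ℕ}
    (hq : chkE 2 NP NW TB (mEc e P t1 t2 PT NPM PT' NPM' TG) b HB dA d A CC D H = true) : Dead (kap TC) C'' P := by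
  have t := tabs_of_gchk B.hNP B.hNW hT
  refine dead_E B hOk hv (fun F M hF hM hP => ?_) hq
  exact sel4_ho (bsC_ho (he F M hF hM) hP) (imT_ho t hM (hCC F hF) (gA_ok t hCr hCm) hPT ht1) (fun _ => ho_trv M)
    (imT_ho t hM (hCC' F hF) (gS_ok t hCm') hPT' ht2)

/-- **The master by a query** (any engine; the codes of `mEc`). -/
theorem dead_MQ (B : Tb NP NW TB TC) (hT : gchk NP NW TC TG = true) {C C' C'' : Fr → Prop}
    (hOk : ∀ F, C'' F → FOk (kap TC) (cxv NW TC) F)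
    (hCC : ∀ F, C'' F → C F) (hCC' : ∀ F, C'' F → C' F) (hCr : ∀ F, C F → C (F.rot (ptb TG 1)))
    (hCm : ∀ F, C F → C (F.mir (ptb TG 6))) (hCm' : ∀ F, C' F → C' (F.mir (ptb TG 6)))
    {PT NPM PT' NPM' : ℕ} (hPT : OkPT C PT NPM) (hPT' : OkPT C' PT' NPM') {t1 t2 : PTr}
    (ht1 : t1.All fun p => Dead (kap TC) C (pk p) ∧ Vl (Gp NP TC) (Ce NW TC) (pk p))
    (ht2 : t2.All fun p => Dead (kap TC) C' (pk p) ∧ Vl (Gp NP TC) (Ce NW TC) (pk p))
    {e : List (List ℕ)} (he : ∀ F M, C'' F → Mdl B F M → ∀ c ∈ e, Ho M c) {P : List ℕ}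
    (hv : Vl (Gp NP TC) (Ce NW TC) P) {cs : List ℕ}
    (hq : Qy NP NW TB (cs.map (mEc e P t1 t2 PT NPM PT' NPM' TG))) : Dead (kap TC) C'' P := by
  have t := tabs_of_gchk B.hNP B.hNW hT
  refine dead_Q B hOk hv (fun F M hF hM hP => ?_) hq
  exact sel4_ho (bsC_ho (he F M hF hM) hP) (imT_ho t hM (hCC F hF) (gA_ok t hCr hCm) hPT ht1) (fun _ => ho_trv M)
    (imT_ho t hM (hCC' F hF) (gS_ok t hCm') hPT' ht2)

end

end Vale.Agent.P032.H61
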