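import Vale.Agent.P032X.H61.BlkA
import Vale.Agent.P032X.H61.TabF

/-!
# P032: the block of the five-coloured points

* `CX` : frames with a five-coloured centre (colour number 5 is missing), `CX.rot`, `CX.mir`, `CX.col`, `ho_EX`,
* `CV` : the point in the direction `b` has at least four colours, `V4E`, `ho_V4E`, `CV.mir`, `CV.col`,
* `CS` : the colours of the letters of the centre appear in order, `dead_CV`,
* `no_five_four` : **no unit pair with five and at least four colours, if the empty pattern is dead in `CS`.**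
-/

open Set Filter Topology Metric

noncomputable section

namespace Vale.Agent.P032.H61

open Vale.Agent.P032.Six Vale.Agent.P032.Words Vale.Agent.P032.S5.H767 Vale.Agent.P032.H892
  Vale.Agent.P032.H913 Vale.Agent.P032.H357
open Vale.Agent.P032.H357.MK (fx0 cf al al_spec Tb nbeq co alL alL_spec alLL alLL_spec Pat Qy Cn of6 ct6 co_inj co_surj)
open Vale.Agent.P032.H820.K (a0 a1 a2 a3 a4 En en_eq dec Md av lv Ho ps ng lv_ps lv_ng nbf lb lb_iff EZ)

theorem pn_inj (π : Equiv.Perm (Fin 6)) {p q : ℕ} (hp : p < 6) (hq : q < 6) (h : pn π p = pn π q) : p = q := by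
  have h1 := π.injective (Fin.ext h)
  have h2 : p % 6 = q % 6 := congrArg Fin.val h1
  omega

/-! ### five-coloured centres -/

/-- frames with a five-coloured centre -/
structure CX (NW TC : ℕ) (F : Fr) : Prop where
  ok : FOk (kap TC) (cxv NW TC) F
  pal : ∀ q < 6, co F.σ q ∈ F.T F.z ↔ q < 5

section
variable {NP NW TB TC TG : ℕ} {B : Tb NP NW TB TC} {F : Fr} {M : Md 2 NP NW (nbf 2 TB)}

theorem CX.rot (t : Tabs (kap TC) (Gp NP TC) (Ce NW TC) (ptb TG)) (hNW : NW ≤ NP) (h : CX NW TC F) :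
    CX NW TC (F.rot (ptb TG 1)) := ⟨fok_rot t hNW h.ok, h.pal⟩

theorem CX.mir (t : Tabs (kap TC) (Gp NP TC) (Ce NW TC) (ptb TG)) (hNW : NW ≤ NP) (h : CX NW TC F) :
    CX NW TC (F.mir (ptb TG 6)) := ⟨fok_mir t hNW h.ok, fun q hq => by
  show co F.σ q ∈ F.T (cj (cj F.z)) ↔ _
  rw [cj_cj]
  exact h.pal q hq⟩

theorem CX.col (h : CX NW TC F) {π : Equiv.Perm (Fin 6)} (h5 : pn π 5 = 5) : CX NW TC (F.col π) :=
  ⟨h.ok.col π, fun q hq => by
    show co (F.σ * π) q ∈ F.T F.z ↔ _
    rw [co_pn, h.pal _ (pn_lt π q)]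
    have h1 := pn_lt π q
    constructor
    · intro h2
      rcases Nat.lt_or_ge q 5 with h3 | h3
      · exact h3
      · have : q = 5 := by omega
        subst this
        omega
    · intro h2
      by_contra h3
      have h4 : pn π q = pn π 5 := by omega
      have := pn_inj π hq (by norm_num) h4
      omega⟩

theorem CX.xx (h : CX NW TC F) : F.z ∈ XX F.U := by
  by_contra hX
  have h1 := h.ok.irr.ncard_off hX
  have h2 : (Finset.univ.filter fun i : Fin 6 => i ≠ co F.σ 5).card = 5 := by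
    rw [Finset.filter_ne', Finset.card_erase_of_mem (Finset.mem_univ _)]
    rfl
  have h3 : (↑(Finset.univ.filter fun i : Fin 6 => i ≠ co F.σ 5) : Set (Fin 6)) ⊆ F.T F.z := by
    intro i hi
    have hi : i ≠ co F.σ 5 := by simpa using hi
    obtain ⟨q, hq, rfl⟩ := co_surj F.σ i
    rw [h.pal q hq]
    by_contra h4
    have : q = 5 := by omega
    exact hi (by rw [this])
  have h4 := Set.ncard_le_ncard h3 (Set.toFinite _)
  rw [Set.ncard_coe_finset, h2] at h4
  omega

/-- the base clauses -/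
def EX (xs : List ℕ) : List (List ℕ) := EZ 31 ++ accE xs

theorem EZ_31 : EZ 31 = [[ps (En 4 0 0 0 0)], [ps (En 4 0 0 0 1)], [ps (En 4 0 0 0 2)], [ps (En 4 0 0 0 3)],
    [ps (En 4 0 0 0 4)], [ng (En 4 0 0 0 5)], [ps (En 6 0 0 0 0)]] := by decide +kernel

theorem ho_EX (hM : Mdl B F M) (h : CX NW TC F) (h0 : kap TC 0 = (0, 0)) (g0 : Gp NP TC 0) {xs : List ℕ}
    (hx : ∀ x ∈ xs, Gp NP TC x) : ∀ c ∈ EX xs, Ho M c := by
  intro c hc
  unfold EX at hc
  rcases List.mem_append.1 hc with hc | hc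
  · rw [EZ_31] at hc
    have e : ∀ q < 6, H820.K.av M (En 4 0 0 0 q) ↔ q < 5 := by
      intro q hq
      rw [hM.t4 g0 hq, P_zero h0]
      exact h.pal q hq
    simp only [List.mem_cons, List.not_mem_nil, or_false] at hc
    rcases hc with rfl | rfl | rfl | rfl | rfl | rfl | rfl
    · exact ⟨_, List.mem_singleton_self _, lv_ps.2 ((e 0 (by norm_num)).2 (by norm_num))⟩
    · exact ⟨_, List.mem_singleton_self _, lv_ps.2 ((e 1 (by norm_num)).2 (by norm_num))⟩
    · exact ⟨_, List.mem_singleton_self _, lv_ps.2 ((e 2 (by norm_num)).2 (by norm_num))⟩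
    · exact ⟨_, List.mem_singleton_self _, lv_ps.2 ((e 3 (by norm_num)).2 (by norm_num))⟩
    · exact ⟨_, List.mem_singleton_self _, lv_ps.2 ((e 4 (by norm_num)).2 (by norm_num))⟩
    · exact ⟨_, List.mem_singleton_self _, lv_ng.2 fun h1 => absurd ((e 5 (by norm_num)).1 h1) (by norm_num)⟩
    · refine ⟨_, List.mem_singleton_self _, lv_ps.2 ?_⟩
      rw [hM.t6 g0, P_zero h0]
      exact h.xx
  · exact ho_accE hM hx c hc

end

/-! ### the point in the direction `b` -/

/-- the point in the direction `b` has at least four colours -/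
structure CV (NW TC : ℕ) (F : Fr) : Prop where
  cx : CX NW TC F
  v4 : 4 ≤ (F.T (F.z + dir F.b)).ncard

/-- the triples of colours -/
def tri : List (List ℕ) := [[3, 4, 5], [2, 4, 5], [1, 4, 5], [0, 4, 5], [2, 3, 5], [1, 3, 5], [0, 3, 5], [1, 2, 5],
  [0, 2, 5], [0, 1, 5], [2, 3, 4], [1, 3, 4], [0, 3, 4], [1, 2, 4], [0, 2, 4], [0, 1, 4], [1, 2, 3], [0, 2, 3],
  [0, 1, 3], [0, 1, 2]]

/-- at least four colours at the point `x` -/
def V4E (x : ℕ) : List (List ℕ) := tri.map fun S => S.map fun q => ps (En 4 x 0 0 q)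

section
variable {NP NW TB TC TG : ℕ} {B : Tb NP NW TB TC} {F : Fr} {M : Md 2 NP NW (nbf 2 TB)}

theorem tri_ok : ∀ S ∈ tri, S.Nodup ∧ S.length = 3 ∧ ∀ q ∈ S, q < 6 := by decide

theorem four_tri {σ : Equiv.Perm (Fin 6)} {A : Set (Fin 6)} (hA : 4 ≤ A.ncard) {S : List ℕ} (hS : S ∈ tri) :
    ∃ q ∈ S, co σ q ∈ A := by
  classical
  by_contra hcon
  push Not at hcon
  obtain ⟨h1, h2, h3⟩ := tri_ok S hS
  set I : Finset (Fin 6) := S.toFinset.image (co σ) with hI
  have h4 : I.card = 3 := by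
    rw [hI, Finset.card_image_of_injOn, List.toFinset_card_of_nodup h1, h2]
    intro p hp q hq hpq
    simp only [List.coe_toFinset, Set.mem_setOf_eq] at hp hq
    exact co_inj σ (h3 p hp) (h3 q hq) hpq
  have h5 : A ⊆ (↑(Iᶜ) : Set (Fin 6)) := by
    intro i hi
    rw [Finset.coe_compl, Set.mem_compl_iff, Finset.mem_coe, hI, Finset.mem_image]
    rintro ⟨q, hq, rfl⟩
    exact hcon q (List.mem_toFinset.1 hq) hi
  have h6 := Set.ncard_le_ncard h5 (Set.toFinite _)
  rw [Set.ncard_coe_finset, Finset.card_compl, h4, Fintype.card_fin] at h6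
  omega

theorem ho_V4E (hM : Mdl B F M) {x : ℕ} (hx : Gp NP TC x) (h : 4 ≤ (F.T (F.P (kap TC) x)).ncard) :
    ∀ c ∈ V4E x, Ho M c := by
  intro c hc
  obtain ⟨S, hS, rfl⟩ := List.mem_map.1 hc
  obtain ⟨q, h1, h2⟩ := four_tri (σ := F.σ) h hS
  exact ⟨_, List.mem_map_of_mem h1, lv_ps.2 ((hM.t4 hx ((tri_ok S hS).2.2 q h1)).2 h2)⟩

theorem CV.mir (t : Tabs (kap TC) (Gp NP TC) (Ce NW TC) (ptb TG)) (hNW : NW ≤ NP) (h : CV NW TC F) :
    CV NW TC (F.mir (ptb TG 6)) := ⟨h.cx.mir t hNW, by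
  show 4 ≤ (F.T (cj (cj F.z + dir (-F.b)))).ncard
  rw [← cj_dir, ← cj_add, cj_cj]
  exact h.v4⟩

theorem CV.col (h : CV NW TC F) {π : Equiv.Perm (Fin 6)} (h5 : pn π 5 = 5) : CV NW TC (F.col π) :=
  ⟨h.cx.col h5, h.v4⟩

/-- the colours of the letters appear in order -/
structure CS (NW TC : ℕ) (F : Fr) : Prop where
  cv : CV NW TC F
  srt : SrtF 4 F

/-- the clauses of the master -/
def EM (xs : List ℕ) : List (List ℕ) := EX xs ++ V4E 1 ++ symE 4

theorem ho_EM (hM : Mdl B F M) (h : CS NW TC F) (h0 : kap TC 0 = (0, 0)) (g0 : Gp NP TC 0) (c0 : Ce NW TC 0)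
    (h1 : kap TC 1 = (1, 0)) (g1 : Gp NP TC 1) {xs : List ℕ}
    (hx : ∀ x ∈ xs, Gp NP TC x) : ∀ c ∈ EM xs, Ho M c := by
  intro c hc
  unfold EM at hc
  rcases List.mem_append.1 hc with hc | hc
  · rcases List.mem_append.1 hc with hc | hc
    · exact ho_EX hM h.cv.cx h0 g0 hx c hc
    · exact ho_V4E hM g1 (by rw [P_one h1]; exact h.cv.v4) c hc
  · exact ho_symE hM c0 (by norm_num) h.srt c hc

/-- **the order of the colours is no restriction** -/
theorem no_CV (H : Dead (kap TC) (CS NW TC) []) : ∀ F, ¬ CV NW TC F := by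
  intro F hF
  obtain ⟨τ, hτ⟩ := exists_sorted F
  exact H _ ⟨hF.col (pn_up5_last τ), hτ⟩ fun l hl => absurd hl List.not_mem_nil

/-- **No unit pair with five and at least four colours.** -/
theorem no_five_four (H : Dead (kap TC) (CS NW TC) []) {U : Fin 6 → Set ℂ} {T : ℂ → Set (Fin 6)} (h : Irr U T)
    (hc : ∀ y, Ctn U T y) (hl3 : LF3 U T) (hT : ∀ y, (T y).ncard ≤ 5) (hln : Ln U T) {z v : ℂ} (hzv : dist z v = 1)
    (h5 : (T z).ncard = 5) (h4 : 4 ≤ (T v).ncard) : False := by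
  classical
  have hn : ‖v - z‖ = 1 := by rw [← dist_eq_norm, dist_comm]; exact hzv
  obtain ⟨t, ht⟩ := Six.exists_cis hn
  have hb : v = z + dir (t / (Real.pi / 3)) := by
    have hpi : Real.pi / 3 ≠ 0 := by positivity
    unfold dir
    rw [div_mul_cancel₀ _ hpi, ← ht]
    ring
  obtain ⟨i, hi⟩ : ∃ i, i ∉ T z := by
    by_contra hcon
    push Not at hcon
    have : T z = Set.univ := Set.eq_univ_of_forall hcon
    rw [this, Set.ncard_univ, Nat.card_eq_fintype_card, Fintype.card_fin] at h5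
    omega
  obtain ⟨F, hok, eU, eT, ez, eb, eσ⟩ := exists_fok h hc hl3 (fun y => by
    by_contra hcon
    push Not at hcon
    have h1 : T y = Set.univ := Set.eq_univ_of_forall hcon
    have h2 := hT y
    rw [h1, Set.ncard_univ, Nat.card_eq_fintype_card, Fintype.card_fin] at h2
    omega) hln z (t / (Real.pi / 3)) (Equiv.swap (5 : Fin 6) i) NW TC
  have hTz : T z = {i}ᶜ := by
    refine Set.eq_of_subset_of_ncard_le (fun j hj => ?_) ?_ (Set.toFinite _)
    · rintro rfl
      exact hi hj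
    · have h1 := Set.ncard_add_ncard_compl ({i} : Set (Fin 6))
      rw [Set.ncard_singleton, Nat.card_eq_fintype_card, Fintype.card_fin] at h1
      omega
  refine no_CV H F ⟨⟨hok, fun q hq => ?_⟩, ?_⟩
  · rw [eT, ez, eσ, hTz, Set.mem_compl_iff, Set.mem_singleton_iff]
    have e5 : co (Equiv.swap (5 : Fin 6) i) 5 = i := Equiv.swap_apply_left _ _
    constructor
    · intro h1
      by_contra h2
      have : q = 5 := by omega
      exact h1 (this ▸ e5)
    · intro h1 h2
      have := co_inj _ hq (by norm_num) (h2.trans e5.symm)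
      omega
  · rw [eT, ez, eb, ← hb]
    exact h4

end

end Vale.Agent.P032.H61
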