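import Vale.Agent.P032X.H61.SymG
import Mathlib.Data.Fin.Tuple.Sort

/-!
# P032: tools for the blocks

* `fok_rot`, `fok_mir` : images of valid frames, `exists_states` : a frame with states,
* `Mdl.at`, `Mdl.t4`, .. : the atoms of a model, `Mdl.X_of` ..,
* `accE`, `ho_accE` : in every sector at every point some colour accumulates at the first and at the last ray,
* `lc`, `symE`, `ho_symE`, `exists_sorted` : the colours of the letters of the centre in the order of their first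
  appearance,
* `okPX` : the check of a table of permutations.
-/

open Set Filter Topology Metric

noncomputable section

namespace Vale.Agent.P032.H61

open Vale.Agent.P032.Six Vale.Agent.P032.Words Vale.Agent.P032.S5.H767 Vale.Agent.P032.H892
  Vale.Agent.P032.H913 Vale.Agent.P032.H357
open Vale.Agent.P032.H357.MK (fx0 cf al al_spec Tb nbeq co alL alL_spec alLL alLL_spec Pat Qy Cn of6 ct6 co_inj co_surj)
open Vale.Agent.P032.H820.K (a0 a1 a2 a3 a4 En en_eq dec Md av lv Ho ps ng lv_ps lv_ng nbf lb lb_iff EZ)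

/-! ### images of valid frames -/

section
variable {NP NW TB TC TG : ℕ} {F : Fr}

theorem fok_rot (t : Tabs (kap TC) (Gp NP TC) (Ce NW TC) (ptb TG)) (hNW : NW ≤ NP)
    (h : FOk (kap TC) (cxv NW TC) F) : FOk (kap TC) (cxv NW TC) (F.rot (ptb TG 1)) :=
  h.rot (fun c => t.rot _ ⟨lt_of_lt_of_le c.2.1 hNW, c.2.2⟩) fun c =>
    ⟨⟨ptb TG 1 c.1, t.cen _ c.2 1 (by norm_num)⟩, rfl⟩

theorem fok_mir (t : Tabs (kap TC) (Gp NP TC) (Ce NW TC) (ptb TG)) (hNW : NW ≤ NP)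
    (h : FOk (kap TC) (cxv NW TC) F) : FOk (kap TC) (cxv NW TC) (F.mir (ptb TG 6)) :=
  h.mir (fun c => t.mir _ ⟨lt_of_lt_of_le c.2.1 hNW, c.2.2⟩) fun c =>
    ⟨⟨ptb TG 6 c.1, t.cen _ c.2 6 (by norm_num)⟩, rfl⟩

/-- the extension of states -/
def exS (NW TC : ℕ) (s : Cn NW TC × Fin 6 → Fin 6 × Fin 6) (i : ℕ × Fin 6) : Fin 6 × Fin 6 :=
  open Classical in if h : i.1 < NW ∧ fx0 TC i.1 = true then s (⟨i.1, h⟩, i.2) else (0, 0)

theorem rS_exS (s : Cn NW TC × Fin 6 → Fin 6 × Fin 6) : rS (cxv NW TC) (exS NW TC s) = s := by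
  funext i
  show exS NW TC s (i.1.1, i.2) = s i
  unfold exS
  exact dif_pos i.1.2

/-- **a valid frame at a centre with a direction** -/
theorem exists_fok {U : Fin 6 → Set ℂ} {T : ℂ → Set (Fin 6)} (h : Irr U T) (hc : ∀ y, Ctn U T y) (hl3 : LF3 U T)
    (h5 : ∀ y, ∃ i, i ∉ T y) (hln : Ln U T) (z : ℂ) (b : ℝ) (σ : Equiv.Perm (Fin 6)) (NW TC : ℕ) :
    ∃ F : Fr, FOk (kap TC) (cxv NW TC) F ∧ F.U = U ∧ F.T = T ∧ F.z = z ∧ F.b = b ∧ F.σ = σ := by
  set Z : Cn NW TC → ℂ := fun c => hp z b (kap TC c.1) with hZ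
  obtain ⟨s0, h0⟩ := rst_ne h hl3 (ct6 Z) of6 b
  obtain ⟨s1, h1⟩ := lst_ne h hl3 (ct6 Z) of6 (b + 1)
  refine ⟨⟨U, T, z, b, σ, exS NW TC s0, exS NW TC s1⟩, ⟨h, hc, hl3, h5, hln, ?_, ?_⟩, rfl, rfl, rfl, rfl, rfl⟩
  · show rS (cxv NW TC) (exS NW TC s0) ∈ _
    rw [rS_exS]; exact h0
  · show rS (cxv NW TC) (exS NW TC s1) ∈ _
    rw [rS_exS]; exact h1

theorem P_zero {κ : ℕ → ℤ × ℤ} {x : ℕ} (h : κ x = (0, 0)) : F.P κ x = F.z := by
  unfold Fr.P hp
  rw [h]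
  push_cast
  ring

theorem P_one {κ : ℕ → ℤ × ℤ} {x : ℕ} (h : κ x = (1, 0)) : F.P κ x = F.z + dir F.b := by
  unfold Fr.P hp
  rw [h]
  push_cast
  ring

end

/-! ### atoms of a model -/

section
variable {NP NW TB TC : ℕ} {B : Tb NP NW TB TC} {F : Fr} {M : Md 2 NP NW (nbf 2 TB)} {kd x j k q m : ℕ}

theorem Mdl.at (hM : Mdl B F M) (h : Wa (Gp NP TC) (Ce NW TC) kd x j k q) :
    H820.K.av M (En kd x j k q) ↔ tva (kap TC) F kd x j k q := by
  have hG : ∀ x, Gp NP TC x → x < 4096 := fun x hx => lt_of_lt_of_le hx.1 B.hNP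
  rw [hM.av (wn_of hG h)]
  exact tv_en hG h

theorem wa4 (hx : Gp NP TC x) (hq : q < 6) : Wa (Gp NP TC) (Ce NW TC) 4 x 0 0 q :=
  ⟨⟨Or.inr (Or.inl ⟨Or.inl rfl, rfl, rfl⟩), hx, hq, fun e => by omega⟩, fun e => by omega⟩

theorem wa6 (hx : Gp NP TC x) : Wa (Gp NP TC) (Ce NW TC) 6 x 0 0 0 :=
  ⟨⟨Or.inr (Or.inl ⟨Or.inr (Or.inr rfl), rfl, rfl⟩), hx, by norm_num, fun _ => rfl⟩, fun e => by omega⟩

theorem wa9 (hx : Ce NW TC x) (hW : NW ≤ NP) (h1 : j % 2 = 0) (h2 : j < 12) (h3 : k < 4) (hq : q < 6) :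
    Wa (Gp NP TC) (Ce NW TC) 9 x j k q :=
  ⟨⟨Or.inr (Or.inr (Or.inl ⟨rfl, h1, h2, h3⟩)), ⟨lt_of_lt_of_le hx.1 hW, hx.2⟩, hq, fun e => by omega⟩, fun _ => hx⟩

theorem wa14 (hx : Gp NP TC x) (hkd : kd = 11 ∨ kd = 14 ∨ kd = 15) (hj : j < 6) (hq : q < 6) :
    Wa (Gp NP TC) (Ce NW TC) kd x j 0 q :=
  ⟨⟨Or.inr (Or.inr (Or.inr ⟨hkd, hj, rfl⟩)), hx, hq, fun e => by omega⟩, fun e => by omega⟩

theorem Mdl.t4 (hM : Mdl B F M) (hx : Gp NP TC x) (hq : q < 6) :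
    H820.K.av M (En 4 x 0 0 q) ↔ co F.σ q ∈ F.T (F.P (kap TC) x) := by
  rw [hM.at (wa4 hx hq)]
  unfold tva
  norm_num

theorem Mdl.t6 (hM : Mdl B F M) (hx : Gp NP TC x) : H820.K.av M (En 6 x 0 0 0) ↔ F.P (kap TC) x ∈ XX F.U := by
  rw [hM.at (wa6 hx)]
  unfold tva
  norm_num

theorem Mdl.irr (hM : Mdl B F M) : Irr F.U F.T := by
  obtain ⟨hy, -⟩ := hM
  exact hy.h

/-! ### some colour accumulates -/

theorem sh_cover {U : Fin 6 → Set ℂ} {T : ℂ → Set (Fin 6)} (h : Irr U T) (y : ℂ) (v : ℝ) : ∃ c, v ∈ Sh T y c :=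
  dr_cover h y (v + 3 / 2)

theorem exists_accR {U : Fin 6 → Set ℂ} {T : ℂ → Set (Fin 6)} (h : Irr U T) (y : ℂ) (α : ℝ) :
    ∃ c, AccR (Sh T y c) α := by
  by_contra hcon
  push Not at hcon
  have h1 : ∀ᶠ v in 𝓝[>] α, ∀ c, v ∉ Sh T y c := by
    rw [eventually_all]
    exact fun c => not_frequently.1 (hcon c)
  obtain ⟨v, hv⟩ := h1.exists
  obtain ⟨c, hc⟩ := sh_cover h y v
  exact hv c hc

theorem exists_accL {U : Fin 6 → Set ℂ} {T : ℂ → Set (Fin 6)} (h : Irr U T) (y : ℂ) (α : ℝ) :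
    ∃ c, AccL (Sh T y c) α := by
  by_contra hcon
  push Not at hcon
  have h1 : ∀ᶠ v in 𝓝[<] α, ∀ c, v ∉ Sh T y c := by
    rw [eventually_all]
    exact fun c => not_frequently.1 (hcon c)
  obtain ⟨v, hv⟩ := h1.exists
  obtain ⟨c, hc⟩ := sh_cover h y v
  exact hv c hc

/-- the six colours -/
def c6 : List ℕ := [0, 1, 2, 3, 4, 5]

theorem mem_c6 (hq : q < 6) : q ∈ c6 := by
  unfold c6
  interval_cases q <;> simp

theorem lt_of_c6 (hq : q ∈ c6) : q < 6 := by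
  unfold c6 at hq
  simp only [List.mem_cons, List.not_mem_nil, or_false] at hq
  omega

/-- some colour accumulates at a ray of the sector `m` -/
def accC (kd x m : ℕ) : List ℕ := c6.map fun q => ps (En kd x m 0 q)

theorem ho_accC (hM : Mdl B F M) (hx : Gp NP TC x) (hm : m < 6) (hkd : kd = 14 ∨ kd = 15) : Ho M (accC kd x m) := by
  have key : ∃ c, tva (kap TC) F kd x m 0 (H357.MK.no F.σ c) := by
    rcases hkd with rfl | rfl
    · obtain ⟨c, hc⟩ := exists_accR hM.irr (F.P (kap TC) x) (F.b + m)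
      refine ⟨c, ?_⟩
      unfold tva
      norm_num
      rw [H357.MK.co_no]
      exact hc
    · obtain ⟨c, hc⟩ := exists_accL hM.irr (F.P (kap TC) x) (F.b + m + 1)
      refine ⟨c, ?_⟩
      unfold tva
      norm_num
      rw [H357.MK.co_no]
      exact hc
  obtain ⟨c, hc⟩ := key
  have hq := H357.MK.no_lt F.σ c
  refine ⟨ps (En kd x m 0 (H357.MK.no F.σ c)), List.mem_map_of_mem (mem_c6 hq), lv_ps.2 ?_⟩
  exact (hM.at (wa14 hx (by omega) hm hq)).2 hc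

/-- the clauses `some colour accumulates` at the points `xs` -/
def accE (xs : List ℕ) : List (List ℕ) := xs.flatMap fun x => c6.flatMap fun m => [accC 14 x m, accC 15 x m]

theorem ho_accE (hM : Mdl B F M) {xs : List ℕ} (hx : ∀ x ∈ xs, Gp NP TC x) : ∀ c ∈ accE xs, Ho M c := by
  intro c hc
  obtain ⟨x, h1, h2⟩ := List.mem_flatMap.1 hc
  obtain ⟨m, h3, h4⟩ := List.mem_flatMap.1 h2
  have hm := lt_of_c6 h3
  rcases List.mem_cons.1 h4 with rfl | h4
  · exact ho_accC hM (hx x h1) hm (Or.inl rfl)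
  · rw [List.mem_singleton.1 h4]
    exact ho_accC hM (hx x h1) hm (Or.inr rfl)

end

/-! ### the letters of the centre -/

/-- the letter number `h = 4 k + 2 sd + io` of the centre -/
def lc (F : Fr) (h : ℕ) : Fin 6 :=
  if h / 2 % 2 = 0 then cmp (h % 2) (F.s1 (0, f6 (h / 4 + 5))) else cmp (h % 2) (F.s0 (0, f6 (h / 4)))

/-- the atom of a letter of the centre -/
def lA (h q : ℕ) : ℕ := En 9 0 (Nat.mul 2 (Nat.div h 4)) (Nat.mod h 4) q

theorem lc_col (F : Fr) (π : Equiv.Perm (Fin 6)) (h : ℕ) : lc (F.col π) h = lc F h := rfl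

section
variable {NP NW TB TC : ℕ} {B : Tb NP NW TB TC} {F : Fr} {M : Md 2 NP NW (nbf 2 TB)} {h q : ℕ}

theorem Mdl.lA (hM : Mdl B F M) (h0 : Ce NW TC 0) (hh : h < 24) (hq : q < 6) :
    H820.K.av M (H61.lA h q) ↔ lc F h = co F.σ q := by
  unfold H61.lA
  have h1 : Nat.mul 2 (Nat.div h 4) % 2 = 0 := Nat.mul_mod_right 2 _
  have h2 : Nat.mul 2 (Nat.div h 4) < 12 := by
    show 2 * (h / 4) < 12
    omega
  have h3 : Nat.mod h 4 < 4 := Nat.mod_lt _ (by norm_num)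
  rw [hM.at (wa9 h0 B.hNW h1 h2 h3 hq)]
  unfold tva lc
  have e1 : Nat.mul 2 (Nat.div h 4) / 2 = h / 4 := by
    show 2 * (h / 4) / 2 = h / 4
    omega
  have e2 : Nat.mod h 4 / 2 = h / 2 % 2 := by
    show h % 4 / 2 = h / 2 % 2
    omega
  have e3 : Nat.mod h 4 % 2 = h % 2 := by
    show h % 4 % 2 = h % 2
    omega
  rw [if_neg (by norm_num), if_neg (by norm_num), if_neg (by norm_num), if_neg (by norm_num), if_pos rfl, e1, e2, e3]
  split_ifs <;> exact Iff.rfl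

/-- the colours of the letters appear in the order `0, 1, .., n` -/
def SrtF (n : ℕ) (F : Fr) : Prop := ∀ q < n, ∀ h < 24, lc F h = co F.σ (q + 1) → ∃ h' < h, lc F h' = co F.σ q

/-- the clauses of the first appearance -/
def symC (h q : ℕ) : List ℕ := ng (H61.lA h (Nat.succ q)) :: (List.range h).map fun h' => ps (H61.lA h' q)

/-- the clauses of the first appearance -/
def symE (n : ℕ) : List (List ℕ) := (List.range n).flatMap fun q => (List.range 24).map fun h => symC h q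

theorem ho_symE (hM : Mdl B F M) (h0 : Ce NW TC 0) {n : ℕ} (hn : n ≤ 5) (hs : SrtF n F) :
    ∀ c ∈ symE n, Ho M c := by
  intro c hc
  obtain ⟨q, h1, h2⟩ := List.mem_flatMap.1 hc
  obtain ⟨h, h3, rfl⟩ := List.mem_map.1 h2
  rw [List.mem_range] at h1 h3
  by_cases hl : av M (H61.lA h (Nat.succ q))
  · rw [hM.lA h0 h3 (by omega)] at hl
    obtain ⟨h', h4, h5⟩ := hs q h1 h h3 hl
    have h6 : h' < 24 := by omega
    have h7 : q < 6 := by omega
    exact ⟨ps (H61.lA h' q), List.mem_cons_of_mem _ (List.mem_map.2 ⟨h', List.mem_range.2 h4, rfl⟩),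
      lv_ps.2 ((hM.lA h0 h6 h7).2 h5)⟩
  · exact ⟨_, List.mem_cons_self, lv_ng.2 hl⟩

end

/-- the permutation of six colours which fixes the last one -/
def up5 (τ : Equiv.Perm (Fin 5)) : Equiv.Perm (Fin 6) :=
  (finSuccEquivLast.trans (Equiv.optionCongr τ)).trans finSuccEquivLast.symm

theorem up5_lt (τ : Equiv.Perm (Fin 5)) (i : Fin 5) : up5 τ i.castSucc = (τ i).castSucc := by
  unfold up5
  simp

theorem up5_last (τ : Equiv.Perm (Fin 5)) : up5 τ (Fin.last 5) = Fin.last 5 := by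
  unfold up5
  rw [Equiv.trans_apply, Equiv.trans_apply, finSuccEquivLast_last]
  rfl

theorem pn_up5 (τ : Equiv.Perm (Fin 5)) {q : ℕ} (hq : q < 5) : pn (up5 τ) q = (τ ⟨q, hq⟩).val := by
  unfold pn
  have e : (Fin.ofNat 6 q) = (⟨q, hq⟩ : Fin 5).castSucc := by
    apply Fin.ext
    show q % 6 = q
    omega
  rw [e, up5_lt]
  rfl

theorem pn_up5_last (τ : Equiv.Perm (Fin 5)) : pn (up5 τ) 5 = 5 := by
  unfold pn
  have e : (Fin.ofNat 6 5) = Fin.last 5 := rfl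
  rw [e, up5_last]
  rfl

/-- **the colours can be renumbered** -/
theorem exists_sorted (F : Fr) : ∃ τ : Equiv.Perm (Fin 5), SrtF 4 (F.col (up5 τ)) := by
  classical
  let S : Fin 5 → Set ℕ := fun i => {h | h = 24 ∨ (h < 24 ∧ lc F h = co F.σ i.val)}
  let f : Fin 5 → ℕ := fun i => sInf (S i)
  have hf : ∀ i, f i ∈ S i := fun i => Nat.sInf_mem ⟨24, Or.inl rfl⟩
  refine ⟨Tuple.sort f, fun q hq h hh hl => ?_⟩
  have hm := Tuple.monotone_sort f
  rw [lc_col] at hl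
  have e1 : co (F.col (up5 (Tuple.sort f))).σ (q + 1) = co F.σ (Tuple.sort f ⟨q + 1, by omega⟩).val := by
    show co (F.σ * up5 (Tuple.sort f)) (q + 1) = _
    rw [co_pn, pn_up5 _ (by omega)]
  have e0 : co (F.col (up5 (Tuple.sort f))).σ q = co F.σ (Tuple.sort f ⟨q, by omega⟩).val := by
    show co (F.σ * up5 (Tuple.sort f)) q = _
    rw [co_pn, pn_up5 _ (by omega)]
  rw [e1] at hl
  have h1 : f (Tuple.sort f ⟨q + 1, by omega⟩) ≤ h := Nat.sInf_le (Or.inr ⟨hh, hl⟩)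
  have h2 : f (Tuple.sort f ⟨q, by omega⟩) ≤ f (Tuple.sort f ⟨q + 1, by omega⟩) :=
    hm (show (⟨q, by omega⟩ : Fin 5) ≤ ⟨q + 1, by omega⟩ from Nat.le_succ q)
  have h3 := hf (Tuple.sort f ⟨q, by omega⟩)
  generalize f (Tuple.sort f ⟨q, by omega⟩) = h' at *
  rcases h3 with h3 | ⟨h3, h4⟩
  · omega
  · refine ⟨h', ?_, ?_⟩
    · rcases Nat.lt_or_ge h' h with h5 | h5
      · exact h5
      · have h6 : h' = h := by omega
        subst h6
        rw [h4] at hl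
        have h7 := co_inj F.σ (by omega) (by omega) hl
        have h8 := (Tuple.sort f).injective (Fin.ext h7)
        have h9 : q = q + 1 := congrArg Fin.val h8
        omega
    · rw [lc_col, e0]
      exact h4

/-! ### tables of permutations -/

/-- the permutations of the table fix 5 -/
def okPX (PT NPM : ℕ) : Bool := al (fun i => isPm (Nat.land (Nat.shiftRight PT (Nat.mul 18 i)) 262143) &&
  Nat.beq (cpf (Nat.land (Nat.shiftRight PT (Nat.mul 18 i)) 262143) 5) 5) NPM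

theorem okPT_of {C : Fr → Prop} {PT NPM : ℕ} (h : okPX PT NPM = true)
    (hC : ∀ π : Equiv.Perm (Fin 6), pn π 5 = 5 → ∀ F, C F → C (F.col π)) : OkPT C PT NPM := by
  intro i hi
  have h1 := al_spec h i hi
  rw [Bool.and_eq_true, nbeq] at h1
  obtain ⟨π, hπ⟩ := exists_pm h1.1
  exact ⟨π, hπ, hC π ((hπ 5 (by norm_num)).trans h1.2)⟩

end Vale.Agent.P032.H61
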