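import Vale.Agent.P032X.H892.BlkE
import Vale.Agent.P032X.H61.BlkA
import Vale.Agent.P032X.H61.SymL

/-!
# P032: sorted frames in the blocks

* `CSo C` : the frames of the class `C` with the colours `0, .., 4` in the order of their first appearance in the letters
  of the centre; `dead_sorted` : it is enough to treat them,
* `dead_split` : case distinction on an atom,
* `eX1`, `eX1_ho` : the clauses of the sorted master of block X1 (five colours at both points), `eX3`, `eX3_ho` : the same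
  for block X3 (five and four colours); the same lists hold in the models with free atoms,
* `n55_of_sorted`, `n54_of_sorted` : the conclusions.
-/

open Set Filter Topology Metric

noncomputable section

namespace Vale.Agent.P032.H61

open Vale.Agent.P032.Six Vale.Agent.P032.Words Vale.Agent.P032.S5.H767 Vale.Agent.P032.H892
  Vale.Agent.P032.H913 Vale.Agent.P032.H357 Vale.Agent.P032.BlkV Vale.Agent.P032.BlkE
open Vale.Agent.P032.H357.MK (fx0 cf al al_spec Tb nbeq co alL alL_spec alLL alLL_spec Qy XV)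
open Vale.Agent.P032.H820.K (a0 a1 a2 a3 a4 En en_eq dec Md av lv Ho ps ng lv_ps lv_ng nbf lb lb_iff)

/-- the frames of the class with sorted colours -/
def CSo (C : Fr → Prop) (F : Fr) : Prop := C F ∧ SrtF 4 F

/-- **it is enough to treat the sorted frames** -/
theorem dead_sorted {κ : ℕ → ℤ × ℤ} {C : Fr → Prop} (hC : ∀ π : Equiv.Perm (Fin 6), pn π 5 = 5 → ∀ F, C F → C (F.col π))
    (h : Dead κ (CSo C) []) : Dead κ C [] := by
  intro F hF _
  obtain ⟨τ, hτ⟩ := exists_sorted F
  exact h _ ⟨hC _ (pn_up5_last τ) F hF, hτ⟩ fun l hl => absurd hl List.not_mem_nil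

/-- **case distinction on an atom** -/
theorem dead_split {κ : ℕ → ℤ × ℤ} {C : Fr → Prop} {P : List ℕ} (n : ℕ) (h1 : Dead κ C (ps n :: P))
    (h2 : Dead κ C (ng n :: P)) : Dead κ C P := by
  intro F hF hall
  have e1 : lf κ F (ps n) ↔ tv κ F n := by
    have a : (ps n) % 2 = 0 := by show (Nat.mul 2 n) % 2 = 0; exact Nat.mul_mod_right 2 n
    have b : (ps n) / 2 = n := by show (2 * n) / 2 = n; omega
    unfold lf
    rw [if_pos a, b]
  have e2 : lf κ F (ng n) ↔ ¬ tv κ F n := by
    have a : ¬ (ng n) % 2 = 0 := by show ¬ (2 * n + 1) % 2 = 0; omega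
    have b : (ng n) / 2 = n := by show (2 * n + 1) / 2 = n; omega
    unfold lf
    rw [if_neg a, b]
  by_cases h : tv κ F n
  · refine h1 F hF fun l hl => ?_
    rcases List.mem_cons.1 hl with rfl | hl
    · exact e1.2 h
    · exact hall l hl
  · refine h2 F hF fun l hl => ?_
    rcases List.mem_cons.1 hl with rfl | hl
    · exact e2.2 h
    · exact hall l hl

/-- a permutation which fixes 5 keeps `q < 5` -/
theorem pn_five {π : Equiv.Perm (Fin 6)} (h : pn π 5 = 5) : ∀ q < 6, (pn π q < 5 ↔ q < 5) := by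
  intro q hq
  have hlt := pn_lt π q
  constructor
  · intro h1
    by_contra h2
    have e : q = 5 := by omega
    subst e
    omega
  · intro h1
    by_contra h2
    have e : pn π q = 5 := by omega
    have h3 := H61.pn_ne (π := π) (p := q) (q := 5) hq (by norm_num) (by omega)
    omega

section
variable {k NP NW TB TC : ℕ} {Q : (ℂ → Set (Fin 6)) → Prop} {B : Tb NP NW TB TC} {F : Fr}
  {M : Md 2 NP NW (nbf 2 TB)}

theorem cw_col5 (π : Equiv.Perm (Fin 6)) (h : pn π 5 = 5) (F : Fr) (hF : CW Q 5 k NW TC F) :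
    CW Q 5 k NW TC (F.col π) := hF.col π (pn_five h)

/-- the clauses of the sorted master of block X1 -/
def eX1 : List (List ℕ) := eN 5 ++ (eV5 ++ symE 4)

/-- the clauses of the sorted master of block X3 -/
def eX3 : List (List ℕ) := eN 5 ++ (eV ++ symE 4)

theorem eX1_ho (h1 : kap TC 1 = (1, 0)) (g0 : Gp NP TC 0) (g1 : Gp NP TC 1) (h0 : kap TC 0 = (0, 0))
    (c0 : Ce NW TC 0) (hF : CSo (CW Q 5 5 NW TC) F) (hM : Mdl B F M) : ∀ c ∈ eX1, Ho M c := by
  intro c hc
  rcases List.mem_append.1 hc with hc | hc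
  · exact eN_ho h0 g0 (by norm_num) (by norm_num) hF.1.cq.cn hM c hc
  · rcases List.mem_append.1 hc with hc | hc
    · exact eV5_ho h1 g1 hF.1 hM c hc
    · exact ho_symE hM c0 (by norm_num) hF.2 c hc

theorem eX3_ho (h1 : kap TC 1 = (1, 0)) (g0 : Gp NP TC 0) (g1 : Gp NP TC 1) (h0 : kap TC 0 = (0, 0))
    (c0 : Ce NW TC 0) (hF : CSo (CW Q 5 4 NW TC) F) (hM : Mdl B F M) : ∀ c ∈ eX3, Ho M c := by
  intro c hc
  rcases List.mem_append.1 hc with hc | hc
  · exact eN_ho h0 g0 (by norm_num) (by norm_num) hF.1.cq.cn hM c hc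
  · rcases List.mem_append.1 hc with hc | hc
    · exact eV_ho h1 g1 hF.1.cv hM c hc
    · exact ho_symE hM c0 (by norm_num) hF.2 c hc

end

section
variable {NW TC : ℕ} {U : Fin 6 → Set ℂ} {T : ℂ → Set (Fin 6)}

/-- **block X1 from sorted frames**, both cases for the colour 5 at the point number 1 -/
theorem n55_of_sorted (hp : Dead (kap TC) (CSo (CW (fun _ => True) 5 5 NW TC)) [ps (En 4 1 0 0 5)])
    (hn : Dead (kap TC) (CSo (CW (fun _ => True) 5 5 NW TC)) [ng (En 4 1 0 0 5)]) (h : Irr U T) (hl : LF3 U T)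
    (hc : ∀ y, Ctn U T y) (hln : Ln U T) (h5 : ∀ y, (T y).ncard ≤ 5) : N55 T :=
  n55_of_dead (dead_sorted cw_col5 (dead_split _ hp hn)) h hl hc hln h5

/-- **block X3 from sorted frames** -/
theorem n54_of_sorted (hD : Dead (kap TC) (CSo (CW (fun T => N55 T ∧ ND5 T) 5 4 NW TC)) []) (h : Irr U T) (hl : LF3 U T)
    (hc : ∀ y, Ctn U T y) (hln : Ln U T) (h5 : ∀ y, (T y).ncard ≤ 5) (h55 : N55 T) (hnd : ND5 T) : N54 T :=
  n54_of_dead (dead_sorted cw_col5 hD) h hl hc hln h5 h55 hnd

end

end Vale.Agent.P032.H61
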