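import Vale.Agent.P032X.H61.SymG
import Vale.Agent.P032X.H357.RunH

/-!
# P032: models with free atoms and monitors

* `MdlX B XF F M` : `M` is a germ model of the frame `F` with free atoms (`H357.RunH.LegX`), the values of the free atoms
  are `XF F`; `MdlX.base`, `MdlX.av`, `exists_mdlX`,
* `bnd`, `ho_xT` : clauses about the points `< NP` hold also with free atoms,
* `dead_of_patH` : patterns which are certified with free atoms and monitors are dead,
* `tr_allH` : the tree of a list of such patterns, `dead_QX` : a query with free atoms.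
-/

open Set Filter Topology Metric

noncomputable section

namespace Vale.Agent.P032.H61

open Vale.Agent.P032.Six Vale.Agent.P032.Words Vale.Agent.P032.S5.H767 Vale.Agent.P032.H892
  Vale.Agent.P032.H913 Vale.Agent.P032.H357
open Vale.Agent.P032.H357.MK (fx0 cf al al_spec Tb nbeq co Cn Hy alL alL_spec alLL alLL_spec Pat Qy XV xT xT_av LegX RlX
  PatH pdrH Xok mS St4 exists_st4 Zf okA okH okP ok0 okH_spec okA_kind rn rnH rd rdH rc rcH Q0 Q1 Q0H Q1H)
open Vale.Agent.P032.H820.K (a0 a1 a2 a3 a4 En en_eq dec Md av lv Ho ps ng nbf lb lb_iff)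

section
variable {NP NW TB TC : ℕ} {B : Tb NP NW TB TC} {F : Fr} {M : Md 2 NP NW (nbf 2 TB)}

/-- `M` is a germ model of the frame `F`, with free atoms -/
def MdlX (B : Tb NP NW TB TC) (XF : Fr → XV NW) (F : Fr) (M : Md 2 NP NW (nbf 2 TB)) : Prop :=
  ∃ hy : Hy F.U F.T, LegX hy B F.z F.σ (XF F) F.b (rS (cxv NW TC) F.s0) (rS (cxv NW TC) F.s1) M

theorem MdlX.base {XF : Fr → XV NW} (hM : MdlX B XF F M) : ∃ M0 X, Mdl B F M0 ∧ M = xT M0 X := by
  obtain ⟨hy, u, hu, s0, s1, L, R, S, e0, e1, rfl⟩ := hM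
  exact ⟨_, _, ⟨hy, u, hu, s0, s1, L, R, S, e0, e1, rfl⟩, rfl⟩

/-- **the atoms of class 0** -/
theorem MdlX.av {XF : Fr → XV NW} (hM : MdlX B XF F M) {l : ℕ}
    (hv : Wa (Gp NP TC) (Ce NW TC) (a0 l) (a1 l) (a2 l) (a3 l) (a4 l)) : av M l ↔ tv (kap TC) F l := by
  obtain ⟨M0, X, h, rfl⟩ := hM.base
  rw [xT_av (Or.inl hv.va.pt.1)]
  exact h.av hv

theorem MdlX.lv {XF : Fr → XV NW} (hM : MdlX B XF F M) {l : ℕ}
    (hv : Wa (Gp NP TC) (Ce NW TC) (a0 (l / 2)) (a1 (l / 2)) (a2 (l / 2)) (a3 (l / 2)) (a4 (l / 2))) :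
    lv M l ↔ lf (kap TC) F l := by
  unfold H820.K.lv lf
  rw [hM.av hv]

theorem MdlX.irr {XF : Fr → XV NW} (hM : MdlX B XF F M) : Irr F.U F.T := by
  obtain ⟨hy, -⟩ := hM
  exact hy.h

/-- **there is a model with free atoms** -/
theorem exists_mdlX (B : Tb NP NW TB TC) (XF : Fr → XV NW) (hF : FOk (kap TC) (cxv NW TC) F) :
    ∃ M : Md 2 NP NW (nbf 2 TB), MdlX B XF F M := by
  have hu : F.b + 1 / 2 ∈ Ioo F.b (F.b + 1) := ⟨by linarith, by linarith⟩
  obtain ⟨L, hL⟩ := lst_ne hF.irr hF.lf3 (nX (Zf F.b TC F.z NW)) nO (F.b + 1 / 2)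
  obtain ⟨R, hR⟩ := rst_ne hF.irr hF.lf3 (nX (Zf F.b TC F.z NW)) nO (F.b + 1 / 2)
  have S : St4 F.U F.T (Zf F.b TC F.z NW) F.b (F.b + 1 / 2) (rS (cxv NW TC) F.s0) (rS (cxv NW TC) F.s1) L R :=
    ⟨by rw [zf_eq]; exact hF.r0, by rw [zf_eq]; exact hF.r1, hL, hR⟩
  obtain ⟨s0', s1', L', R', S', e0, e1, -, -⟩ := exists_st4 hF.hy S
  exact ⟨xT (mS hF.hy B F.z F.σ hu S') (XF F (F.b + 1 / 2) s0' s1' L' R'), hF.hy, _, hu, _, _, _, _, S', e0, e1, rfl⟩

/-! ### clauses about the points `< NP` -/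

theorem lv_xT {X : ℕ → ℕ → Prop} {l : ℕ} (h : a1 (l / 2) < NP) : H820.K.lv (xT M X) l ↔ H820.K.lv M l := by
  unfold H820.K.lv
  rw [xT_av (Or.inl h)]

/-- all literals are about points `< NP` -/
def bnd (NP : ℕ) (c : List ℕ) : Bool := alL (fun l => lb (a1 (Nat.div l 2)) NP) c

theorem ho_xT {X : ℕ → ℕ → Prop} {c : List ℕ} (h : bnd NP c = true) (hc : Ho M c) : Ho (xT M X) c := by
  obtain ⟨l, h1, h2⟩ := hc
  exact ⟨l, h1, (lv_xT (lb_iff.1 (alL_spec h l h1))).2 h2⟩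

/-- clauses of the models hold in the models with free atoms -/
theorem MdlX.ho {XF : Fr → XV NW} (hM : MdlX B XF F M) {E : List (List ℕ)} (hb : alLL (bnd NP) E = true)
    (h : ∀ M0, Mdl B F M0 → ∀ c ∈ E, Ho M0 c) : ∀ c ∈ E, Ho M c := by
  obtain ⟨M0, X, h1, rfl⟩ := hM.base
  exact fun c hc => ho_xT (alLL_spec hb c hc) (h M0 h1 c hc)

/-! ### certified patterns -/

/-- **patterns which are certified with free atoms and monitors are dead** (no monitors in the pattern) -/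
theorem dead_of_patH {B : Tb NP NW TB TC} {nm : ℕ} {XF : Fr → XV NW} {Kc : Fr → Fin nm → Prop}
    {Hs : Fr → Fin nm → Set ℝ} {E : List (List ℕ)} {P : List ℕ} {Inv : List (List ℕ)} {C : Fr → Prop}
    (hC : ∀ F, C F → FOk (kap TC) (cxv NW TC) F) (hcl : ∀ F, C F → ∀ i, IsClosed (Hs F i))
    (hX : ∀ F, C F → Xok (XF F) (Kc F) (Hs F) F.b) (hNP : NP ≤ 4095)
    (hE : ∀ F M, C F → MdlX B XF F M → ∀ c ∈ E, Ho M c) (hv : Vl (Gp NP TC) (Ce NW TC) P)
    (H : PatH NP NW TB TC nm E P Inv) : Dead (kap TC) C P := by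
  intro F hF hall
  obtain ⟨M, hM⟩ := exists_mdlX B XF (hC F hF)
  obtain ⟨hy, hl⟩ := id hM
  exact pdrH (hcl F hF) (hX F hF) hNP (fun M' hM' => hE F M' hF ⟨hy, hM'⟩) H
    ⟨M, hl, fun l hl => (hM.lv (hv l hl)).2 (hall l hl)⟩

theorem xok_zero {XF : Fr → XV NW} {Kc : Fr → Fin 0 → Prop} {Hs : Fr → Fin 0 → Set ℝ} :
    Xok (XF F) (Kc F) (Hs F) F.b := fun _ _ _ _ _ i => i.elim0

/-- certified pattern with monitors -/
def CrtH (NP NW TB TC nm : ℕ) (E : List (List ℕ)) (P : List ℕ) : Prop := ∃ I, PatH NP NW TB TC nm E P I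

/-- **the tree of a list of patterns which are certified with monitors** -/
theorem tr_allH {B : Tb NP NW TB TC} {nm : ℕ} {XF : Fr → XV NW} {Kc : Fr → Fin nm → Prop}
    {Hs : Fr → Fin nm → Set ℝ} {t : PTr} {L : List (List ℕ)} {E : List (List ℕ)} (h : chT NP NW TC t L = true)
    (hL : ∀ P ∈ L, CrtH NP NW TB TC nm E P) {C : Fr → Prop} (hC : ∀ F, C F → FOk (kap TC) (cxv NW TC) F)
    (hcl : ∀ F, C F → ∀ i, IsClosed (Hs F i)) (hX : ∀ F, C F → Xok (XF F) (Kc F) (Hs F) F.b) (hNP : NP ≤ 4095)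
    (hE : ∀ F M, C F → MdlX B XF F M → ∀ c ∈ E, Ho M c) :
    t.All fun p => Dead (kap TC) C (pk p) ∧ Vl (Gp NP TC) (Ce NW TC) (pk p) := by
  refine (PTr.all_of (acc := []) fun x hx => ?_).1
  obtain ⟨h1, h2⟩ := chL_spec h x hx
  obtain ⟨I, hI⟩ := hL _ h1
  exact ⟨dead_of_patH (B := B) hC hcl hX hNP hE h2 hI, h2⟩

/-! ### certificates without monitors are certificates with free atoms -/

theorem okH_zero {n : ℕ} (h : okH NW TC 0 n = true) : okA NW TC n = true := by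
  rcases okH_spec h with h | ⟨-, -, h⟩
  · exact h
  · omega

theorem okA_okH {nm n : ℕ} (h : okA NW TC n = true) : okH NW TC nm n = true := by
  unfold okH
  rw [h, Bool.true_or]

theorem rnH_eq {r n : ℕ} (h : okA NW TC n = true) : rnH r n = rn r n := by
  unfold rnH
  have : Nat.beq (Nat.mod n 16) 4 = false := by
    rw [← Bool.not_eq_true, nbeq]; exact okA_kind h
  rw [this, cond_false]

theorem rcH_eq {r : ℕ} {C : List ℕ} (h : ∀ l ∈ C, okA NW TC (Nat.div l 2) = true) : rcH r C = rc r C := by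
  unfold rcH rc
  refine List.map_congr_left fun l hl => ?_
  unfold rdH rd
  rw [rnH_eq (h l hl)]

/-- the points of the literals -/
def ptB (NP : ℕ) (P : List ℕ) : Bool := alL (fun l => Nat.ble (Nat.succ (Nat.mod (Nat.div (Nat.div l 2) 16) 4096)) NP) P

/-- **certificates without monitors are certificates with free atoms** -/
theorem patH_of_pat {nm : ℕ} {E : List (List ℕ)} {P : List ℕ} {Inv : List (List ℕ)} (hP : ptB NP P = true)
    (H : Pat NP NW TB TC E P Inv) : PatH NP NW TB TC nm E P Inv where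
  p0 := fun l hl => by
    unfold okP
    rw [H.p0 l hl, Bool.true_and, alL_spec hP l hl, Bool.true_or]
  i0 := fun C hC l hl => okA_okH (H.i0 C hC l hl)
  init := fun M hE hl h0 C hC => by
    rw [rcH_eq (H.i0 C hC)]
    refine H.init M hE hl (fun n hn r hr => ?_) C hC
    have h1 := h0 n (okA_okH hn) r hr
    rw [rnH_eq hn, rnH_eq hn] at h1
    exact h1
  step := fun M hE hl hi C hC => by
    rw [rcH_eq (H.i0 C hC)]
    refine H.step M hE hl (fun C' hC' => ?_) C hC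
    have h1 := hi C' hC'
    rw [rcH_eq (H.i0 C' hC')] at h1
    exact h1
  fin := fun M hE hl h0 hi => by
    refine H.fin M hE hl (fun n hn r hr hr0 => ?_) (fun C hC => ?_)
    · have h1 := h0 n (okA_okH hn) r hr hr0
      rw [rnH_eq hn, rnH_eq hn] at h1
      exact h1
    · have h1 := hi C hC
      rw [rcH_eq (H.i0 C hC)] at h1
      exact h1

/-! ### clauses from a function of codes -/

/-- certified pattern: `fam` gives the extra clauses, each pattern has its own list of codes -/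
def CrtF (NP NW TB TC : ℕ) (fam : ℕ → List ℕ) (P : List ℕ) : Prop :=
  ∃ (cs : List ℕ) (I : List (List ℕ)), Pat NP NW TB TC (cs.map fam) P I

/-- certified pattern with `nm` monitors -/
def CrtG (NP NW TB TC nm : ℕ) (fam : ℕ → List ℕ) (P : List ℕ) : Prop :=
  ∃ (cs : List ℕ) (I : List (List ℕ)), PatH NP NW TB TC nm (cs.map fam) P I

/-- **the tree of a list of certified patterns, extra clauses with free atoms from a function** -/
theorem tr_allF {B : Tb NP NW TB TC} {XF : Fr → XV NW} {t : PTr} {L : List (List ℕ)} {fam : ℕ → List ℕ}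
    (h : chT NP NW TC t L = true) (hL : ∀ P ∈ L, CrtF NP NW TB TC fam P) {C : Fr → Prop}
    (hC : ∀ F, C F → FOk (kap TC) (cxv NW TC) F) (hNP : NP ≤ 4095)
    (hE : ∀ F M, C F → MdlX B XF F M → ∀ c, Ho M (fam c)) :
    t.All fun p => Dead (kap TC) C (pk p) ∧ Vl (Gp NP TC) (Ce NW TC) (pk p) := by
  refine (PTr.all_of (acc := []) fun x hx => ?_).1
  obtain ⟨h1, h2⟩ := chL_spec h x hx
  obtain ⟨cs, I, hI⟩ := hL _ h1
  have h3 : ptB NP (pk x) = true := by
    have key : ∀ P : List ℕ, Vl (Gp NP TC) (Ce NW TC) P → ptB NP P = true := by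
      intro P hP
      induction P with
      | nil => rfl
      | cons l P ih =>
        have h4 : a1 (l / 2) < NP := (hP l List.mem_cons_self).va.pt.1
        show and (Nat.ble (Nat.succ (a1 (l / 2))) NP) (ptB NP P) = true
        rw [Bool.and_eq_true, Nat.ble_eq]
        exact ⟨h4, ih fun l' hl' => hP l' (List.mem_cons_of_mem _ hl')⟩
    exact key _ h2
  refine ⟨dead_of_patH (B := B) (nm := 0) (XF := XF) (Kc := fun _ i => i.elim0) (Hs := fun _ i => i.elim0) hC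
    (fun _ _ i => i.elim0) (fun _ _ => fun _ _ _ _ _ i => i.elim0) hNP (fun F M hF hM c hc => ?_) h2
    (patH_of_pat h3 hI), h2⟩
  obtain ⟨i, -, rfl⟩ := List.mem_map.1 hc
  exact hE F M hF hM i

/-- **the tree of a list of patterns which are certified with monitors, extra clauses from a function** -/
theorem tr_allG {B : Tb NP NW TB TC} {nm : ℕ} {XF : Fr → XV NW} {Kc : Fr → Fin nm → Prop}
    {Hs : Fr → Fin nm → Set ℝ} {t : PTr} {L : List (List ℕ)} {fam : ℕ → List ℕ} (h : chT NP NW TC t L = true)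
    (hL : ∀ P ∈ L, CrtG NP NW TB TC nm fam P) {C : Fr → Prop} (hC : ∀ F, C F → FOk (kap TC) (cxv NW TC) F)
    (hcl : ∀ F, C F → ∀ i, IsClosed (Hs F i)) (hX : ∀ F, C F → Xok (XF F) (Kc F) (Hs F) F.b) (hNP : NP ≤ 4095)
    (hE : ∀ F M, C F → MdlX B XF F M → ∀ c, Ho M (fam c)) :
    t.All fun p => Dead (kap TC) C (pk p) ∧ Vl (Gp NP TC) (Ce NW TC) (pk p) := by
  refine (PTr.all_of (acc := []) fun x hx => ?_).1
  obtain ⟨h1, h2⟩ := chL_spec h x hx
  obtain ⟨cs, I, hI⟩ := hL _ h1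
  refine ⟨dead_of_patH (B := B) hC hcl hX hNP (fun F M hF hM c hc => ?_) h2 hI, h2⟩
  obtain ⟨i, -, rfl⟩ := List.mem_map.1 hc
  exact hE F M hF hM i

/-! ### queries with free atoms -/

/-- **a query with free atoms** -/
theorem dead_QX (B : Tb NP NW TB TC) (XF : Fr → XV NW) {C' : Fr → Prop}
    (hOk : ∀ F, C' F → FOk (kap TC) (cxv NW TC) F) {P : List ℕ} (hv : Vl (Gp NP TC) (Ce NW TC) P)
    {E : ℕ → List ℕ} (hE : ∀ F M, C' F → MdlX B XF F M → (∀ l ∈ P, H820.K.lv M l) → ∀ i, Ho M (E i))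
    {cs : List ℕ} (hq : Qy NP NW TB (cs.map E)) : Dead (kap TC) C' P := by
  intro F hF hall
  obtain ⟨M, hM⟩ := exists_mdlX B XF (hOk F hF)
  refine hq M fun c hc => ?_
  obtain ⟨i, -, rfl⟩ := List.mem_map.1 hc
  exact hE F M hF hM (fun l hl => (hM.lv (hv l hl)).2 (hall l hl)) i

end

end Vale.Agent.P032.H61
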