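import Vale.Agent.P032X.H61.WordK
import Vale.Agent.P032X.H61.GenInd
import Vale.Agent.P032X.H892.GermC

/-!
# P032: real induction for fine letters and bits

Nodes `i : M` with centre `X i` and shift `off i`; `IOs U T X off u σ` : the inner and outer colours `σ i` of all nodes
at the time `u`.  `D j q` : closed sets of directions, bits as in `H892.GermC`.

* `DO` : the filter of the dense open sets; frequent is always meant in `𝓝[>] u ⊓ DO`,
* `lst_fam`, `rst_fam` : left and right states are families (`Fam`),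
* `ext_R`, `ext_L` : the states extend to further nodes,
* `gen_states` : **the induction**: there are start letters `s0` (a family just after `u1`) and end letters `s1` (a
  family just before `u1 + 1`) such that every set of states (letters, bits) which contains the start and is closed
  under the transitions at the times `u ∈ (u1, u1 + 1)` contains the end.
-/

open Set Filter Topology Metric

noncomputable section

namespace Vale.Agent.P032.H61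

open Vale.Agent.P032.Six Vale.Agent.P032.Words Vale.Agent.P032.S5.H767 Vale.Agent.P032.H892

variable {U : Fin 6 → Set ℂ} {T : ℂ → Set (Fin 6)}

/-- inner and outer colours of all nodes at the time `u` -/
def IOs (U : Fin 6 → Set ℂ) (T : ℂ → Set (Fin 6)) {M : Type*} (X : M → ℂ) (off : M → ℝ) (u : ℝ)
    (σ : M → Fin 6 × Fin 6) : Prop :=
  ∀ i, Ino U T (X i) (u + off i) (σ i).1 (σ i).2

/-! ### the filter of the dense open sets -/

/-- the filter of the dense open sets -/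
def DO : Filter ℝ where
  sets := {S | ∃ G ⊆ S, IsOpen G ∧ Dense G}
  univ_sets := ⟨univ, subset_univ _, isOpen_univ, dense_univ⟩
  sets_of_superset := fun ⟨G, h1, h2⟩ h3 => ⟨G, h1.trans h3, h2⟩
  inter_sets := fun ⟨G, h1, h2, h3⟩ ⟨G', h1', h2', h3'⟩ =>
    ⟨G ∩ G', inter_subset_inter h1 h1', h2.inter h2', h3.inter_of_isOpen_left h3' h2⟩

theorem mem_DO {G : Set ℝ} (h1 : IsOpen G) (h2 : ∀ v : ℝ, ∀ᶠ c in 𝓝[>] v, (G ∩ Ioo v c).Nonempty) :
    G ∈ DO := by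
  refine ⟨G, subset_rfl, h1, dense_iff_inter_open.2 fun O hO hne => ?_⟩
  obtain ⟨v, hv⟩ := hne
  obtain ⟨d, hd, hs⟩ := (mem_nhdsGT_iff_exists_Ioo_subset (a := v)).1
    (mem_nhdsWithin_of_mem_nhds (hO.mem_nhds hv))
  obtain ⟨c, h3, h4⟩ := ((h2 v).and (Ioo_mem_nhdsGT hd)).exists
  obtain ⟨w, hw1, hw2⟩ := h3
  exact ⟨w, hs ⟨hw2.1, hw2.2.trans h4.2⟩, hw1⟩

theorem neBot_R (u : ℝ) : (𝓝[>] u ⊓ DO).NeBot := by
  rw [inf_neBot_iff]
  rintro s hs s' ⟨G, hG, hGo, hGd⟩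
  obtain ⟨c, hc, hsub⟩ := (mem_nhdsGT_iff_exists_Ioo_subset (a := u)).1 hs
  obtain ⟨w, hw1, hw2⟩ := dense_iff_inter_open.1 hGd (Ioo u c) isOpen_Ioo (nonempty_Ioo.2 hc)
  exact ⟨w, hsub hw1, hG hw2⟩

theorem neBot_L (u : ℝ) : (𝓝[<] u ⊓ DO).NeBot := by
  rw [inf_neBot_iff]
  rintro s hs s' ⟨G, hG, hGo, hGd⟩
  obtain ⟨c, hc, hsub⟩ := (mem_nhdsLT_iff_exists_Ioo_subset (a := u)).1 hs
  obtain ⟨w, hw1, hw2⟩ := dense_iff_inter_open.1 hGd (Ioo c u) isOpen_Ioo (nonempty_Ioo.2 hc)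
  exact ⟨w, hsub hw1, hG hw2⟩

/-! ### every one sided state is a start -/

section
variable {S : Type*} {P : ℝ → S → Prop} {u : ℝ} {σ : S}

/-- a state which is dense in an open set is a left and right state at all its points -/
theorem dense_state {O : Set ℝ} (hO : IsOpen O) (hA : O ⊆ closure {v | P v σ}) {v : ℝ} (hv : v ∈ O) :
    σ ∈ LSt DO P v ∧ σ ∈ RSt DO P v := by
  constructor
  · show ∃ᶠ w in 𝓝[<] v ⊓ DO, P w σ
    rw [frequently_iff]
    intro N hN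
    obtain ⟨s1, h1, s2, ⟨G, hG, hGo, hGd⟩, hs⟩ := mem_inf_iff_superset.1 hN
    obtain ⟨c, hc, hsub⟩ := (mem_nhdsLT_iff_exists_Ioo_subset (a := v)).1
      (inter_mem h1 (mem_nhdsWithin_of_mem_nhds (hO.mem_nhds hv)))
    obtain ⟨w, hw1, hw2⟩ := dense_iff_inter_open.1 hGd (Ioo c v) isOpen_Ioo (nonempty_Ioo.2 hc)
    have h3 : w ∈ closure {v | P v σ} := hA (hsub hw1).2
    obtain ⟨w', h4, h5⟩ := mem_closure_iff.1 h3 (Ioo c v ∩ G) (isOpen_Ioo.inter hGo) ⟨hw1, hw2⟩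
    exact ⟨w', hs ⟨(hsub h4.1).1, hG h4.2⟩, h5⟩
  · show ∃ᶠ w in 𝓝[>] v ⊓ DO, P w σ
    rw [frequently_iff]
    intro N hN
    obtain ⟨s1, h1, s2, ⟨G, hG, hGo, hGd⟩, hs⟩ := mem_inf_iff_superset.1 hN
    obtain ⟨c, hc, hsub⟩ := (mem_nhdsGT_iff_exists_Ioo_subset (a := v)).1
      (inter_mem h1 (mem_nhdsWithin_of_mem_nhds (hO.mem_nhds hv)))
    obtain ⟨w, hw1, hw2⟩ := dense_iff_inter_open.1 hGd (Ioo v c) isOpen_Ioo (nonempty_Ioo.2 hc)
    have h3 : w ∈ closure {v | P v σ} := hA (hsub hw1).2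
    obtain ⟨w', h4, h5⟩ := mem_closure_iff.1 h3 (Ioo v c ∩ G) (isOpen_Ioo.inter hGo) ⟨hw1, hw2⟩
    exact ⟨w', hs ⟨(hsub h4.1).1, hG h4.2⟩, h5⟩

theorem freq_dense {c d : ℝ} (h : ∀ G : Set ℝ, IsOpen G → Dense G → ∃ v ∈ Ioo c d ∩ G, P v σ) :
    ∃ v ∈ Ioo c d, σ ∈ LSt DO P v ∧ σ ∈ RSt DO P v := by
  set A : Set ℝ := {v | P v σ} ∩ Ioo c d with hA
  have h1 : (interior (closure A)).Nonempty := by
    by_contra hcon
    rw [not_nonempty_iff_eq_empty] at hcon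
    have h2 : Dense (closure A)ᶜ := interior_eq_empty_iff_dense_compl.1 hcon
    obtain ⟨v, hv, hP⟩ := h _ isClosed_closure.isOpen_compl h2
    exact hv.2 (subset_closure ⟨hP, hv.1⟩)
  obtain ⟨v, hv⟩ := h1
  obtain ⟨v', h3, h4⟩ := mem_closure_iff.1 (interior_subset hv) _ isOpen_interior hv
  exact ⟨v', h4.2, dense_state isOpen_interior (interior_subset.trans (closure_mono inter_subset_left)) h3⟩

/-- **every right state is a start** -/
theorem start_of_rst (h : σ ∈ RSt DO P u) : ∃ᶠ v in 𝓝[>] u, σ ∈ LSt DO P v ∧ σ ∈ RSt DO P v := by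
  have h : ∃ᶠ w in 𝓝[>] u ⊓ DO, P w σ := h
  rw [frequently_iff]
  intro N hN
  obtain ⟨c, hc, hsub⟩ := (mem_nhdsGT_iff_exists_Ioo_subset (a := u)).1 hN
  obtain ⟨v, hv, h1⟩ := freq_dense (P := P) (σ := σ) (c := u) (d := c) fun G hGo hGd => by
    have h2 : Ioo u c ∩ G ∈ 𝓝[>] u ⊓ DO := inter_mem_inf (Ioo_mem_nhdsGT hc) ⟨G, subset_rfl, hGo, hGd⟩
    obtain ⟨w, hw, hw2⟩ := (h.and_eventually h2).exists
    exact ⟨w, hw2, hw⟩
  exact ⟨v, hsub hv, h1⟩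

/-- **every left state is an end** -/
theorem end_of_lst (h : σ ∈ LSt DO P u) : ∃ᶠ v in 𝓝[<] u, σ ∈ LSt DO P v ∧ σ ∈ RSt DO P v := by
  have h : ∃ᶠ w in 𝓝[<] u ⊓ DO, P w σ := h
  rw [frequently_iff]
  intro N hN
  obtain ⟨c, hc, hsub⟩ := (mem_nhdsLT_iff_exists_Ioo_subset (a := u)).1 hN
  obtain ⟨v, hv, h1⟩ := freq_dense (P := P) (σ := σ) (c := c) (d := u) fun G hGo hGd => by
    have h2 : Ioo c u ∩ G ∈ 𝓝[<] u ⊓ DO := inter_mem_inf (Ioo_mem_nhdsLT hc) ⟨G, subset_rfl, hGo, hGd⟩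
    obtain ⟨w, hw, hw2⟩ := (h.and_eventually h2).exists
    exact ⟨w, hw2, hw⟩
  exact ⟨v, hsub hv, h1⟩

end

/-- generic times of a node -/
def Gn (U : Fin 6 → Set ℂ) (T : ℂ → Set (Fin 6)) (x : ℂ) (o v : ℝ) : Prop :=
  (∀ᶠ w in 𝓝 (v + o), T (pt x w) = T (pt x (v + o))) ∧ ¬ Ex3 U T (pt x (v + o))

theorem tendsto_add_o (v o : ℝ) : Tendsto (fun w : ℝ => w + o) (𝓝 v) (𝓝 (v + o)) :=
  (by fun_prop : Continuous fun w : ℝ => w + o).tendsto v

theorem tendsto_sub_o (v o : ℝ) : Tendsto (fun w : ℝ => w - o) (𝓝 (v + o)) (𝓝 v) := by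
  have h := (by fun_prop : Continuous fun w : ℝ => w - o).tendsto (v + o)
  rwa [add_sub_cancel_right] at h

theorem gn_DO (h : Irr U T) (hl3 : LF3 U T) (x : ℂ) (o : ℝ) : ∀ᶠ v in DO, Gn U T x o v := by
  have h1 : {v : ℝ | ∀ᶠ w in 𝓝 (v + o), T (pt x w) = T (pt x (v + o))} ∈ DO := by
    refine mem_DO ?_ ?_
    · rw [isOpen_iff_mem_nhds]
      intro v hv
      have hv : ∀ᶠ w in 𝓝 (v + o), T (pt x w) = T (pt x (v + o)) := hv
      filter_upwards [(tendsto_add_o v o).eventually hv.eventually_nhds,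
        (tendsto_add_o v o).eventually hv] with w h1 h2
      show ∀ᶠ w' in 𝓝 (w + o), T (pt x w') = T (pt x (w + o))
      filter_upwards [h1] with w' h3
      rw [h3, h2]
    · intro v
      filter_upwards [self_mem_nhdsWithin] with c hc
      have hc : v < c := hc
      obtain ⟨τ, hτ, h2⟩ := loc_open h (J := Unit) (fun _ => x) (fun _ => o) (isOpen_Ioo (a := v) (b := c))
        (nonempty_Ioo.2 hc)
      refine ⟨τ, ?_, hτ⟩
      have h3 := h2 ()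
      show ∀ᶠ w in 𝓝 (τ + o), T (pt x w) = T (pt x (τ + o))
      rw [add_comm τ o]
      exact h3
  have h2 : {v : ℝ | ∀ᶠ w in 𝓝 (v + o), ¬ Ex3 U T (pt x w)} ∈ DO := by
    refine mem_DO ?_ ?_
    · rw [isOpen_iff_mem_nhds]
      intro v hv
      have hv : ∀ᶠ w in 𝓝 (v + o), ¬ Ex3 U T (pt x w) := hv
      exact (tendsto_add_o v o).eventually hv.eventually_nhds
    · intro v
      have h3 : ∀ᶠ w in 𝓝[>] (v + o), ¬ Ex3 U T (pt x w) :=
        (lf_circ hl3 x (v + o)).filter_mono (nhdsWithin_mono _ fun y hy => ne_of_gt hy)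
      obtain ⟨d, hd, hs⟩ := (mem_nhdsGT_iff_exists_Ioo_subset (a := v + o)).1 h3
      have hd : v + o < d := hd
      filter_upwards [self_mem_nhdsWithin] with c hc
      have hc : v < c := hc
      obtain ⟨w, hw1, hw2⟩ := exists_between (lt_min hc (show v < d - o by linarith))
      refine ⟨w, ?_, hw1, hw2.trans_le (min_le_left _ _)⟩
      show ∀ᶠ w' in 𝓝 (w + o), ¬ Ex3 U T (pt x w')
      have hw3 := hw2.trans_le (min_le_right _ _)
      filter_upwards [Ioo_mem_nhds (show v + o < w + o by linarith) (show w + o < d by linarith)] with w' hw'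
      exact hs hw'
  filter_upwards [h1, h2] with v hv1 hv2
  exact ⟨hv1, hv2.self_of_nhds⟩

section
variable {M : Type*} {X : M → ℂ} {off : M → ℝ} {u : ℝ} {σ : M → Fin 6 × Fin 6}

theorem gns_DO (h : Irr U T) (hl3 : LF3 U T) [Finite M] (X : M → ℂ) (off : M → ℝ) :
    ∀ᶠ v in DO, ∀ i, Gn U T (X i) (off i) v := eventually_all.2 fun i => gn_DO h hl3 (X i) (off i)

theorem ios_exists (h : Irr U T) {v : ℝ} (hv : ∀ i, Gn U T (X i) (off i) v) : ∃ σ, IOs U T X off v σ := by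
  choose p hp using fun i => exists_pure h (isOpen_in (X i)) (freq_in (dist_pt (X i) (v + off i)))
  choose q hq using fun i => exists_pure h (isOpen_out (X i)) (freq_out (dist_pt (X i) (v + off i)))
  exact ⟨fun i => (p i, q i), fun i => ⟨(hv i).1, (hv i).2, hp i, hq i⟩⟩

theorem to_R' {t : ℝ} : Tendsto (fun v : ℝ => v - t) (𝓝[>] t) (𝓝[>] 0) := by
  refine tendsto_nhdsWithin_of_tendsto_nhds_of_eventually_within _ ?_ ?_
  · have h5 : Continuous fun v : ℝ => v - t := by fun_prop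
    have h6 := h5.tendsto t
    rw [sub_self] at h6
    exact h6.mono_left nhdsWithin_le_nhds
  · filter_upwards [self_mem_nhdsWithin] with τ hτ
    have hτ : t < τ := hτ
    show 0 < τ - t
    linarith

theorem to_L' {t : ℝ} : Tendsto (fun v : ℝ => v - t) (𝓝[<] t) (𝓝[<] 0) := by
  refine tendsto_nhdsWithin_of_tendsto_nhds_of_eventually_within _ ?_ ?_
  · have h5 : Continuous fun v : ℝ => v - t := by fun_prop
    have h6 := h5.tendsto t
    rw [sub_self] at h6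
    exact h6.mono_left nhdsWithin_le_nhds
  · filter_upwards [self_mem_nhdsWithin] with τ hτ
    have hτ : τ < t := hτ
    show τ - t < 0
    linarith

theorem rst_fam (h : σ ∈ RSt DO (IOs U T X off) u) :
    Fam U T (𝓝[>] 0) X (fun i => u + off i) (fun i => (σ i).1) (fun i => (σ i).2) := by
  have h : ∃ᶠ v in 𝓝[>] u ⊓ DO, IOs U T X off v σ := h
  refine to_R'.frequently ((h.filter_mono inf_le_left).mono fun v hv i => ?_)
  have e : u + off i + (v - u) = v + off i := by ring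
  simp only
  rw [e]; exact hv i

theorem lst_fam (h : σ ∈ LSt DO (IOs U T X off) u) :
    Fam U T (𝓝[<] 0) X (fun i => u + off i) (fun i => (σ i).1) (fun i => (σ i).2) := by
  have h : ∃ᶠ v in 𝓝[<] u ⊓ DO, IOs U T X off v σ := h
  refine to_L'.frequently ((h.filter_mono inf_le_left).mono fun v hv i => ?_)
  have e : u + off i + (v - u) = v + off i := by ring
  simp only
  rw [e]; exact hv i

theorem lst_ne (h : Irr U T) (hl3 : LF3 U T) [Finite M] (X : M → ℂ) (off : M → ℝ) (u : ℝ) :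
    (LSt DO (IOs U T X off) u).Nonempty := by
  have := neBot_L u
  have h1 : ∀ᶠ v in 𝓝[<] u ⊓ DO, ∀ i, Gn U T (X i) (off i) v :=
    (gns_DO h hl3 X off).filter_mono inf_le_right
  exact LSt_nonempty (h1.frequently.mono fun v hv => ios_exists h hv)

theorem rst_ne (h : Irr U T) (hl3 : LF3 U T) [Finite M] (X : M → ℂ) (off : M → ℝ) (u : ℝ) :
    (RSt DO (IOs U T X off) u).Nonempty := by
  have := neBot_R u
  have h1 : ∀ᶠ v in 𝓝[>] u ⊓ DO, ∀ i, Gn U T (X i) (off i) v :=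
    (gns_DO h hl3 X off).filter_mono inf_le_right
  exact RSt_nonempty (h1.frequently.mono fun v hv => ios_exists h hv)

variable {M' : Type*} {X' : M' → ℂ} {off' : M' → ℝ}

theorem ext_aux (h : Irr U T) {v : ℝ} {e : M' → Option M}
    (he : ∀ i' i, e i' = some i → X' i' = X i ∧ ∃ n : ℤ, off' i' = off i + 6 * n)
    (hσ : IOs U T X off v σ) (hv : ∀ i, Gn U T (X' i) (off' i) v) :
    ∃ σ' : M' → Fin 6 × Fin 6, (∀ i' i, e i' = some i → σ' i' = σ i) ∧ IOs U T X' off' v σ' := by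
  obtain ⟨σ1, h1⟩ := ios_exists h hv
  refine ⟨fun i' => (e i').elim (σ1 i') σ, fun i' i hi => by simp only [hi, Option.elim], fun i' => ?_⟩
  rcases hc : e i' with _ | i
  · simp only [hc, Option.elim]; exact h1 i'
  · simp only [hc, Option.elim]
    obtain ⟨h2, n, h3⟩ := he i' i hc
    rw [h2, h3, ← add_assoc]
    exact (hσ i).per n

/-- **Extension** -/
theorem ext_R (h : Irr U T) (hl3 : LF3 U T) [Finite M'] {e : M' → Option M}
    (he : ∀ i' i, e i' = some i → X' i' = X i ∧ ∃ n : ℤ, off' i' = off i + 6 * n)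
    (hσ : σ ∈ RSt DO (IOs U T X off) u) :
    ∃ σ' : M' → Fin 6 × Fin 6, (∀ i' i, e i' = some i → σ' i' = σ i) ∧
      σ' ∈ RSt DO (IOs U T X' off') u := by
  have hσ : ∃ᶠ v in 𝓝[>] u ⊓ DO, IOs U T X off v σ := hσ
  have h1 : ∀ᶠ v in 𝓝[>] u ⊓ DO, ∀ i, Gn U T (X' i) (off' i) v :=
    (gns_DO h hl3 X' off').filter_mono inf_le_right
  obtain ⟨σ', h2⟩ := freq_ex ((hσ.and_eventually h1).mono fun v hv => ext_aux h he hv.1 hv.2)
  exact ⟨σ', h2.exists.elim fun _ hv => hv.1, h2.mono fun _ hv => hv.2⟩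

theorem ext_L (h : Irr U T) (hl3 : LF3 U T) [Finite M'] {e : M' → Option M}
    (he : ∀ i' i, e i' = some i → X' i' = X i ∧ ∃ n : ℤ, off' i' = off i + 6 * n)
    (hσ : σ ∈ LSt DO (IOs U T X off) u) :
    ∃ σ' : M' → Fin 6 × Fin 6, (∀ i' i, e i' = some i → σ' i' = σ i) ∧
      σ' ∈ LSt DO (IOs U T X' off') u := by
  have hσ : ∃ᶠ v in 𝓝[<] u ⊓ DO, IOs U T X off v σ := hσ
  have h1 : ∀ᶠ v in 𝓝[<] u ⊓ DO, ∀ i, Gn U T (X' i) (off' i) v :=
    (gns_DO h hl3 X' off').filter_mono inf_le_right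
  obtain ⟨σ', h2⟩ := freq_ex ((hσ.and_eventually h1).mono fun v hv => ext_aux h he hv.1 hv.2)
  exact ⟨σ', h2.exists.elim fun _ hv => hv.1, h2.mono fun _ hv => hv.2⟩

end

section
variable {M : Type*} {B : Type} {X : M → ℂ} {off : M → ℝ} {D : B → Fin 6 → Set ℝ} {u1 u : ℝ}

/-- letters and bits at the time `u` -/
def IOB (U : Fin 6 → Set ℂ) (T : ℂ → Set (Fin 6)) (X : M → ℂ) (off : M → ℝ) (D : B → Fin 6 → Set ℝ)
    (u1 u : ℝ) (s : (M → Fin 6 × Fin 6) × GB B × GB B) : Prop :=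
  IOs U T X off u s.1 ∧ s.2.1 = cAr D u1 u ∧ s.2.2 = cBr D u1 u

variable [Finite B]

theorem mem_lst_iff (hD : ∀ j q, IsClosed (D j q)) (h1 : u1 < u) (h2 : u ≤ u1 + 1)
    {s : (M → Fin 6 × Fin 6) × GB B × GB B} :
    s ∈ LSt DO (IOB U T X off D u1) u ↔ s.1 ∈ LSt DO (IOs U T X off) u ∧ s.2.1 = cAl D u1 u ∧
      s.2.2 = fun j m q => cBl D u1 u j m q ∨ (u = u1 + 1 ∧ cL D u1 j m q) := by
  have hev := (ev_cbits_left hD h1 h2).filter_mono (inf_le_left (b := DO))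
  constructor
  · intro h
    have h3 : ∃ᶠ v in 𝓝[<] u ⊓ DO, IOB U T X off D u1 v s := h
    obtain ⟨v, h4, h5⟩ := (h3.and_eventually hev).exists
    exact ⟨h3.mono fun v hv => hv.1, by rw [h4.2.1, h5.1], by rw [h4.2.2, h5.2]⟩
  · rintro ⟨h3, h4, h5⟩
    have h3 : ∃ᶠ v in 𝓝[<] u ⊓ DO, IOs U T X off v s.1 := h3
    exact (h3.and_eventually hev).mono fun v hv => ⟨hv.1, by rw [h4, hv.2.1], by rw [h5, hv.2.2]⟩

theorem mem_rst_iff (hD : ∀ j q, IsClosed (D j q)) (h1 : u1 ≤ u)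
    {s : (M → Fin 6 × Fin 6) × GB B × GB B} :
    s ∈ RSt DO (IOB U T X off D u1) u ↔ s.1 ∈ RSt DO (IOs U T X off) u ∧
      (s.2.1 = fun j m q => cAr D u1 u j m q ∨ (u = u1 ∧ cR D u1 j m q)) ∧ s.2.2 = cBr D u1 u := by
  have hev := (ev_cbits_right hD h1).filter_mono (inf_le_left (b := DO))
  constructor
  · intro h
    have h3 : ∃ᶠ v in 𝓝[>] u ⊓ DO, IOB U T X off D u1 v s := h
    obtain ⟨v, h4, h5⟩ := (h3.and_eventually hev).exists
    exact ⟨h3.mono fun v hv => hv.1, by rw [h4.2.1, h5.1], by rw [h4.2.2, h5.2]⟩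
  · rintro ⟨h3, h4, h5⟩
    have h3 : ∃ᶠ v in 𝓝[>] u ⊓ DO, IOs U T X off v s.1 := h3
    exact (h3.and_eventually hev).mono fun v hv => ⟨hv.1, by rw [h4, hv.2.1], by rw [h5, hv.2.2]⟩

omit [Finite B] in
theorem bl_eq (h2 : u < u1 + 1) :
    (fun j m q => cBl D u1 u j m q ∨ (u = u1 + 1 ∧ cL D u1 j m q)) = cBl D u1 u := by
  funext j m q
  exact propext ⟨fun h => h.resolve_right fun h3 => absurd h3.1 h2.ne, Or.inl⟩

omit [Finite B] in
theorem ar_eq (h1 : u1 < u) :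
    (fun j m q => cAr D u1 u j m q ∨ (u = u1 ∧ cR D u1 j m q)) = cAr D u1 u := by
  funext j m q
  exact propext ⟨fun h => h.resolve_right fun h3 => absurd h3.1 h1.ne', Or.inl⟩

omit [Finite B] in
theorem ar_u1 : (fun j m q => cAr D u1 u1 j m q ∨ (u1 = u1 ∧ cR D u1 j m q)) = cR D u1 := by
  funext j m q
  refine propext ⟨?_, fun h => Or.inr ⟨rfl, h⟩⟩
  rintro (⟨x, hx, k1, k2⟩ | h)
  · exact absurd k1 (not_lt.2 k2)
  · exact h.2

omit [Finite B] in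
theorem br_u1 : cBr D u1 u1 = cS D u1 := rfl

omit [Finite B] in
theorem al_u2 : cAl D u1 (u1 + 1) = cS D u1 := by
  funext j m q
  show (_ ∩ Ioo _ _).Nonempty = (_ ∩ Ioo _ _).Nonempty
  rw [show u1 + 1 + (m.val : ℝ) = u1 + m.val + 1 by ring]

omit [Finite B] in
theorem bl_u2 : (fun j m q => cBl D u1 (u1 + 1) j m q ∨ (u1 + 1 = u1 + 1 ∧ cL D u1 j m q)) = cL D u1 := by
  funext j m q
  refine propext ⟨?_, fun h => Or.inr ⟨rfl, h⟩⟩
  rintro (⟨x, hx, k1, k2⟩ | h)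
  · exact absurd k2 (not_lt.2 (by linarith))
  · exact h.2

/-- **The induction with fine letters and bits.**  `s0` is also a left and right state at points arbitrarily close to
`u1` where the bits are those of the start, `s1` the same at the end. -/
theorem gen_states (h : Irr U T) (hl3 : LF3 U T) [Finite M] (X : M → ℂ) (off : M → ℝ)
    (hD : ∀ j q, IsClosed (D j q)) (u1 : ℝ) :
    ∃ s0 s1 : M → Fin 6 × Fin 6, s0 ∈ RSt DO (IOs U T X off) u1 ∧ s1 ∈ LSt DO (IOs U T X off) (u1 + 1) ∧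
      (∃ u ∈ Ioo u1 (u1 + 1), s0 ∈ LSt DO (IOs U T X off) u ∧ s0 ∈ RSt DO (IOs U T X off) u ∧
        cAl D u1 u = cR D u1 ∧ cBl D u1 u = cS D u1 ∧ cAr D u1 u = cR D u1 ∧ cBr D u1 u = cS D u1) ∧
      (∃ u ∈ Ioo u1 (u1 + 1), s1 ∈ LSt DO (IOs U T X off) u ∧ s1 ∈ RSt DO (IOs U T X off) u ∧
        cAl D u1 u = cS D u1 ∧ cBl D u1 u = cL D u1 ∧ cAr D u1 u = cS D u1 ∧ cBr D u1 u = cL D u1) ∧
      ∀ V : (M → Fin 6 × Fin 6) → GB B → GB B → Prop, V s0 (cR D u1) (cS D u1) →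
        (∀ u ∈ Ioo u1 (u1 + 1), ∀ L ∈ LSt DO (IOs U T X off) u, ∀ R ∈ RSt DO (IOs U T X off) u,
          V L (cAl D u1 u) (cBl D u1 u) → V R (cAr D u1 u) (cBr D u1 u)) →
        V s1 (cS D u1) (cL D u1) := by
  have hab : u1 < u1 + 1 := by linarith
  have hL : ∀ u ∈ Ioo u1 (u1 + 1), (LSt DO (IOB U T X off D u1) u).Nonempty := by
    intro u hu
    obtain ⟨σ, hσ⟩ := lst_ne h hl3 X off u
    exact ⟨(σ, _, _), (mem_lst_iff hD hu.1 hu.2.le).2 ⟨hσ, rfl, rfl⟩⟩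
  have hR : ∀ u ∈ Ioo u1 (u1 + 1), (RSt DO (IOB U T X off D u1) u).Nonempty := by
    intro u hu
    obtain ⟨σ, hσ⟩ := rst_ne h hl3 X off u
    exact ⟨(σ, _, _), (mem_rst_iff hD hu.1.le).2 ⟨hσ, rfl, rfl⟩⟩
  obtain ⟨⟨s0, A0, B0⟩, h0⟩ := exists_start hab hL
  obtain ⟨⟨s1, A1, B1⟩, h1⟩ := exists_end hab hL
  have k0 := (mem_rst_iff hD le_rfl).1 (mem_RSt_of (h0.mono fun u hu => Or.inl hu.1))
  rw [ar_u1, br_u1] at k0
  have k1 := (mem_lst_iff hD hab le_rfl).1 (mem_LSt_of (h1.mono fun u hu => Or.inl hu.1))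
  rw [al_u2, bl_u2] at k1
  obtain ⟨k01, k02, k03⟩ := k0
  obtain ⟨k11, k12, k13⟩ := k1
  simp only at k01 k02 k03 k11 k12 k13
  subst k02 k03 k12 k13
  refine ⟨s0, s1, k01, k11, ?_, ?_, fun V hV0 hstep => ?_⟩
  · obtain ⟨u, ⟨hu1, hu2⟩, hu⟩ := (h0.and_eventually (Ioo_mem_nhdsGT hab)).exists
    have m1 := (mem_lst_iff hD hu.1 hu.2.le).1 hu1
    have m2 := (mem_rst_iff hD hu.1.le).1 hu2
    rw [bl_eq hu.2] at m1
    rw [ar_eq hu.1] at m2
    exact ⟨u, hu, m1.1, m2.1, m1.2.1.symm, m1.2.2.symm, m2.2.1.symm, m2.2.2.symm⟩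
  · obtain ⟨u, ⟨hu1, hu2⟩, hu⟩ := (h1.and_eventually (Ioo_mem_nhdsLT hab)).exists
    have m1 := (mem_lst_iff hD hu.1 hu.2.le).1 hu1
    have m2 := (mem_rst_iff hD hu.1.le).1 hu2
    rw [bl_eq hu.2] at m1
    rw [ar_eq hu.1] at m2
    exact ⟨u, hu, m1.1, m2.1, m1.2.1.symm, m1.2.2.symm, m2.2.1.symm, m2.2.2.symm⟩
  · have := gen_run (E := DO) (P := IOB U T X off D u1) hab hR
      (V := {s | V s.1 s.2.1 s.2.2}) (fun u hu s hs s' hs' hV => by
        have m1 := (mem_lst_iff hD hu.1 hu.2.le).1 hs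
        have m2 := (mem_rst_iff hD hu.1.le).1 hs'
        rw [bl_eq hu.2] at m1
        rw [ar_eq hu.1] at m2
        have hV : V s.1 s.2.1 s.2.2 := hV
        rw [m1.2.1, m1.2.2] at hV
        show V s'.1 s'.2.1 s'.2.2
        rw [m2.2.1, m2.2.2]
        exact hstep u hu s.1 m1.1 s'.1 m2.1 hV) (s0 := (s0, cR D u1, cS D u1))
      (h0.mono fun u hu => hu.1) hV0 (s1, cS D u1, cL D u1) (h1.mono fun u hu => hu.2)
    exact this

/-- **The induction, every start and every end.**  `s0` any right state at `u1`, `s1` any left state at `u1 + 1`. -/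
theorem gen_states_all (h : Irr U T) (hl3 : LF3 U T) [Finite M] (hD : ∀ j q, IsClosed (D j q))
    {u1 : ℝ} {s0 s1 : M → Fin 6 × Fin 6} (k0 : s0 ∈ RSt DO (IOs U T X off) u1)
    (k1 : s1 ∈ LSt DO (IOs U T X off) (u1 + 1)) :
      (∃ u ∈ Ioo u1 (u1 + 1), s0 ∈ LSt DO (IOs U T X off) u ∧ s0 ∈ RSt DO (IOs U T X off) u ∧
        cAl D u1 u = cR D u1 ∧ cBl D u1 u = cS D u1 ∧ cAr D u1 u = cR D u1 ∧ cBr D u1 u = cS D u1) ∧
      (∃ u ∈ Ioo u1 (u1 + 1), s1 ∈ LSt DO (IOs U T X off) u ∧ s1 ∈ RSt DO (IOs U T X off) u ∧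
        cAl D u1 u = cS D u1 ∧ cBl D u1 u = cL D u1 ∧ cAr D u1 u = cS D u1 ∧ cBr D u1 u = cL D u1) ∧
      ∀ V : (M → Fin 6 × Fin 6) → GB B → GB B → Prop, V s0 (cR D u1) (cS D u1) →
        (∀ u ∈ Ioo u1 (u1 + 1), ∀ L ∈ LSt DO (IOs U T X off) u, ∀ R ∈ RSt DO (IOs U T X off) u,
          V L (cAl D u1 u) (cBl D u1 u) → V R (cAr D u1 u) (cBr D u1 u)) →
        V s1 (cS D u1) (cL D u1) := by
  have hab : u1 < u1 + 1 := by linarith
  have hR : ∀ u ∈ Ioo u1 (u1 + 1), (RSt DO (IOB U T X off D u1) u).Nonempty := by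
    intro u hu
    obtain ⟨σ, hσ⟩ := rst_ne h hl3 X off u
    exact ⟨(σ, _, _), (mem_rst_iff hD hu.1.le).2 ⟨hσ, rfl, rfl⟩⟩
  have m0 : (s0, cR D u1, cS D u1) ∈ RSt DO (IOB U T X off D u1) u1 :=
    (mem_rst_iff hD le_rfl).2 ⟨k0, ar_u1.symm, rfl⟩
  have m1 : (s1, cS D u1, cL D u1) ∈ LSt DO (IOB U T X off D u1) (u1 + 1) :=
    (mem_lst_iff hD hab le_rfl).2 ⟨k1, al_u2.symm, bl_u2.symm⟩
  have h0 := start_of_rst m0
  have h1 := end_of_lst m1
  refine ⟨?_, ?_, fun V hV0 hstep => ?_⟩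
  · obtain ⟨u, ⟨hu1, hu2⟩, hu⟩ := (h0.and_eventually (Ioo_mem_nhdsGT hab)).exists
    have m1 := (mem_lst_iff hD hu.1 hu.2.le).1 hu1
    have m2 := (mem_rst_iff hD hu.1.le).1 hu2
    rw [bl_eq hu.2] at m1
    rw [ar_eq hu.1] at m2
    exact ⟨u, hu, m1.1, m2.1, m1.2.1.symm, m1.2.2.symm, m2.2.1.symm, m2.2.2.symm⟩
  · obtain ⟨u, ⟨hu1, hu2⟩, hu⟩ := (h1.and_eventually (Ioo_mem_nhdsLT hab)).exists
    have m1 := (mem_lst_iff hD hu.1 hu.2.le).1 hu1
    have m2 := (mem_rst_iff hD hu.1.le).1 hu2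
    rw [bl_eq hu.2] at m1
    rw [ar_eq hu.1] at m2
    exact ⟨u, hu, m1.1, m2.1, m1.2.1.symm, m1.2.2.symm, m2.2.1.symm, m2.2.2.symm⟩
  · have := gen_run (E := DO) (P := IOB U T X off D u1) hab hR
      (V := {s | V s.1 s.2.1 s.2.2}) (fun u hu s hs s' hs' hV => by
        have m1 := (mem_lst_iff hD hu.1 hu.2.le).1 hs
        have m2 := (mem_rst_iff hD hu.1.le).1 hs'
        rw [bl_eq hu.2] at m1
        rw [ar_eq hu.1] at m2
        have hV : V s.1 s.2.1 s.2.2 := hV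
        rw [m1.2.1, m1.2.2] at hV
        show V s'.1 s'.2.1 s'.2.2
        rw [m2.2.1, m2.2.2]
        exact hstep u hu s.1 m1.1 s'.1 m2.1 hV) (s0 := (s0, cR D u1, cS D u1))
      (h0.mono fun u hu => hu.1) hV0 (s1, cS D u1, cL D u1) (h1.mono fun u hu => hu.2)
    exact this

end

end Vale.Agent.P032.H61
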