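import Vale.Agent.P032X.H61.TabF
import Vale.Agent.P032X.H820.K.Pipe
import Vale.Agent.P032X.H299.GamW

/-!
# P032: a common point with the missing colours of two two-pair centres, static part

* `not_ino` : the exact letters of a two-pair centre are its two pairs,
* `tyL`, `onL` : the clauses of a palette, of the exact letters,
* `stat` : palettes of points of class 0 and 1 together with a query give a contradiction.
-/

open Set Filter Topology Metric

noncomputable section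

namespace Vale.Agent.P032.H61.BM

open Vale.Agent.P032.Six Vale.Agent.P032.Words Vale.Agent.P032.H892 Vale.Agent.P032.H913 Vale.Agent.P032.S5.H767
  Vale.Agent.P032.H61 Vale.Agent.P032.H357 Vale.Agent.P032.H357.MK
open Vale.Agent.P032.H820.K (nbf Md En av lv ps ng Ho av4 av9 hn lv_ps lv_ng)

variable {U : Fin 6 → Set ℂ} {T : ℂ → Set (Fin 6)}

/-- minimal palettes of the points with four colours -/
def Mn4 (U : Fin 6 → Set ℂ) (T : ℂ → Set (Fin 6)) : Prop :=
  MnG U T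

/-- the two-coloured points of the unit circle about `y`, with colours of `y`, carry the two pairs -/
def Onl (T : ℂ → Set (Fin 6)) (y : ℂ) (a b c d : Fin 6) : Prop :=
  ∀ p, dist p y = 1 → (T p).ncard = 2 → T p ⊆ T y → T p = {a, b} ∨ T p = {c, d}

theorem onl_of (h : Irr U T) (hM : Mn4 U T) {y : ℂ} {a b c d : Fin 6} (hz : DPt T y a b c d) :
    Onl T y a b c d := by
  intro p hp h2 hs
  have h4 : (T y).ncard = 4 := by
    rw [hz.pal, Set.ncard_insert_of_notMem (by simp [hz.ab, hz.ac, hz.ad]),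
      Set.ncard_insert_of_notMem (by simp [hz.bc, hz.bd]), Set.ncard_pair hz.cd]
  have key : ∀ {a b c d : Fin 6}, DPt T y a b c d → T p = {a, b} ∨ Disjoint ({a, b} : Set (Fin 6)) (T p) := by
    intro a b c d hz
    obtain ⟨g, hg⟩ := hz.arc1
    have hTg : T g = {a, b} := hg.2.self_of_nhdsWithin hg.1
    rcases h.pairs_disjoint hM h4 hg.1 hp (by rw [hTg, hz.pal]; rintro m (rfl | rfl) <;> simp) hs
      (by rw [hTg]; exact Set.ncard_pair hz.ab) h2 with k1 | k1
    · exact Or.inl (by rw [← k1, hTg])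
    · exact Or.inr (by rwa [hTg] at k1)
  rcases key hz with h1 | d1
  · exact Or.inl h1
  rcases key hz.swap with h1 | d2
  · exact Or.inr h1
  exfalso
  obtain ⟨i, hi⟩ : (T p).Nonempty := Set.nonempty_of_ncard_ne_zero (by omega)
  have hi' := hs hi
  rw [hz.pal] at hi'
  rcases hi' with h5 | h5 | h5 | h5
  · exact (Set.disjoint_left.1 d1) (by rw [h5]; simp) hi
  · exact (Set.disjoint_left.1 d1) (by rw [h5]; simp) hi
  · exact (Set.disjoint_left.1 d2) (by rw [h5]; simp) hi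
  · exact (Set.disjoint_left.1 d2) (by rw [mem_singleton_iff.1 h5]; simp) hi

/-- **the exact letters of a two-pair centre** -/
theorem not_ino (F : Hy U T) {y : ℂ} {a b c d : Fin 6} (hO : Onl T y a b c d) {v : ℝ} {i j : Fin 6}
    (hi : i ∈ T y) (hj : j ∈ T y) (h1 : ({i, j} : Set (Fin 6)) ≠ {a, b}) (h2 : ({i, j} : Set (Fin 6)) ≠ {c, d})
    (hij : i ≠ j) : ¬ Ino U T y v i j := by
  intro I
  have hT : T (pt y v) = {i, j} := by
    refine Subset.antisymm (I.pal_sub F.h F.ln (F.ct _)) ?_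
    rintro m (rfl | rfl)
    exacts [I.p_mem F.h, I.q_mem F.h]
  have hs : T (pt y v) ⊆ T y := by
    rw [hT]
    rintro m (rfl | rfl)
    exacts [hi, hj]
  rcases hO _ (dist_pt y v) (by rw [hT, Set.ncard_pair hij]) hs with k | k
  · exact h1 (by rw [← hT, k])
  · exact h2 (by rw [← hT, k])

/-! ### clauses -/

/-- the palette of the point `x` is the set of the bits of `m` -/
def tyL (x m : ℕ) : List (List ℕ) :=
  (List.range 6).map fun q => bif Nat.testBit m q then [ps (En 4 x 0 0 q)] else [ng (En 4 x 0 0 q)]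

/-- no letter of the point `x` is a pair of the list `B` -/
def onL (x : ℕ) (B : List (ℕ × ℕ)) : List (List ℕ) :=
  (List.range 12).flatMap fun t => [0, 1].flatMap fun sd => B.map fun p =>
    [ng (En 9 x t (Nat.mul 2 sd) p.1), ng (En 9 x t (Nat.succ (Nat.mul 2 sd)) p.2)]

/-- the static model -/
def mB (F : Hy U T) (z : ℂ) (σ : Equiv.Perm (Fin 6)) {u1 u : ℝ} (hu : u ∈ Ioo u1 (u1 + 1))
    {W : Fin 13 → ℕ → ℕ → ℕ → Fin 6} (D : Wd U T 2 (t2 u1 u) (fun j : Fin 13 => Yt (t2 u1 u) 2 TF.TC z j.val) W) :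
    Md 2 73 13 (nbf 2 TF.TB) :=
  mkMd F.h F.ct F.h5 F.ln (tick_t2 hu) σ (by norm_num) (by norm_num) (by norm_num) (Yt (t2 u1 u) 2 TF.TC z)
    (hY_of_tchk (tick_t2 hu) z TF.tchk_ok) D

section
variable (F : Hy U T) {z : ℂ} {σ : Equiv.Perm (Fin 6)} {u1 u : ℝ} (hu : u ∈ Ioo u1 (u1 + 1))
  {W : Fin 13 → ℕ → ℕ → ℕ → Fin 6} (D : Wd U T 2 (t2 u1 u) (fun j : Fin 13 => Yt (t2 u1 u) 2 TF.TC z j.val) W)

theorem ho_ty {x m : ℕ} (hx : x < 73)
    (h : ∀ q < 6, (co σ q ∈ T (Yt (t2 u1 u) 2 TF.TC z x) ↔ Nat.testBit m q = true)) :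
    ∀ c ∈ tyL x m, Ho (mB F z σ hu D) c := by
  intro c hc
  obtain ⟨q, hq, rfl⟩ := List.mem_map.1 hc
  have hq6 := List.mem_range.1 hq
  have h1 : av (mB F z σ hu D) (En 4 x 0 0 q) ↔ co σ q ∈ T (Yt (t2 u1 u) 2 TF.TC z x) := av4 (by omega)
  rw [h q hq6] at h1
  cases hb : Nat.testBit m q
  · exact ⟨_, List.mem_singleton_self _, lv_ng.2 (by rw [h1, hb]; simp)⟩
  · exact ⟨_, List.mem_singleton_self _, lv_ps.2 (h1.2 hb)⟩

theorem ho_on {x : ℕ} {B : List (ℕ × ℕ)} (hx : x < 13)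
    (h : ∀ p ∈ B, ∀ v, ¬ Ino U T (Yt (t2 u1 u) 2 TF.TC z x) v (co σ p.1) (co σ p.2)) :
    ∀ c ∈ onL x B, Ho (mB F z σ hu D) c := by
  intro c hc
  obtain ⟨t, ht, h1⟩ := List.mem_flatMap.1 hc
  obtain ⟨sd, hsd, h2⟩ := List.mem_flatMap.1 h1
  obtain ⟨p, hp, rfl⟩ := List.mem_map.1 h2
  have ht12 := List.mem_range.1 ht
  have hsd2 : sd < 2 := by
    rcases List.mem_cons.1 hsd with h3 | h3
    · omega
    · have := List.mem_singleton.1 h3; omega
  refine hn fun k1 => ⟨_, List.mem_singleton_self _, lv_ng.2 fun k2 => ?_⟩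
  have e1 : Nat.mul 2 sd = 2 * sd := rfl
  have e2 : Nat.succ (Nat.mul 2 sd) = 2 * sd + 1 := rfl
  rw [e1, av9 (by omega) (by omega) (by omega)] at k1
  rw [e2, av9 (by omega) (by omega) (by omega)] at k2
  rw [show 2 * sd / 2 = sd by omega, show 2 * sd % 2 = 0 by omega] at k1
  rw [show (2 * sd + 1) / 2 = sd by omega, show (2 * sd + 1) % 2 = 1 by omega] at k2
  have k1 : nC σ 2 13 (fun _ => W) x t sd 0 = p.1 := k1
  have k2 : nC σ 2 13 (fun _ => W) x t sd 1 = p.2 := k2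
  have c1 : co σ p.1 = W ⟨x, hx⟩ t sd 0 := by rw [← k1]; exact co_nC hx
  have c2 : co σ p.2 = W ⟨x, hx⟩ t sd 1 := by rw [← k2]; exact co_nC hx
  obtain ⟨τ, hτ⟩ := (D.fam1 sd t).exists
  have h5 := hτ ⟨x, hx⟩
  refine h p hp (t2 u1 u t + τ) ?_
  rw [c1, c2]
  exact h5

end

/-- the pairs which do not occur at the first, at the second centre -/
def BZ : List (ℕ × ℕ) := [(0, 2), (0, 3), (1, 2), (1, 3), (2, 0), (2, 1), (3, 0), (3, 1)]
def BW : List (ℕ × ℕ) := [(0, 2), (0, 5), (2, 0), (2, 4), (4, 2), (4, 5), (5, 0), (5, 4)]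

/-- the clauses for the second centre at the tick `t` -/
def E1 (t : ℕ) : List (List ℕ) :=
  tyL 0 58 ++ (tyL 7 15 ++ (tyL (Nat.succ t) 53 ++ (onL 7 BZ ++ onL (Nat.succ t) BW)))

/-- the clauses for both common points -/
def E3 : List (List ℕ) := E1 3 ++ tyL 32 58

end Vale.Agent.P032.H61.BM
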