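import Vale.Agent.P032X.H61.BadS
import Vale.Agent.P032X.H355.ZK
import Vale.Agent.P032X.H355.SoftM

/-!
# P032: the statements S1, S2 for six-coloured planar maps

`hy_soft` : a connected frame with at most five colours has a soft copy with all hypotheses of the
static system.
`at_pair` : a two-pair point of the minimal frame with a point with at least four colours at distance
one is a two-pair point of the soft copy with the same pairs, and the palette of the other point is the
same.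
`s1_map`, `s2_map` : **S1 and S2 in the minimal frame**.
-/

open Set Filter Topology Metric

noncomputable section

namespace Vale.Agent.P032.H61.BM

open Vale.Agent.P032.Six Vale.Agent.P032.H355 Vale.Agent.P032.H299 Vale.Agent.P032.H357 Vale.Agent.P032.H357.MK

variable {U : Fin 6 → Set ℂ} {T T' : ℂ → Set (Fin 6)}

theorem hy_soft (h : MapC U T') (h5 : ∀ z, (T' z).ncard ≤ 5) :
    ∃ S, Hy U S ∧ ∀ x ∈ XX U, S x = T' x := by
  obtain ⟨S, h1, h2, h3⟩ := h.exists_soft
  refine ⟨S, ⟨h1.irr, fun y => ?_, fun y => ?_, h1.lf, h3⟩, h2⟩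
  · filter_upwards [h1.ctn y] with w hw i hi
    obtain ⟨Q, q1, q2, q3, q4, -⟩ := hw i hi
    exact ⟨Q, q1, q2, q3, q4⟩
  · by_contra hc
    push Not at hc
    have k1 : S y = univ := eq_univ_of_forall hc
    have k2 : (S y).ncard ≤ 5 := fix_le h1.irr h2 (by norm_num) h5 y
    rw [k1, Set.ncard_univ, Nat.card_eq_fintype_card, Fintype.card_fin] at k2
    omega

theorem at_pair (h : MapPr U T T')
    (hX : ∀ z v, dist z v = 1 → (T' z).ncard = 5 → 4 ≤ (T' v).ncard → False)
    {S : ℂ → Set (Fin 6)} (hS : Irr U S) (he : ∀ x ∈ XX U, S x = T' x)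
    {z v : ℂ} {a b c d : Fin 6} (hzv : dist v z = 1) (hz : DPt T z a b c d) (hv : 4 ≤ (T v).ncard) :
    DPt S z a b c d ∧ Onl S z a b c d ∧ S v = T v := by
  obtain ⟨-, e2, h1, h2, h3, -⟩ := h.pair_near hX (by rw [dist_comm]; exact hzv) hz hv
  have k1 := dpt_card h1
  refine ⟨fix_dpt h.cn.irr he h1, fix_only h.cn.irr hS he k1.ge h2, ?_⟩
  rw [he v (Irr_four_mem h.cn.irr h3.ge), e2.self_of_nhds]

theorem bad_card {w w' m : ℂ} {a b c d e f : Fin 6} (B : Bad T w w' m a b c d e f) :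
    4 ≤ (T m).ncard := by
  have nd := B.nd
  simp only [List.nodup_cons, List.mem_cons, List.not_mem_nil, or_false, not_or, not_false_eq_true,
    List.nodup_nil, and_true] at nd
  obtain ⟨⟨-, ac, -, ae, af⟩, -, ⟨-, ce, cf⟩, -, ef⟩ := nd
  rw [B.pal, Set.ncard_insert_of_notMem (by simp [ac, ae, af]),
    Set.ncard_insert_of_notMem (by simp [ce, cf]), Set.ncard_pair ef]

/-- **`S1` in the minimal frame** -/
theorem s1_map (h : MapPr U T T')
    (hX : ∀ z v, dist z v = 1 → (T' z).ncard = 5 → 4 ≤ (T' v).ncard → False) : S1 T := by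
  obtain ⟨S, F, he⟩ := hy_soft h.cn h.le'
  intro w w' m a b c d e f B hne hd
  obtain ⟨p1, p2, p3⟩ := at_pair h hX F.h he B.dw B.hw (bad_card B)
  obtain ⟨q1, q2, -⟩ := at_pair h hX F.h he B.dw' B.hw' (bad_card B)
  exact s1_at F ⟨B.nd, p1, q1, B.dw, B.dw', by rw [p3]; exact B.pal⟩ p2 q2 hne hd

/-- **`S2` in the minimal frame** -/
theorem s2_map (h : MapPr U T T')
    (hX : ∀ z v, dist z v = 1 → (T' z).ncard = 5 → 4 ≤ (T' v).ncard → False) : S2 T := by
  obtain ⟨S, F, he⟩ := hy_soft h.cn h.le'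
  intro w w' m m' a b c d e f B B' hs hne
  obtain ⟨p1, p2, p3⟩ := at_pair h hX F.h he B.dw B.hw (bad_card B)
  obtain ⟨q1, q2, -⟩ := at_pair h hX F.h he B.dw' B.hw' (bad_card B)
  obtain ⟨-, -, r3⟩ := at_pair h hX F.h he B'.dw B'.hw (bad_card B')
  exact s2_at F ⟨B.nd, p1, q1, B.dw, B.dw', by rw [p3]; exact B.pal⟩ p2 q2
    (by rw [r3]; exact B'.pal) hs hne

end Vale.Agent.P032.H61.BM
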