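import Vale.Agent.P032X.H61.BadQ
import Vale.Agent.P032X.H61.BadR

/-!
# P032: a common point with the missing colours of two two-pair centres

* `core` : such a point sees the two centres at an angle strictly between 60 and 120 degrees, and the other common
  point is not of this kind,
* `s1`, `s2` : the statements `S1`, `S2` of `H299/GamW`.
-/

open Set Filter Topology Metric

noncomputable section

namespace Vale.Agent.P032.H61.BM

open Vale.Agent.P032.Six Vale.Agent.P032.Words Vale.Agent.P032.H892 Vale.Agent.P032.H913 Vale.Agent.P032.S5.H767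
  Vale.Agent.P032.H61 Vale.Agent.P032.H357 Vale.Agent.P032.H357.MK
open Vale.Agent.P032.H820.K (nbf Md En av lv ps ng Ho)
open Vale.Agent.P032.H299 (Bad S1 S2)

variable {U : Fin 6 → Set ℂ} {T : ℂ → Set (Fin 6)} {w w' m : ℂ} {a b c d e f : Fin 6}
  {σ : Equiv.Perm (Fin 6)}

/-- the numbers of the colours -/
structure Nm (σ : Equiv.Perm (Fin 6)) (a b c d e f : Fin 6) : Prop where
  c0 : co σ 0 = b
  c1 : co σ 1 = a
  c2 : co σ 2 = d
  c3 : co σ 3 = c
  c4 : co σ 4 = e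
  c5 : co σ 5 = f

theorem exists_nm (nd : [a, b, c, d, e, f].Nodup) : ∃ σ : Equiv.Perm (Fin 6), Nm σ a b c d e f := by
  simp only [List.nodup_cons, List.mem_cons, List.not_mem_nil, or_false, not_or, not_false_eq_true,
    List.nodup_nil, and_true] at nd
  obtain ⟨⟨ab, ac, ad, ae, af⟩, ⟨bc, bd, be, bf⟩, ⟨cd, ce, cf⟩, ⟨de, df⟩, ef⟩ := nd
  have hg : Function.Injective (![b, a, d, c, e, f] : Fin 6 → Fin 6) := by
    intro i j hij
    fin_cases i <;> fin_cases j <;> simp_all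
  refine ⟨Equiv.ofBijective _ (Finite.injective_iff_bijective.1 hg), ?_, ?_, ?_, ?_, ?_, ?_⟩ <;>
    rfl

theorem Nm.ty (N : Nm σ a b c d e f) (nd : [a, b, c, d, e, f].Nodup) {y : ℂ} :
    (T y = {a, c, e, f} → ∀ q < 6, (co σ q ∈ T y ↔ Nat.testBit 58 q = true)) ∧
    (T y = {a, b, c, d} → ∀ q < 6, (co σ q ∈ T y ↔ Nat.testBit 15 q = true)) ∧
    (T y = {e, b, f, d} → ∀ q < 6, (co σ q ∈ T y ↔ Nat.testBit 53 q = true)) := by
  simp only [List.nodup_cons, List.mem_cons, List.not_mem_nil, or_false, not_or, not_false_eq_true,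
    List.nodup_nil, and_true] at nd
  obtain ⟨⟨ab, ac, ad, ae, af⟩, ⟨bc, bd, be, bf⟩, ⟨cd, ce, cf⟩, ⟨de, df⟩, ef⟩ := nd
  obtain ⟨c0, c1, c2, c3, c4, c5⟩ := N
  refine ⟨fun hT q hq => ?_, fun hT q hq => ?_, fun hT q hq => ?_⟩ <;> rw [hT] <;> interval_cases q <;>
    simp only [c0, c1, c2, c3, c4, c5, mem_insert_iff, mem_singleton_iff] <;> constructor <;> intro h1 <;>
    first
    | rfl
    | tauto

theorem y_zero {u1 u : ℝ} : Yt (t2 u1 u) 2 TF.TC m 0 = m := yt_zero (by decide +kernel)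

theorem nb0 : ∀ t < 7, nbf 2 TF.TB 0 t = t + 1 := by decide +kernel

theorem nb7 : nbf 2 TF.TB 7 3 = 32 := by decide +kernel

theorem y_first {u1 u : ℝ} (hu : u ∈ Ioo u1 (u1 + 1)) {t : ℕ} (ht : t < 7) :
    Yt (t2 u1 u) 2 TF.TC m (t + 1) = pt m (t2 u1 u t) := by
  have h1 := hY_of_tchk (tick_t2 hu) m TF.tchk_ok 0 (by norm_num) t (by omega) (by rw [nb0 t ht]; omega)
  rw [nb0 t ht, y_zero] at h1
  rw [h1, pt_eq]

theorem y_seven {u1 u : ℝ} (hu : u ∈ Ioo u1 (u1 + 1)) : Yt (t2 u1 u) 2 TF.TC m 7 = pt m (u1 + 3) := by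
  have h1 := y_first (m := m) hu (t := 6) (by norm_num)
  have h2 : t2 u1 u 6 = u1 + 3 := by
    have := t2_even u1 u 3
    norm_num at this
    exact this
  rw [h2] at h1
  exact h1

theorem y_second {u1 u : ℝ} (hu : u ∈ Ioo u1 (u1 + 1)) :
    Yt (t2 u1 u) 2 TF.TC m 32 = pt m (u1 + 3) + pt m (t2 u1 u 3) - m := by
  have h1 := hY_of_tchk (tick_t2 hu) m TF.tchk_ok 7 (by norm_num) 3 (by norm_num) (by rw [nb7]; norm_num)
  rw [nb7, y_seven hu] at h1
  rw [h1, pt_eq m (t2 u1 u 3)]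
  ring

/-- a letter with one colour of each pair -/
theorem cross2 (F : Hy U T) {y : ℂ} (hO : Onl T y a b c d) (hz : DPt T y a b c d) {i j : Fin 6} (hi : i = a ∨ i = b)
    (hj : j = c ∨ j = d) {v : ℝ} : ¬ Ino U T y v i j ∧ ¬ Ino U T y v j i := by
  have hiT : i ∈ T y := by
    rw [hz.pal]
    rcases hi with rfl | rfl
    exacts [Or.inl rfl, Or.inr (Or.inl rfl)]
  have hjT : j ∈ T y := by
    rw [hz.pal]
    rcases hj with rfl | rfl
    exacts [Or.inr (Or.inr (Or.inl rfl)), Or.inr (Or.inr (Or.inr rfl))]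
  have hic : i ≠ c ∧ i ≠ d := by
    rcases hi with rfl | rfl
    exacts [⟨hz.ac, hz.ad⟩, ⟨hz.bc, hz.bd⟩]
  have hja : j ≠ a ∧ j ≠ b := by
    rcases hj with rfl | rfl
    exacts [⟨hz.ac.symm, hz.bc.symm⟩, ⟨hz.ad.symm, hz.bd.symm⟩]
  have hij : i ≠ j := by
    rintro rfl
    rcases hj with h1 | h1
    exacts [hic.1 h1, hic.2 h1]
  have pne : ∀ {i j x y : Fin 6}, i ≠ x → i ≠ y → ({i, j} : Set (Fin 6)) ≠ {x, y} := by
    intro i j x y h1 h2 h3
    have : i ∈ ({x, y} : Set (Fin 6)) := by rw [← h3]; exact Or.inl rfl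
    rcases this with h4 | h4
    exacts [h1 h4, h2 h4]
  have p1 : ({i, j} : Set (Fin 6)) ≠ {a, b} := by rw [pair_comm]; exact pne hja.1 hja.2
  have p2 : ({i, j} : Set (Fin 6)) ≠ {c, d} := pne hic.1 hic.2
  exact ⟨not_ino F hO hiT hjT p1 p2 hij,
    not_ino F hO hjT hiT (by rw [pair_comm]; exact p1) (by rw [pair_comm]; exact p2) hij.symm⟩

section
variable (F : Hy U T) (B : Bad T w w' m a b c d e f) (O1 : Onl T w a b c d) (O2 : Onl T w' e b f d)
  (N : Nm σ a b c d e f)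
include B O1 O2 N

theorem ho_E1 {u1 u : ℝ} (hu : u ∈ Ioo u1 (u1 + 1)) {W : Fin 13 → ℕ → ℕ → ℕ → Fin 6}
    (D : Wd U T 2 (t2 u1 u) (fun j : Fin 13 => Yt (t2 u1 u) 2 TF.TC m j.val) W) {t : ℕ} (ht : t < 6)
    (hw : w = pt m (u1 + 3)) (hw' : w' = pt m (t2 u1 u t)) : ∀ k ∈ E1 t, Ho (mB F m σ hu D) k := by
  obtain ⟨n1, n2, n3⟩ := N.ty (T := T) B.nd (y := m)
  obtain ⟨-, n2, -⟩ := N.ty (T := T) B.nd (y := w)
  obtain ⟨-, -, n3⟩ := N.ty (T := T) B.nd (y := w')
  have y7 : Yt (t2 u1 u) 2 TF.TC m 7 = w := by rw [y_seven hu, hw]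
  have yt : Yt (t2 u1 u) 2 TF.TC m (t + 1) = w' := by rw [y_first hu (by omega), hw']
  obtain ⟨c0, c1, c2, c3, c4, c5⟩ := N
  intro k hk
  unfold E1 at hk
  rcases List.mem_append.1 hk with hk | hk
  · exact ho_ty F hu D (by norm_num) (by rw [y_zero]; exact n1 B.pal) k hk
  rcases List.mem_append.1 hk with hk | hk
  · exact ho_ty F hu D (by norm_num) (by rw [y7]; exact n2 B.hw.pal) k hk
  rcases List.mem_append.1 hk with hk | hk
  · exact ho_ty F hu D (by omega) (by rw [yt]; exact n3 B.hw'.pal) k hk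
  rcases List.mem_append.1 hk with hk | hk
  · refine ho_on F hu D (by norm_num) (fun p hp v => ?_) k hk
    rw [y7]
    simp only [BZ, List.mem_cons, List.not_mem_nil, or_false] at hp
    rcases hp with rfl | rfl | rfl | rfl | rfl | rfl | rfl | rfl <;> simp only [c0, c1, c2, c3]
    · exact (cross2 F O1 B.hw (Or.inr rfl) (Or.inr rfl)).1
    · exact (cross2 F O1 B.hw (Or.inr rfl) (Or.inl rfl)).1
    · exact (cross2 F O1 B.hw (Or.inl rfl) (Or.inr rfl)).1
    · exact (cross2 F O1 B.hw (Or.inl rfl) (Or.inl rfl)).1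
    · exact (cross2 F O1 B.hw (Or.inr rfl) (Or.inr rfl)).2
    · exact (cross2 F O1 B.hw (Or.inl rfl) (Or.inr rfl)).2
    · exact (cross2 F O1 B.hw (Or.inr rfl) (Or.inl rfl)).2
    · exact (cross2 F O1 B.hw (Or.inl rfl) (Or.inl rfl)).2
  · refine ho_on F hu D (by omega) (fun p hp v => ?_) k hk
    rw [yt]
    simp only [BW, List.mem_cons, List.not_mem_nil, or_false] at hp
    rcases hp with rfl | rfl | rfl | rfl | rfl | rfl | rfl | rfl <;> simp only [c0, c2, c4, c5]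
    · exact (cross2 F O2 B.hw' (Or.inr rfl) (Or.inr rfl)).1
    · exact (cross2 F O2 B.hw' (Or.inr rfl) (Or.inl rfl)).1
    · exact (cross2 F O2 B.hw' (Or.inr rfl) (Or.inr rfl)).2
    · exact (cross2 F O2 B.hw' (Or.inl rfl) (Or.inr rfl)).2
    · exact (cross2 F O2 B.hw' (Or.inl rfl) (Or.inr rfl)).1
    · exact (cross2 F O2 B.hw' (Or.inl rfl) (Or.inl rfl)).1
    · exact (cross2 F O2 B.hw' (Or.inr rfl) (Or.inl rfl)).2
    · exact (cross2 F O2 B.hw' (Or.inl rfl) (Or.inl rfl)).2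

include F in
theorem no_tick {u1 u : ℝ} (hu : u ∈ Ioo u1 (u1 + 1)) {t : ℕ} (ht : t < 6)
    (hw : w = pt m (u1 + 3)) (hw' : w' = pt m (t2 u1 u t)) : ¬ Qy 73 13 TF.TB (E1 t) := by
  intro hq
  obtain ⟨W, D⟩ := exists_Wd F.h F.l3 (tick_t2 hu) (fun j : Fin 13 => Yt (t2 u1 u) 2 TF.TC m j.val)
  exact hq _ (ho_E1 F B O1 O2 N hu D ht hw hw')

include F in
theorem no_both {u1 u : ℝ} (hu : u ∈ Ioo u1 (u1 + 1))
    (hw : w = pt m (u1 + 3)) (hw' : w' = pt m (t2 u1 u 3)) : T (w + w' - m) ≠ {a, c, e, f} := by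
  intro hT
  obtain ⟨W, D⟩ := exists_Wd F.h F.l3 (tick_t2 hu) (fun j : Fin 13 => Yt (t2 u1 u) 2 TF.TC m j.val)
  refine q3 (mB F m σ hu D) fun k hk => ?_
  unfold E3 at hk
  rcases List.mem_append.1 hk with hk | hk
  · exact ho_E1 F B O1 O2 N hu D (by norm_num) hw hw' k hk
  · refine ho_ty F hu D (by norm_num) ?_ k hk
    rw [y_second hu, ← hw, ← hw']
    exact (N.ty (T := T) B.nd).1 hT

end

/-- **the angle of the two centres seen from a bad common point, and the other common point** -/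
theorem core (F : Hy U T) (B : Bad T w w' m a b c d e f) (O1 : Onl T w a b c d) (O2 : Onl T w' e b f d)
    {v v' : ℝ} (hw : w = pt m v)
    (hw' : w' = pt m v') (h1 : v - 3 < v') (h2 : v' < v) :
    (v - 2 < v' ∧ v' < v - 1) ∧ T (w + w' - m) ≠ {a, c, e, f} := by
  obtain ⟨σ, N⟩ := exists_nm B.nd
  have hv : w = pt m (v - 3 + 3) := by rw [sub_add_cancel]; exact hw
  have e1 : ∀ u, t2 (v - 3) u 1 = u := fun u => by
    have := t2_odd (v - 3) u 0
    norm_num at this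
    exact this
  have e2 : ∀ u, t2 (v - 3) u 2 = v - 2 := fun u => by
    have := t2_even (v - 3) u 1
    norm_num at this
    rw [this]; ring
  have e3 : ∀ u, t2 (v - 3) u 3 = u + 1 := fun u => by
    have := t2_odd (v - 3) u 1
    norm_num at this
    exact this
  have e4 : ∀ u, t2 (v - 3) u 4 = v - 1 := fun u => by
    have := t2_even (v - 3) u 2
    norm_num at this
    rw [this]; ring
  have e5 : ∀ u, t2 (v - 3) u 5 = u + 2 := fun u => by
    have := t2_odd (v - 3) u 2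
    norm_num at this
    exact this
  rcases lt_trichotomy v' (v - 2) with h3 | h3 | h3
  · exact absurd q1 (no_tick F B O1 O2 N (u1 := v - 3) (u := v') ⟨h1, by linarith⟩ (by norm_num) hv
      (by rw [e1]; exact hw'))
  · exact absurd q2 (no_tick F B O1 O2 N (u1 := v - 3) (u := v - 5 / 2) ⟨by linarith, by linarith⟩ (by norm_num) hv
      (by rw [e2, ← h3]; exact hw'))
  rcases lt_trichotomy v' (v - 1) with h4 | h4 | h4
  · exact ⟨⟨h3, h4⟩, no_both F B O1 O2 N (u1 := v - 3) (u := v' - 1) ⟨by linarith, by linarith⟩ hv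
      (by rw [e3, sub_add_cancel]; exact hw')⟩
  · exact absurd q4 (no_tick F B O1 O2 N (u1 := v - 3) (u := v - 5 / 2) ⟨by linarith, by linarith⟩ (by norm_num) hv
      (by rw [e4, ← h4]; exact hw'))
  · exact absurd q5 (no_tick F B O1 O2 N (u1 := v - 3) (u := v' - 2) ⟨by linarith, by linarith⟩ (by norm_num) hv
      (by rw [e5, sub_add_cancel]; exact hw'))

theorem bad_swap (B : Bad T w w' m a b c d e f) : Bad T w' w m e b f d a c where
  nd := by
    have nd := B.nd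
    simp only [List.nodup_cons, List.mem_cons, List.not_mem_nil, or_false, not_or, not_false_eq_true,
      List.nodup_nil, and_true] at nd ⊢
    obtain ⟨⟨ab, ac, ad, ae, af⟩, ⟨bc, bd, be, bf⟩, ⟨cd, ce, cf⟩, ⟨de, df⟩, ef⟩ := nd
    exact ⟨⟨Ne.symm be, ef, Ne.symm de, Ne.symm ae, Ne.symm ce⟩, ⟨bf, bd, Ne.symm ab, bc⟩,
      ⟨Ne.symm df, Ne.symm af, Ne.symm cf⟩, ⟨Ne.symm ad, Ne.symm cd⟩, ac⟩
  hw := B.hw'
  hw' := B.hw
  dw := B.dw'
  dw' := B.dw
  pal := by
    rw [B.pal]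
    ext i
    simp only [mem_insert_iff, mem_singleton_iff]
    tauto

/-- the two centres in the directions `v`, `v'` -/
theorem angles (B : Bad T w w' m a b c d e f) (hne : w + w' ≠ 2 * m) :
    ∃ v v' : ℝ, w = pt m v ∧ w' = pt m v' ∧ ((v - 3 < v' ∧ v' < v) ∨ (v' - 3 < v ∧ v < v')) := by
  obtain ⟨v, hv⟩ : ∃ v, pt m v = w := by
    obtain ⟨v, hv⟩ := Vale.Agent.P032.S5.H349.exists_pt (z := m) (v := w) (by rw [dist_comm]; exact B.dw)
    exact ⟨v, hv.symm⟩
  obtain ⟨v0, hv0⟩ : ∃ v, pt m v = w' := by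
    obtain ⟨v, hv⟩ := Vale.Agent.P032.S5.H349.exists_pt (z := m) (v := w') (by rw [dist_comm]; exact B.dw')
    exact ⟨v, hv.symm⟩
  set n : ℤ := -⌊(v0 - v + 3) / 6⌋ with hn
  have hv' : pt m (v0 + 6 * n) = w' := by rw [pt_eq, dir_perz, ← pt_eq]; exact hv0
  have f1 := Int.floor_le ((v0 - v + 3) / 6)
  have f2 := Int.lt_floor_add_one ((v0 - v + 3) / 6)
  have f3 : ((n : ℤ) : ℝ) = -((⌊(v0 - v + 3) / 6⌋ : ℤ) : ℝ) := by rw [hn]; push_cast; ring
  have g1 : v - 3 ≤ v0 + 6 * n := by rw [f3]; linarith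
  have g2 : v0 + 6 * n < v + 3 := by rw [f3]; linarith
  refine ⟨v, v0 + 6 * n, hv.symm, hv'.symm, ?_⟩
  have g3 : v0 + 6 * n ≠ v - 3 := by
    intro h1
    apply hne
    rw [← hv, ← hv', h1, pt_eq, pt_eq]
    have h2 := dir_add_three (v - 3)
    rw [sub_add_cancel] at h2
    rw [h2]; ring
  have g4 : v0 + 6 * n ≠ v := by
    intro h1
    have h2 : w = w' := by rw [← hv, ← hv', h1]
    have h3 : a ∈ T w := by rw [B.hw.pal]; exact Or.inl rfl
    rw [h2, B.hw'.pal] at h3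
    have nd := B.nd
    simp only [List.nodup_cons, List.mem_cons, List.not_mem_nil, or_false, not_or, not_false_eq_true,
      List.nodup_nil, and_true] at nd
    rcases h3 with h3 | h3 | h3 | h3
    · exact nd.1.2.2.2.1 h3
    · exact nd.1.1 h3
    · exact nd.1.2.2.2.2 h3
    · exact nd.1.2.2.1 h3
  rcases lt_or_gt_of_ne g4 with h5 | h5
  · exact Or.inl ⟨lt_of_le_of_ne g1 (Ne.symm g3), h5⟩
  · exact Or.inr ⟨by linarith, h5⟩

theorem far_of {m : ℂ} {v v' : ℝ} (h1 : v - 2 < v') (h2 : v' < v - 1) : 1 < dist (pt m v) (pt m v') := by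
  have e0 : dist (pt m v) (pt m v') ^ 2 = 2 - 2 * Real.cos (v * (Real.pi / 3) - v' * (Real.pi / 3)) := by
    rw [sq_dist]
    unfold pt
    simp only [Complex.add_re, Complex.add_im, cis_re, cis_im]
    rw [Real.cos_sub]
    have k1 := Real.sin_sq_add_cos_sq (v * (Real.pi / 3))
    have k2 := Real.sin_sq_add_cos_sq (v' * (Real.pi / 3))
    linear_combination k1 + k2
  have hpi := Real.pi_pos
  have h3 : Real.cos (v * (Real.pi / 3) - v' * (Real.pi / 3)) < 1 / 2 := by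
    rw [← Real.cos_pi_div_three]
    exact Real.cos_lt_cos_of_nonneg_of_le_pi (by positivity) (by nlinarith) (by nlinarith)
  have h4 : 1 < dist (pt m v) (pt m v') ^ 2 := by rw [e0]; linarith
  by_contra hcon
  push Not at hcon
  have := dist_nonneg (x := pt m v) (y := pt m v')
  nlinarith

/-- no bad common point if the centres have distance at most one -/
theorem s1_at (F : Hy U T) (B : Bad T w w' m a b c d e f) (O1 : Onl T w a b c d) (O2 : Onl T w' e b f d)
    (hne : w + w' ≠ 2 * m) (hd : dist w w' ≤ 1) : False := by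
  obtain ⟨v, v', hw, hw', h1 | h1⟩ := angles B hne
  · obtain ⟨⟨h3, h4⟩, -⟩ := core F B O1 O2 hw hw' h1.1 h1.2
    have := far_of (m := m) h3 h4
    rw [← hw, ← hw'] at this
    linarith
  · obtain ⟨⟨h3, h4⟩, -⟩ := core F (bad_swap B) O2 O1 hw' hw h1.1 h1.2
    have := far_of (m := m) h3 h4
    rw [← hw, ← hw', dist_comm] at this
    linarith

/-- the two common points are not both bad -/
theorem s2_at (F : Hy U T) {m' : ℂ} (B : Bad T w w' m a b c d e f) (O1 : Onl T w a b c d)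
    (O2 : Onl T w' e b f d) (hp : T m' = {a, c, e, f}) (hs : m + m' = w + w') (hne : m ≠ m') : False := by
  have hm' : m' = w + w' - m := by rw [← hs]; ring
  have hne2 : w + w' ≠ 2 * m := by
    intro h5
    apply hne
    rw [hm', h5]; ring
  rw [hm'] at hp
  obtain ⟨v, v', hw, hw', h1 | h1⟩ := angles B hne2
  · exact (core F B O1 O2 hw hw' h1.1 h1.2).2 hp
  · refine (core F (bad_swap B) O2 O1 hw' hw h1.1 h1.2).2 ?_
    rw [add_comm w' w, hp]
    ext i
    simp only [mem_insert_iff, mem_singleton_iff]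
    tauto

/-- **`S1`** -/
theorem s1 (F : Hy U T) (hM : Mn4 U T) : S1 T := fun _ _ _ _ _ _ _ _ _ B hne hd =>
  s1_at F B (onl_of F.h hM B.hw) (onl_of F.h hM B.hw') hne hd

/-- **`S2`** -/
theorem s2 (F : Hy U T) (hM : Mn4 U T) : S2 T := fun _ _ _ _ _ _ _ _ _ _ B B' hs hne =>
  s2_at F B (onl_of F.h hM B.hw) (onl_of F.h hM B.hw') B'.pal hs hne

end Vale.Agent.P032.H61.BM
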