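import Vale.Agent.P032X.H61.GenW
import Vale.Agent.P032X.H357.Cell
import Vale.Agent.P032X.H892.CenSym

/-!
# P032: rotations and mirror images of words, states and germs

* `Ino.mir`, `rst_mir`, `lst_mir` : words and one sided states of the mirror image (complex conjugation),
* `rst_tr`, `lst_tr` : one sided states under a change of the nodes and of the time,
* `Zc` : the zones of a ray, `zc_six`, `zc_mir`,
* `shD_six`, `shD_mir`, `accR_*`, `accL_*`, `sec_*` : the sectors.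
-/

open Set Filter Topology Metric

noncomputable section

namespace Vale.Agent.P032.H61

open Vale.Agent.P032.Six Vale.Agent.P032.Words Vale.Agent.P032.S5.H767 Vale.Agent.P032.H892
  Vale.Agent.P032.H913 Vale.Agent.P032.H357

variable {U : Fin 6 → Set ℂ} {T : ℂ → Set (Fin 6)}

/-- the mirror image of the family -/
def mU (U : Fin 6 → Set ℂ) : Fin 6 → Set ℂ := fun i => cj ⁻¹' U i

/-- the mirror image of the cover -/
def mT (T : ℂ → Set (Fin 6)) : ℂ → Set (Fin 6) := fun x => T (cj x)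

theorem mU_mU : mU (mU U) = U := by
  funext i; ext x
  show cj (cj x) ∈ U i ↔ x ∈ U i
  rw [cj_cj]

theorem mT_mT : mT (mT T) = T := by
  funext x
  show T (cj (cj x)) = T x
  rw [cj_cj]

theorem cj_dist (x y : ℂ) : dist (cj x) y = dist x (cj y) := by
  rw [← cj.dist_eq, cj_cj]

theorem cj_sub (x y : ℂ) : cj (x - y) = cj x - cj y := by
  rw [cj_apply, cj_apply, cj_apply, map_sub]

theorem cj_add (x y : ℂ) : cj (x + y) = cj x + cj y := by
  rw [cj_apply, cj_apply, cj_apply, map_add]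

theorem cj_mul (x y : ℂ) : cj (x * y) = cj x * cj y := by
  rw [cj_apply, cj_apply, cj_apply, map_mul]

theorem cj_dir (t : ℝ) : cj (dir t) = dir (-t) := by
  rw [cj_apply]
  unfold dir
  rw [cj_cis, neg_mul]

theorem cj_ptx (x : ℂ) (u : ℝ) : cj (pt x u) = pt (cj x) (-u) := by
  have h := cj_pt (cj x) u
  rwa [cj_cj] at h

theorem cj_pox (x : ℂ) (p : ℝ × ℝ) : cj (po x p) = po (cj x) (p.1, -p.2) := by
  have h := cj_po (cj x) p
  rwa [cj_cj] at h

theorem ex3_mir (x : ℂ) : Ex3 (mU U) (mT T) x ↔ Ex3 U T (cj x) := Iff.rfl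

theorem tendsto_neg_nhds (u : ℝ) : Tendsto (fun v : ℝ => -v) (𝓝 u) (𝓝 (-u)) := continuous_neg.tendsto u

theorem Ino.mir {x : ℂ} {s : ℝ} {p q : Fin 6} (I : Ino U T x s p q) : Ino (mU U) (mT T) (cj x) (-s) p q where
  loc := by
    have h1 := tendsto_neg_nhds (-s)
    rw [neg_neg] at h1
    filter_upwards [h1.eventually I.loc] with v hv
    show T (cj (pt (cj x) v)) = T (cj (pt (cj x) (-s)))
    rw [cj_ptx, cj_ptx, cj_cj, neg_neg]
    exact hv
  nex := by
    rw [ex3_mir, cj_ptx, cj_cj, neg_neg]; exact I.nex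
  inn := by
    have h1 : ∃ᶠ y in 𝓝 (cj (pt (cj x) (-s))), T y = {p} ∧ dist y x < 1 := by
      rw [cj_ptx, cj_cj, neg_neg]; exact I.inn
    refine (fr_isom cj h1).mono fun y hy => ⟨hy.1, ?_⟩
    rw [← cj_dist]; exact hy.2
  out := by
    have h1 : ∃ᶠ y in 𝓝 (cj (pt (cj x) (-s))), T y = {q} ∧ 1 < dist y x := by
      rw [cj_ptx, cj_cj, neg_neg]; exact I.out
    refine (fr_isom cj h1).mono fun y hy => ⟨hy.1, ?_⟩
    rw [← cj_dist]; exact hy.2

/-! ### one sided states -/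

theorem tendsto_neg_DO : Tendsto (fun v : ℝ => -v) DO DO := by
  rintro S ⟨G, hG, hGo, hGd⟩
  refine ⟨(fun v : ℝ => -v) ⁻¹' G, fun v hv => hG hv, hGo.preimage continuous_neg, ?_⟩
  exact hGd.preimage (Homeomorph.neg ℝ).isOpenMap

theorem tendsto_neg_R (u : ℝ) : Tendsto (fun v : ℝ => -v) (𝓝[>] u ⊓ DO) (𝓝[<] (-u) ⊓ DO) :=
  tendsto_inf.2 ⟨(tendsto_neg_gt u).mono_left inf_le_left, tendsto_neg_DO.mono_left inf_le_right⟩

theorem tendsto_neg_L (u : ℝ) : Tendsto (fun v : ℝ => -v) (𝓝[<] u ⊓ DO) (𝓝[>] (-u) ⊓ DO) :=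
  tendsto_inf.2 ⟨(tendsto_neg_lt u).mono_left inf_le_left, tendsto_neg_DO.mono_left inf_le_right⟩

section
variable {M M' : Type*} {X : M → ℂ} {o : M → ℝ} {X' : M' → ℂ} {o' : M' → ℝ} {s : M → Fin 6 × Fin 6} {u d : ℝ}

/-- change of the nodes and of the time -/
theorem rst_tr (f : M' → M) (hX : ∀ i, X' i = X (f i)) (ho : ∀ i, ∃ n : ℤ, o' i + d = o (f i) + 6 * n)
    (hs : s ∈ RSt DO (IOs U T X o) u) : (fun i => s (f i)) ∈ RSt DO (IOs U T X' o') (u + d) := by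
  have hs : ∃ᶠ v in 𝓝[>] u ⊓ DO, IOs U T X o v s := hs
  refine (tendsto_R u d).frequently (hs.mono fun v hv i => ?_)
  obtain ⟨n, hn⟩ := ho i
  have e : v + d + o' i = v + o (f i) + 6 * n := by rw [add_assoc, add_comm d, hn]; ring
  rw [e, hX i]
  exact (hv (f i)).per n

theorem lst_tr (f : M' → M) (hX : ∀ i, X' i = X (f i)) (ho : ∀ i, ∃ n : ℤ, o' i + d = o (f i) + 6 * n)
    (hs : s ∈ LSt DO (IOs U T X o) u) : (fun i => s (f i)) ∈ LSt DO (IOs U T X' o') (u + d) := by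
  have hs : ∃ᶠ v in 𝓝[<] u ⊓ DO, IOs U T X o v s := hs
  refine (tendsto_L u d).frequently (hs.mono fun v hv i => ?_)
  obtain ⟨n, hn⟩ := ho i
  have e : v + d + o' i = v + o (f i) + 6 * n := by rw [add_assoc, add_comm d, hn]; ring
  rw [e, hX i]
  exact (hv (f i)).per n

/-- the mirror image of a left state -/
theorem rst_mir (f : M' → M) (hX : ∀ i, X' i = cj (X (f i))) (ho : ∀ i, ∃ n : ℤ, o' i = - o (f i) + 6 * n)
    (hs : s ∈ LSt DO (IOs U T X o) u) : (fun i => s (f i)) ∈ RSt DO (IOs (mU U) (mT T) X' o') (-u) := by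
  have hs : ∃ᶠ v in 𝓝[<] u ⊓ DO, IOs U T X o v s := hs
  refine (tendsto_neg_L u).frequently (hs.mono fun v hv i => ?_)
  obtain ⟨n, hn⟩ := ho i
  have e : -v + o' i = -(v + o (f i)) + 6 * n := by rw [hn]; ring
  rw [e, hX i]
  exact (hv (f i)).mir.per n

/-- the mirror image of a right state -/
theorem lst_mir (f : M' → M) (hX : ∀ i, X' i = cj (X (f i))) (ho : ∀ i, ∃ n : ℤ, o' i = - o (f i) + 6 * n)
    (hs : s ∈ RSt DO (IOs U T X o) u) : (fun i => s (f i)) ∈ LSt DO (IOs (mU U) (mT T) X' o') (-u) := by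
  have hs : ∃ᶠ v in 𝓝[>] u ⊓ DO, IOs U T X o v s := hs
  refine (tendsto_neg_R u).frequently (hs.mono fun v hv i => ?_)
  obtain ⟨n, hn⟩ := ho i
  have e : -v + o' i = -(v + o (f i)) + 6 * n := by rw [hn]; ring
  rw [e, hX i]
  exact (hv (f i)).mir.per n

end

/-! ### zones -/

/-- the zone `k` of the ray orthogonal to `dir β` -/
def Zc (S : Set ℂ) (x : ℂ) (β : ℝ) (k : ℕ) : Prop :=
  ∃ᶠ p in 𝓝 ((0 : ℝ), β + 3 / 2), p ∈ PS S x ∧ Zn x (dir β) k (po x p)

theorem cl_zc {S : Set ℂ} {x : ℂ} {a : ℕ → ℝ} {k j : ℕ} (hk : k ≠ 0) : Cl S x a k j ↔ Zc S x (a j) k := cl_pos hk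

section
variable {S : Set ℂ} {x : ℂ} {β : ℝ} {k : ℕ}

theorem zc_six : Zc S x (β + 6) k ↔ Zc S x β k := by
  unfold Zc
  rw [show β + 6 + 3 / 2 = β + 3 / 2 + 6 by ring, dir_add_six]
  exact freq_six (P := fun r w => (0 < r ∧ w ∈ S) ∧ Zn x (dir β) k w)

theorem zc_int (n : ℤ) : Zc S x (β + 6 * n) k ↔ Zc S x β k := by
  induction n using Int.induction_on with
  | zero => simp
  | succ n ih =>
    rw [← ih, ← zc_six (β := β + 6 * ((n : ℤ) : ℝ))]
    have e : β + 6 * (((n : ℤ) + 1 : ℤ) : ℝ) = β + 6 * ((n : ℤ) : ℝ) + 6 := by push_cast; ring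
    rw [e]
  | pred n ih =>
    rw [← ih, ← zc_six (β := β + 6 * ((-(n : ℤ) - 1 : ℤ) : ℝ))]
    have e : β + 6 * ((-(n : ℤ) - 1 : ℤ) : ℝ) + 6 = β + 6 * ((-(n : ℤ) : ℤ) : ℝ) := by push_cast; ring
    rw [e]

theorem zn_mir {u : ℝ} {w : ℂ} (hk : 1 ≤ k) (hk3 : k ≤ 3) (h : Zn x (dir u) k w) :
    Zn (cj x) (dir (-u - 3)) (4 - k) (cj w) := by
  have e1 : dist (cj w) (cj x + dir (-u - 3)) = dist w (x - dir u) := by
    rw [cj_dist, cj_add, cj_cj, cj_dir, show -(-u - 3) = u + 3 by ring, dir_add_three, sub_eq_add_neg]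
  have e2 : dist (cj w) (cj x - dir (-u - 3)) = dist w (x + dir u) := by
    rw [cj_dist, cj_sub, cj_cj, cj_dir, show -(-u - 3) = u + 3 by ring, dir_add_three, sub_neg_eq_add]
  unfold Zn at h ⊢
  rw [e1, e2]
  interval_cases k
  · simpa using h
  · simp only [show (2 : ℕ) ≠ 1 by norm_num, show (2 : ℕ) ≠ 3 by norm_num, show 4 - 2 = 2 by norm_num, if_false] at h ⊢
    exact ⟨h.2, h.1⟩
  · simpa using h

theorem zc_mir_aux (hk : 1 ≤ k) (hk3 : k ≤ 3) (h : Zc S x β k) : Zc (cj ⁻¹' S) (cj x) (-β - 3) (4 - k) := by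
  unfold Zc at h ⊢
  have h1 : Tendsto (fun p : ℝ × ℝ => (p.1, -p.2)) (𝓝 ((0 : ℝ), β + 3 / 2)) (𝓝 ((0 : ℝ), -β - 3 + 3 / 2)) := by
    have h2 : Continuous fun p : ℝ × ℝ => (p.1, -p.2) := by fun_prop
    have h3 := h2.tendsto ((0 : ℝ), β + 3 / 2)
    have e : ((0 : ℝ), -(β + 3 / 2)) = ((0 : ℝ), -β - 3 + 3 / 2) := by
      ext
      · rfl
      · show -(β + 3 / 2) = -β - 3 + 3 / 2
        ring
    rw [← e]; exact h3
  refine h1.frequently (h.mono fun p hp => ?_)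
  obtain ⟨⟨hp1, hp2⟩, hp3⟩ := hp
  have e : po (cj x) (p.1, -p.2) = cj (po x p) := (cj_pox x p).symm
  refine ⟨⟨hp1, ?_⟩, ?_⟩
  · rw [e]
    show cj (cj (po x p)) ∈ S
    rw [cj_cj]; exact hp2
  · rw [e]; exact zn_mir hk hk3 hp3

/-- **zones of the mirror image** -/
theorem zc_mir (hk : 1 ≤ k) (hk3 : k ≤ 3) : Zc (cj ⁻¹' S) (cj x) β k ↔ Zc S x (-β - 3) (4 - k) := by
  constructor
  · intro h
    have h1 := zc_mir_aux hk hk3 h
    have e : cj ⁻¹' (cj ⁻¹' S) = S := by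
      ext y
      show cj (cj y) ∈ S ↔ y ∈ S
      rw [cj_cj]
    rw [e, cj_cj] at h1
    exact h1
  · intro h
    have h1 := zc_mir_aux (k := 4 - k) (by omega) (by omega) h
    rw [show -(-β - 3) - 3 = β by ring, show 4 - (4 - k) = k by omega] at h1
    exact h1

end

theorem sq_mir (q : Fin 6) : Sq (mT T) q = cj ⁻¹' Sq T q := rfl

/-! ### directions -/

section
variable {x : ℂ} {q : Fin 6} {v : ℝ}

/-- the limit directions of `q` at `x`, turned by 90 degrees -/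
def Sh (T : ℂ → Set (Fin 6)) (x : ℂ) (q : Fin 6) : Set ℝ := {θ | θ + 3 / 2 ∈ Dr T x q}

theorem shD_sh {J : Type} {Z : J → ℂ} {j : J} : shD T Z j q = Sh T (Z j) q := rfl

theorem sh_six : v + 6 ∈ Sh T x q ↔ v ∈ Sh T x q := by
  show v + 6 + 3 / 2 ∈ Dr T x q ↔ v + 3 / 2 ∈ Dr T x q
  rw [show v + 6 + 3 / 2 = v + 3 / 2 + 6 by ring]
  exact dr_per T x q _

theorem sh_int (n : ℤ) : v + 6 * n ∈ Sh T x q ↔ v ∈ Sh T x q := by
  induction n using Int.induction_on with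
  | zero => simp
  | succ n ih =>
    rw [← ih, ← sh_six (v := v + 6 * ((n : ℤ) : ℝ))]
    have e : v + 6 * (((n : ℤ) + 1 : ℤ) : ℝ) = v + 6 * ((n : ℤ) : ℝ) + 6 := by push_cast; ring
    rw [e]
  | pred n ih =>
    rw [← ih, ← sh_six (v := v + 6 * ((-(n : ℤ) - 1 : ℤ) : ℝ))]
    have e : v + 6 * ((-(n : ℤ) - 1 : ℤ) : ℝ) + 6 = v + 6 * ((-(n : ℤ) : ℤ) : ℝ) := by push_cast; ring
    rw [e]

theorem sh_mir : v ∈ Sh (mT T) (cj x) q ↔ -v - 3 ∈ Sh T x q := by
  show v + 3 / 2 ∈ Dr (fun y => T (cj y)) (cj x) q ↔ -v - 3 + 3 / 2 ∈ Dr T x q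
  rw [dr_mirror, show -(v + 3 / 2) = -v - 3 + 3 / 2 by ring]

/-- a direction in the open sector `(α, α + 1)` -/
def Se (T : ℂ → Set (Fin 6)) (x : ℂ) (q : Fin 6) (α : ℝ) : Prop := (Sh T x q ∩ Ioo α (α + 1)).Nonempty

variable {α : ℝ}

theorem se_int (n : ℤ) : Se T x q (α + 6 * n) ↔ Se T x q α := by
  constructor
  · rintro ⟨v, h1, h2, h3⟩
    refine ⟨v - 6 * n, ?_, by linarith, by linarith⟩
    rw [← sh_int n, sub_add_cancel]; exact h1
  · rintro ⟨v, h1, h2, h3⟩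
    exact ⟨v + 6 * n, (sh_int n).2 h1, by linarith, by linarith⟩

theorem se_mir : Se (mT T) (cj x) q α ↔ Se T x q (-α - 4) := by
  constructor
  · rintro ⟨v, h1, h2, h3⟩
    exact ⟨-v - 3, sh_mir.1 h1, by linarith, by linarith⟩
  · rintro ⟨v, h1, h2, h3⟩
    refine ⟨-v - 3, sh_mir.2 ?_, by linarith, by linarith⟩
    rw [show -(-v - 3) - 3 = v by ring]; exact h1

theorem tendsto_add_gt (u c : ℝ) : Tendsto (fun v : ℝ => v + c) (𝓝[>] u) (𝓝[>] (u + c)) := by
  refine tendsto_nhdsWithin_of_tendsto_nhds_of_eventually_within _ ?_ ?_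
  · exact ((by fun_prop : Continuous fun v : ℝ => v + c).tendsto u).mono_left nhdsWithin_le_nhds
  · filter_upwards [self_mem_nhdsWithin] with v hv
    have hv : u < v := hv
    show u + c < v + c
    linarith

theorem tendsto_add_lt (u c : ℝ) : Tendsto (fun v : ℝ => v + c) (𝓝[<] u) (𝓝[<] (u + c)) := by
  refine tendsto_nhdsWithin_of_tendsto_nhds_of_eventually_within _ ?_ ?_
  · exact ((by fun_prop : Continuous fun v : ℝ => v + c).tendsto u).mono_left nhdsWithin_le_nhds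
  · filter_upwards [self_mem_nhdsWithin] with v hv
    have hv : v < u := hv
    show v + c < u + c
    linarith

theorem accR_int (n : ℤ) : AccR (Sh T x q) (α + 6 * n) ↔ AccR (Sh T x q) α := by
  constructor
  · intro h
    have h1 := tendsto_add_gt (α + 6 * n) (-(6 * n))
    rw [show α + 6 * n + -(6 * n) = α by ring] at h1
    refine h1.frequently (h.mono fun v hv => ?_)
    rw [← sh_int n, show v + -(6 * (n : ℝ)) + 6 * n = v by ring]; exact hv
  · intro h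
    exact (tendsto_add_gt α (6 * n)).frequently (h.mono fun v hv => (sh_int n).2 hv)

theorem accL_int (n : ℤ) : AccL (Sh T x q) (α + 6 * n) ↔ AccL (Sh T x q) α := by
  constructor
  · intro h
    have h1 := tendsto_add_lt (α + 6 * n) (-(6 * n))
    rw [show α + 6 * n + -(6 * n) = α by ring] at h1
    refine h1.frequently (h.mono fun v hv => ?_)
    rw [← sh_int n, show v + -(6 * (n : ℝ)) + 6 * n = v by ring]; exact hv
  · intro h
    exact (tendsto_add_lt α (6 * n)).frequently (h.mono fun v hv => (sh_int n).2 hv)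

theorem accR_mir : AccR (Sh (mT T) (cj x) q) α ↔ AccL (Sh T x q) (-α - 3) := by
  have e : ∀ u c : ℝ, -u - c = -u + -c := fun u c => by ring
  constructor
  · intro h
    have h1 := (tendsto_add_lt (-α) (-3)).comp (tendsto_neg_gt α)
    rw [← e] at h1
    refine h1.frequently (h.mono fun v hv => ?_)
    show -v + -3 ∈ Sh T x q
    rw [← e]; exact sh_mir.1 hv
  · intro h
    have h1 := (tendsto_add_gt (-(-α - 3)) (-3)).comp (tendsto_neg_lt (-α - 3))
    rw [show -(-α - 3) + -3 = α by ring] at h1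
    refine h1.frequently (h.mono fun v hv => ?_)
    show -v + -3 ∈ Sh (mT T) (cj x) q
    rw [sh_mir, show -(-v + -3) - 3 = v by ring]; exact hv

theorem accL_mir : AccL (Sh (mT T) (cj x) q) α ↔ AccR (Sh T x q) (-α - 3) := by
  have h := accR_mir (T := mT T) (x := cj x) (q := q) (α := -α - 3)
  rw [mT_mT, cj_cj, show -(-α - 3) - 3 = α by ring] at h
  exact h.symm

end

end Vale.Agent.P032.H61
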