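import Vale.Agent.P032X.H61.SymA
import Vale.Agent.P032X.H357.MdT
import Vale.Agent.P032X.H357.MdS

/-!
# P032: frames of the germ model and their symmetries

A frame `F : Fr` is a map (`U`, `T`), a centre `z`, a direction `b` (class 0 = the directions `b + m`), a numbering `σ` of
the colours and the one sided states `s0` (right of `b`), `s1` (left of `b + 1`) of the points number `cx c`.  Point number
`x` of class 0 has the hexagonal coordinates `κ x`.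

* `tva κ F kd x j k q` : the meaning of the atoms of class 0 (the codes of `H820.K.En`), `tv`,
* `Fr.rot`, `Fr.mir`, `Fr.col` : rotation by 60 degrees, mirror image, permutation of the colours,
* `tva_rot`, `tva_mir`, `tva_col` : the atoms of the images.
-/

open Set Filter Topology Metric

noncomputable section

namespace Vale.Agent.P032.H61

open Vale.Agent.P032.Six Vale.Agent.P032.Words Vale.Agent.P032.S5.H767 Vale.Agent.P032.H892
  Vale.Agent.P032.H913 Vale.Agent.P032.H357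
open Vale.Agent.P032.H357.MK (co no co_no co_surj no_co co_inj)

/-! ### points -/

/-- the point with the hexagonal coordinates `i`, `j` -/
def hp (z : ℂ) (b : ℝ) (p : ℤ × ℤ) : ℂ := z + ((p.1 : ℂ) + (p.2 : ℂ) * dir 1) * dir b

/-- rotation by 60 degrees -/
def rC (p : ℤ × ℤ) : ℤ × ℤ := (-p.2, p.1 + p.2)

/-- mirror image -/
def mC (p : ℤ × ℤ) : ℤ × ℤ := (p.1 + p.2, -p.2)

theorem dir_add_one (b : ℝ) : dir (b + 1) = dir 1 * dir b := by
  rw [← dir_mul, add_comm]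

theorem hp_rot (z : ℂ) (b : ℝ) (p : ℤ × ℤ) : hp z (b + 1) p = hp z b (rC p) := by
  have h := dir_one_sq
  unfold hp rC
  rw [dir_add_one]
  push_cast
  linear_combination ((p.2 : ℂ) * dir b) * h

theorem dir_neg_one : dir (-1) = 1 - dir 1 := by
  have h1 : dir (-1) = -dir 2 := by
    have := dir_add_three (-1)
    rw [show (-1 : ℝ) + 3 = 2 by norm_num] at this
    rw [this, neg_neg]
  have h2 : dir 2 = dir 1 * dir 1 := by rw [← dir_mul]; norm_num
  have h := dir_one_sq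
  rw [h1, h2]
  linear_combination -h

theorem hp_mir (z : ℂ) (b : ℝ) (p : ℤ × ℤ) : hp (cj z) (-b) p = cj (hp z b (mC p)) := by
  unfold hp mC
  rw [cj_add, cj_mul, cj_add, cj_mul, cj_dir, cj_dir, dir_neg_one]
  have e : ∀ n : ℤ, cj (n : ℂ) = n := fun n => by rw [cj_apply]; exact Complex.conj_ofReal _
  rw [e, e]
  push_cast
  ring

/-! ### frames -/

/-- a frame -/
structure Fr where
  /-- the sets of the colours -/
  U : Fin 6 → Set ℂ
  /-- the cover -/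
  T : ℂ → Set (Fin 6)
  /-- the centre -/
  z : ℂ
  /-- the direction -/
  b : ℝ
  /-- the numbers of the colours -/
  σ : Equiv.Perm (Fin 6)
  /-- the words just after `b + m` -/
  s0 : ℕ × Fin 6 → Fin 6 × Fin 6
  /-- the words just before `b + 1 + m` -/
  s1 : ℕ × Fin 6 → Fin 6 × Fin 6

/-- inner or outer component -/
def cmp (io : ℕ) (p : Fin 6 × Fin 6) : Fin 6 := if io = 0 then p.1 else p.2

/-- point number `x` -/
def Fr.P (κ : ℕ → ℤ × ℤ) (F : Fr) (x : ℕ) : ℂ := hp F.z F.b (κ x)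

/-- **the meaning of the atoms of class 0** -/
def tva (κ : ℕ → ℤ × ℤ) (F : Fr) (kd x j k q : ℕ) : Prop :=
  if kd = 0 then Zc (Sq F.T (co F.σ q)) (F.P κ x) (F.b + ((j / 2 : ℕ) : ℝ)) k else
  if kd = 4 then co F.σ q ∈ F.T (F.P κ x) else
  if kd = 5 then co F.σ q ∈ Pal F.U (F.P κ x) else
  if kd = 6 then F.P κ x ∈ XX F.U else
  if kd = 9 then
    (if k / 2 = 0 then cmp (k % 2) (F.s1 (x, f6 (j / 2 + 5))) = co F.σ q
      else cmp (k % 2) (F.s0 (x, f6 (j / 2))) = co F.σ q) else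
  if kd = 11 then Se F.T (F.P κ x) (co F.σ q) (F.b + j) else
  if kd = 14 then AccR (Sh F.T (F.P κ x) (co F.σ q)) (F.b + j) else
    AccL (Sh F.T (F.P κ x) (co F.σ q)) (F.b + j + 1)

/-- the atoms of class 0 -/
structure Va (G : ℕ → Prop) (kd x j k q : ℕ) : Prop where
  kind : (kd = 0 ∧ j % 2 = 0 ∧ j < 12 ∧ 1 ≤ k ∧ k ≤ 3) ∨ ((kd = 4 ∨ kd = 5 ∨ kd = 6) ∧ j = 0 ∧ k = 0) ∨
    (kd = 9 ∧ j % 2 = 0 ∧ j < 12 ∧ k < 4) ∨ ((kd = 11 ∨ kd = 14 ∨ kd = 15) ∧ j < 6 ∧ k = 0)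
  pt : G x
  col : q < 6
  six : kd = 6 → q = 0

/-! ### rotation -/

/-- the frame turned by 60 degrees -/
def Fr.rot (pr : ℕ → ℕ) (F : Fr) : Fr where
  U := F.U
  T := F.T
  z := F.z
  b := F.b + 1
  σ := F.σ
  s0 := fun i => F.s0 (pr i.1, i.2 + 1)
  s1 := fun i => F.s1 (pr i.1, i.2 + 1)

/-- the direction of an atom of the turned frame -/
def rj (kd j r : ℕ) : ℕ :=
  if kd = 0 ∨ kd = 9 then (j + 2 * r) % 12 else if kd = 11 ∨ kd = 14 ∨ kd = 15 then (j + r) % 6 else j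

section
variable {κ : ℕ → ℤ × ℤ} {G : ℕ → Prop} {pr pm : ℕ → ℕ} {F : Fr} {kd x j k q : ℕ}

theorem P_rot (hκ : κ (pr x) = rC (κ x)) : (F.rot pr).P κ x = F.P κ (pr x) := by
  show hp F.z (F.b + 1) (κ x) = hp F.z F.b (κ (pr x))
  rw [hp_rot, hκ]

theorem f6_add (m : ℕ) : f6 m + 1 = f6 (m + 1) := by
  apply Fin.ext
  rw [Fin.val_add]
  show (m % 6 + 1 % 6) % 6 = (m + 1) % 6
  omega

theorem f6_mod (m : ℕ) : f6 (m % 6) = f6 m := Fin.ext (Nat.mod_mod _ _)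

theorem f6_eq {m n : ℕ} (h : m % 6 = n % 6) : f6 m = f6 n := Fin.ext h

theorem mod_six (b : ℝ) (j : ℕ) : b + ((j % 6 : ℕ) : ℝ) + 6 * (((j / 6 : ℕ) : ℤ) : ℝ) = b + j := by
  have h := Nat.mod_add_div j 6
  have h2 : (j : ℝ) = ((j % 6 : ℕ) : ℝ) + 6 * ((j / 6 : ℕ) : ℝ) := by exact_mod_cast h.symm
  rw [h2, Int.cast_natCast]; ring

theorem zc_nat {S : Set ℂ} {y : ℂ} {b : ℝ} : Zc S y (b + ((j % 6 : ℕ) : ℝ)) k ↔ Zc S y (b + j) k := by
  rw [← zc_int ((j / 6 : ℕ) : ℤ), mod_six]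

theorem se_nat {T : ℂ → Set (Fin 6)} {y : ℂ} {c : Fin 6} {b : ℝ} :
    Se T y c (b + ((j % 6 : ℕ) : ℝ)) ↔ Se T y c (b + j) := by
  rw [← se_int ((j / 6 : ℕ) : ℤ), mod_six]

theorem accR_nat {T : ℂ → Set (Fin 6)} {y : ℂ} {c : Fin 6} {b : ℝ} :
    AccR (Sh T y c) (b + ((j % 6 : ℕ) : ℝ)) ↔ AccR (Sh T y c) (b + j) := by
  rw [← accR_int ((j / 6 : ℕ) : ℤ), mod_six]

theorem accL_nat {T : ℂ → Set (Fin 6)} {y : ℂ} {c : Fin 6} {b : ℝ} :
    AccL (Sh T y c) (b + ((j % 6 : ℕ) : ℝ) + 1) ↔ AccL (Sh T y c) (b + j + 1) := by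
  have e : ∀ m : ℕ, b + (m : ℝ) + 1 = b + 1 + m := fun m => by ring
  rw [e, e, ← accL_int ((j / 6 : ℕ) : ℤ), mod_six]

/-- **the atoms of the turned frame** -/
theorem tva_rot (hκ : κ (pr x) = rC (κ x)) (hv : Va G kd x j k q) :
    tva κ (F.rot pr) kd x j k q ↔ tva κ F kd (pr x) (rj kd j 1) k q := by
  have eP := P_rot (F := F) hκ
  have ec : co (F.rot pr).σ q = co F.σ q := rfl
  have eT : (F.rot pr).T = F.T := rfl
  have eU : (F.rot pr).U = F.U := rfl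
  have eb : (F.rot pr).b = F.b + 1 := rfl
  have e1 : ∀ n : ℕ, F.b + 1 + (n : ℝ) = F.b + ((n + 1 : ℕ) : ℝ) := fun n => by push_cast; ring
  unfold tva rj
  rw [eP, ec, eT, eU, eb]
  rcases hv.kind with ⟨rfl, h1, h2, h3, h4⟩ | ⟨h0, h1, h2⟩ | ⟨rfl, h1, h2, h3⟩ | ⟨h0, h1, h2⟩
  · simp only [if_true, true_or]
    rw [show (j + 2 * 1) % 12 / 2 = (j / 2 + 1) % 6 by omega, zc_nat, e1]
  · rcases h0 with rfl | rfl | rfl <;> norm_num
  · norm_num
    rw [show (j + 2) % 12 / 2 = (j / 2 + 1) % 6 by omega]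
    have e3 : (F.rot pr).s0 (x, f6 (j / 2)) = F.s0 (pr x, f6 ((j / 2 + 1) % 6)) := by
      show F.s0 (pr x, f6 (j / 2) + 1) = _
      rw [f6_add, f6_mod]
    have e4 : (F.rot pr).s1 (x, f6 (j / 2 + 5)) = F.s1 (pr x, f6 ((j / 2 + 1) % 6 + 5)) := by
      show F.s1 (pr x, f6 (j / 2 + 5) + 1) = _
      rw [f6_add, f6_eq (m := j / 2 + 5 + 1) (n := (j / 2 + 1) % 6 + 5) (by omega)]
    rw [e3, e4]
  · rcases h0 with rfl | rfl | rfl
    · norm_num
      rw [se_nat, e1]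
    · norm_num
      rw [accR_nat, e1]
    · norm_num
      rw [accL_nat]
      have e2 : F.b + 1 + (j : ℝ) + 1 = F.b + ((j + 1 : ℕ) : ℝ) + 1 := by push_cast; ring
      rw [e2]

/-! ### mirror image -/

/-- the mirror image of a frame -/
def Fr.mir (pm : ℕ → ℕ) (F : Fr) : Fr where
  U := mU F.U
  T := mT F.T
  z := cj F.z
  b := -F.b
  σ := F.σ
  s0 := fun i => F.s1 (pm i.1, i.2.rev)
  s1 := fun i => F.s0 (pm i.1, i.2.rev)

theorem P_mir (hκ : κ (pm x) = mC (κ x)) : (F.mir pm).P κ x = cj (F.P κ (pm x)) := by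
  show hp (cj F.z) (-F.b) (κ x) = cj (hp F.z F.b (κ (pm x)))
  rw [hp_mir, hκ]

/-- the kind of an atom of the mirror image -/
def mkd (kd : ℕ) : ℕ := if kd = 14 then 15 else if kd = 15 then 14 else kd

/-- its direction -/
def mj (kd j : ℕ) : ℕ :=
  if kd = 0 then (18 - j) % 12 else if kd = 9 then (12 - j) % 12 else
  if kd = 11 ∨ kd = 14 ∨ kd = 15 then (8 - j) % 6 else j

/-- its zone -/
def mz (kd k : ℕ) : ℕ := if kd = 0 then 4 - k else if kd = 9 then (k + 2) % 4 else k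

theorem f6_rev (m n : ℕ) (h : (m + n + 1) % 6 = 0) : (f6 m).rev = f6 n := by
  apply Fin.ext
  rw [Fin.val_rev]
  show 6 - (m % 6 + 1) = n % 6
  omega

/-- **the atoms of the mirror image** -/
theorem tva_mir (hκ : κ (pm x) = mC (κ x)) (hv : Va G kd x j k q) :
    tva κ (F.mir pm) kd x j k q ↔ tva κ F (mkd kd) (pm x) (mj kd j) (mz kd k) q := by
  have eP := P_mir (F := F) hκ
  have ec : co (F.mir pm).σ q = co F.σ q := rfl
  have eT : (F.mir pm).T = mT F.T := rfl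
  have eU : (F.mir pm).U = mU F.U := rfl
  have eb : (F.mir pm).b = -F.b := rfl
  unfold tva mkd mj mz
  rw [eP, ec, eT, eU, eb]
  rcases hv.kind with ⟨rfl, h1, h2, h3, h4⟩ | ⟨h0, h1, h2⟩ | ⟨rfl, h1, h2, h3⟩ | ⟨h0, h1, h2⟩
  · simp only [if_true]
    norm_num
    rw [show (18 - j) % 12 / 2 = (9 - j / 2) % 6 by omega, zc_nat, sq_mir, zc_mir h3 h4,
      ← zc_int (β := -(-F.b + ((j / 2 : ℕ) : ℝ)) - 3) 2]
    have e1 : -(-F.b + ((j / 2 : ℕ) : ℝ)) - 3 + 6 * ((2 : ℤ) : ℝ) = F.b + ((9 - j / 2 : ℕ) : ℝ) := by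
      rw [Nat.cast_sub (by omega)]; push_cast; ring
    rw [e1]
  · rcases h0 with rfl | rfl | rfl
    · norm_num
      show co F.σ q ∈ F.T (cj (cj (F.P κ (pm x)))) ↔ _
      rw [cj_cj]
    · norm_num
      show co F.σ q ∈ Pal (fun i => cj ⁻¹' F.U i) (cj (F.P κ (pm x))) ↔ _
      rw [pal_isom, cj_cj]
    · norm_num
      show cj (F.P κ (pm x)) ∈ XX (fun i => cj ⁻¹' F.U i) ↔ _
      rw [xx_isom, cj_cj]
  · norm_num
    rw [show (12 - j) % 12 / 2 = (6 - j / 2) % 6 by omega]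
    have e3 : (F.mir pm).s0 (x, f6 (j / 2)) = F.s1 (pm x, f6 ((6 - j / 2) % 6 + 5)) := by
      show F.s1 (pm x, (f6 (j / 2)).rev) = _
      rw [f6_rev (j / 2) ((6 - j / 2) % 6 + 5) (by omega)]
    have e4 : (F.mir pm).s1 (x, f6 (j / 2 + 5)) = F.s0 (pm x, f6 ((6 - j / 2) % 6)) := by
      show F.s0 (pm x, (f6 (j / 2 + 5)).rev) = _
      rw [f6_rev (j / 2 + 5) ((6 - j / 2) % 6) (by omega)]
    rw [e3, e4]
    interval_cases k <;> norm_num
  · rcases h0 with rfl | rfl | rfl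
    · norm_num
      rw [se_nat, se_mir, ← se_int (α := -(-F.b + (j : ℝ)) - 4) 2]
      have e1 : -(-F.b + (j : ℝ)) - 4 + 6 * ((2 : ℤ) : ℝ) = F.b + ((8 - j : ℕ) : ℝ) := by
        rw [Nat.cast_sub (by omega)]; push_cast; ring
      rw [e1]
    · norm_num
      rw [accL_nat, accR_mir, ← accL_int (α := -(-F.b + (j : ℝ)) - 3) 2]
      have e1 : -(-F.b + (j : ℝ)) - 3 + 6 * ((2 : ℤ) : ℝ) = F.b + ((8 - j : ℕ) : ℝ) + 1 := by
        rw [Nat.cast_sub (by omega)]; push_cast; ring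
      rw [e1]
    · norm_num
      rw [accR_nat, accL_mir, ← accR_int (α := -(-F.b + (j : ℝ) + 1) - 3) 2]
      have e1 : -(-F.b + (j : ℝ) + 1) - 3 + 6 * ((2 : ℤ) : ℝ) = F.b + ((8 - j : ℕ) : ℝ) := by
        rw [Nat.cast_sub (by omega)]; push_cast; ring
      rw [e1]

/-! ### colours -/

/-- other numbers of the colours -/
def Fr.col (π : Equiv.Perm (Fin 6)) (F : Fr) : Fr := { F with σ := F.σ * π }

/-- the permutation on numbers -/
def pn (π : Equiv.Perm (Fin 6)) (q : ℕ) : ℕ := (π (Fin.ofNat 6 q)).val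

theorem co_pn (σ π : Equiv.Perm (Fin 6)) (q : ℕ) : co (σ * π) q = co σ (pn π q) := by
  unfold co pn
  rw [Equiv.Perm.mul_apply]
  congr 1
  apply Fin.ext
  simp [Fin.ofNat, Nat.mod_eq_of_lt (π _).isLt]

/-- **the atoms after a permutation of the colours** -/
theorem tva_col (π : Equiv.Perm (Fin 6)) : tva κ (F.col π) kd x j k q ↔ tva κ F kd x j k (pn π q) := by
  have ec : co (F.col π).σ q = co F.σ (pn π q) := co_pn F.σ π q
  have eP : (F.col π).P κ x = F.P κ x := rfl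
  have eT : (F.col π).T = F.T := rfl
  have eU : (F.col π).U = F.U := rfl
  have eb : (F.col π).b = F.b := rfl
  have e0 : (F.col π).s0 = F.s0 := rfl
  have e1 : (F.col π).s1 = F.s1 := rfl
  unfold tva
  rw [ec, eP, eT, eU, eb, e0, e1]

end

end Vale.Agent.P032.H61
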