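import Vale.Agent.P032X.H61.SymC
import Vale.Agent.P032X.H357.Run

/-!
# P032: the atoms of the frames are the atoms of the germ model; images of patterns

* `Wa` : valid atoms (letters only at centres), `Wa.rot`, `Wa.mir`, `Wa.col`,
* `Mdl B F M` : `M` is a germ model of the frame `F` (`H357.Run.Leg`), `Mdl.av` : its atoms of class 0 are those of the
  frame, `exists_mdl` : there is one,
* `dead_of_pat` : certified patterns are dead.
-/

open Set Filter Topology Metric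

noncomputable section

namespace Vale.Agent.P032.H61

open Vale.Agent.P032.Six Vale.Agent.P032.Words Vale.Agent.P032.S5.H767 Vale.Agent.P032.H892
  Vale.Agent.P032.H913 Vale.Agent.P032.H357
open Vale.Agent.P032.H357.MK (co no co_no co_surj no_co no_lt co_inj of6 ct6 nC nC_eq a_ev cs_iff Cn Tb Hy Leg mS Yc Yt
  Zf fx0 cf St4 exists_st4 yt_yc w_even nio tick0 t2_zero Rl pdr Pat)
open Vale.Agent.P032.H820.K (a0 a1 a2 a3 a4 En en_eq dec Md av lv Ho ps ng lv_ps lv_ng nbf)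

/-! ### valid atoms -/

/-- valid atoms of class 0; letters only at centres -/
structure Wa (G Ce : ℕ → Prop) (kd x j k q : ℕ) : Prop where
  va : Va G kd x j k q
  cen : kd = 9 → Ce x

section
variable {G Ce : ℕ → Prop} {pr pm : ℕ → ℕ} {kd x j k q : ℕ}

theorem Wa.rot (h : Wa G Ce kd x j k q) (hG : G (pr x)) (hC : Ce x → Ce (pr x)) {r : ℕ} :
    Wa G Ce kd (pr x) (rj kd j r) k q := by
  refine ⟨⟨?_, hG, h.va.col, h.va.six⟩, fun e => hC (h.cen e)⟩
  unfold rj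
  rcases h.va.kind with ⟨rfl, h1, h2, h3, h4⟩ | ⟨h0, h1, h2⟩ | ⟨rfl, h1, h2, h3⟩ | ⟨h0, h1, h2⟩
  · left
    rw [if_pos (Or.inl rfl)]
    exact ⟨rfl, by omega, by omega, h3, h4⟩
  · right; left
    rw [if_neg (by omega), if_neg (by omega)]
    exact ⟨h0, h1, h2⟩
  · right; right; left
    rw [if_pos (Or.inr rfl)]
    exact ⟨rfl, by omega, by omega, h3⟩
  · right; right; right
    rw [if_neg (by omega), if_pos h0]
    exact ⟨h0, by omega, h2⟩

theorem Wa.mir (h : Wa G Ce kd x j k q) (hG : G (pm x)) (hC : Ce x → Ce (pm x)) :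
    Wa G Ce (mkd kd) (pm x) (mj kd j) (mz kd k) q := by
  have e9 : mkd kd = 9 → kd = 9 := by
    unfold mkd
    split_ifs <;> omega
  have e6 : mkd kd = 6 → kd = 6 := by
    unfold mkd
    split_ifs <;> omega
  refine ⟨⟨?_, hG, h.va.col, fun e => h.va.six (e6 e)⟩, fun e => hC (h.cen (e9 e))⟩
  rcases h.va.kind with ⟨rfl, h1, h2, h3, h4⟩ | ⟨h0, h1, h2⟩ | ⟨rfl, h1, h2, h3⟩ | ⟨h0, h1, h2⟩
  · left
    unfold mkd mj mz
    norm_num
    omega
  · right; left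
    unfold mkd mj mz
    rcases h0 with rfl | rfl | rfl <;> norm_num <;> exact ⟨h1, h2⟩
  · right; right; left
    unfold mkd mj mz
    norm_num
    omega
  · right; right; right
    unfold mkd mj mz
    rcases h0 with rfl | rfl | rfl <;> norm_num <;> omega

/-- colours of an atom after a permutation -/
def qc (f : ℕ → ℕ) (kd q : ℕ) : ℕ := if kd = 6 then q else f q

theorem pn_lt (π : Equiv.Perm (Fin 6)) (q : ℕ) : pn π q < 6 := (π _).isLt

theorem Wa.col (h : Wa G Ce kd x j k q) (π : Equiv.Perm (Fin 6)) : Wa G Ce kd x j k (qc (pn π) kd q) := by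
  refine ⟨⟨h.va.kind, h.va.pt, ?_, fun e => ?_⟩, h.cen⟩
  · unfold qc
    split_ifs
    · exact h.va.col
    · exact pn_lt π q
  · unfold qc
    rw [if_pos e]
    exact h.va.six e

theorem tva_col' {κ : ℕ → ℤ × ℤ} {F : Fr} (π : Equiv.Perm (Fin 6)) :
    tva κ (F.col π) kd x j k q ↔ tva κ F kd x j k (qc (pn π) kd q) := by
  rw [tva_col]
  unfold qc
  split_ifs with h
  · subst h
    unfold tva
    norm_num
  · exact Iff.rfl

end

/-! ### models of a frame -/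

/-- the hexagonal coordinates of a point of class 0 -/
def kap (TC x : ℕ) : ℤ × ℤ := ((cf 2 TC x 0 : ℤ) - 8, (cf 2 TC x 1 : ℤ) - 8)

/-- the number of a centre -/
def cxv (NW TC : ℕ) : Cn NW TC → ℕ := Subtype.val

/-- the points of class 0 -/
def Gp (NP TC x : ℕ) : Prop := x < NP ∧ fx0 TC x = true

/-- the centres -/
def Ce (NW TC x : ℕ) : Prop := x < NW ∧ fx0 TC x = true

section
variable {NP NW TB TC : ℕ} {F : Fr} {M : Md 2 NP NW (nbf 2 TB)}

theorem yc_P {x : ℕ} : Yc F.b TC F.z x = F.P (kap TC) x := by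
  unfold Yc Fr.P hp kap
  push_cast
  rfl

theorem FOk.hy {B : Type} {κ : ℕ → ℤ × ℤ} {cx : B → ℕ} (h : FOk κ cx F) : Hy F.U F.T :=
  ⟨h.irr, h.ctn, h.five, h.lf3, h.ln⟩

theorem zf_eq : Zf F.b TC F.z NW = F.Z (kap TC) (cxv NW TC) := by
  funext c
  exact yc_P

/-- `M` is a germ model of the frame `F` -/
def Mdl (B : Tb NP NW TB TC) (F : Fr) (M : Md 2 NP NW (nbf 2 TB)) : Prop :=
  ∃ hy : Hy F.U F.T, Leg hy B F.z F.σ F.b (rS (cxv NW TC) F.s0) (rS (cxv NW TC) F.s1) M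

theorem nio_iff (σ : Equiv.Perm (Fin 6)) {p : Fin 6 × Fin 6} {io q : ℕ} (hq : q < 6) :
    nio σ p io = q ↔ cmp io p = co σ q := by
  unfold nio cmp
  split_ifs
  · constructor
    · rintro rfl; exact (co_no σ _).symm
    · intro h; rw [h]; exact no_co σ hq
  · constructor
    · rintro rfl; exact (co_no σ _).symm
    · intro h; rw [h]; exact no_co σ hq

/-- **the atoms of class 0 of a model are those of the frame** -/
theorem Mdl.av {B : Tb NP NW TB TC} (hM : Mdl B F M) {l : ℕ}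
    (hv : Wa (Gp NP TC) (Ce NW TC) (a0 l) (a1 l) (a2 l) (a3 l) (a4 l)) : av M l ↔ tv (kap TC) F l := by
  obtain ⟨hy, u, hu, s0, s1, L, R, S, e0, e1, rfl⟩ := hM
  have hf := hv.va.pt.2
  have hp : Yt (t2 F.b u) 2 TC F.z (a1 l) = F.P (kap TC) (a1 l) := by rw [yt_yc hf, yc_P]
  have eW : a1 l < NW → a2 l % 2 = 0 → ∀ sd io, (mS hy B F.z F.σ hu S).W (a1 l) (a2 l) sd io =
      nio F.σ (if sd = 1 then F.s0 (a1 l, f6 (a2 l / 2)) else F.s1 (a1 l, f6 (a2 l / 2 + 5))) io := fun h1 h2 sd io => by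
    rw [w_even h1 hf h2, e0, e1]
    rfl
  unfold tv tva H820.K.av
  generalize a0 l = kd at hv
  generalize a1 l = x at hv hp eW hf
  generalize a2 l = j at hv eW
  generalize a3 l = k at hv
  generalize a4 l = q at hv
  rcases hv.va.kind with ⟨rfl, h1, h2, h3, h4⟩ | ⟨h0, h1, h2⟩ | ⟨rfl, h1, h2, h3⟩ | ⟨h0, h1, h2⟩
  · simp only [if_true]
    show Cl (Sq F.T (co F.σ q)) (Yt (t2 F.b u) 2 TC F.z x) (t2 F.b u) k j ↔ _
    rw [cl_zc (by omega), hp]
    have e : j = 2 * (j / 2) := by omega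
    conv_lhs => rw [e, t2_even]
  · subst h1 h2
    rcases h0 with rfl | rfl | rfl
    · norm_num
      show co F.σ q ∈ F.T (Yt (t2 F.b u) 2 TC F.z x) ↔ _
      rw [hp]
    · norm_num
      show co F.σ q ∈ Pal F.U (Yt (t2 F.b u) 2 TC F.z x) ↔ _
      rw [hp]
    · norm_num
      show Yt (t2 F.b u) 2 TC F.z x ∈ XX F.U ↔ _
      rw [hp]
  · norm_num
    rw [eW (hv.cen rfl).1 h1, nio_iff _ hv.va.col]
    interval_cases k <;> norm_num
  · subst h2
    rcases h0 with rfl | rfl | rfl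
    · norm_num
      refine (tick0 hu x j h1 hy.h F.z TC (co F.σ q)).trans ?_
      show (shD F.T (Yt (t2 F.b u) 2 TC F.z) x (co F.σ q) ∩ Ioo (F.b + j) (F.b + j + 1)).Nonempty ↔ _
      rw [shD_sh, hp]
      exact Iff.rfl
    · norm_num
      show AccR (Sh F.T (Yt (t2 F.b u) 2 TC F.z x) (co F.σ q)) (t2 F.b u 0 + (j : ℕ)) ↔ _
      rw [t2_zero, hp]
    · norm_num
      show AccL (Sh F.T (Yt (t2 F.b u) 2 TC F.z x) (co F.σ q)) (t2 F.b u 0 + (j : ℕ) + 1) ↔ _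
      rw [t2_zero, hp]

theorem Mdl.lv {B : Tb NP NW TB TC} (hM : Mdl B F M) {l : ℕ}
    (hv : Wa (Gp NP TC) (Ce NW TC) (a0 (l / 2)) (a1 (l / 2)) (a2 (l / 2)) (a3 (l / 2)) (a4 (l / 2))) :
    lv M l ↔ lf (kap TC) F l := by
  unfold H820.K.lv lf
  rw [hM.av hv]

/-- **there is a model** -/
theorem exists_mdl (B : Tb NP NW TB TC) (hF : FOk (kap TC) (cxv NW TC) F) :
    ∃ M : Md 2 NP NW (nbf 2 TB), Mdl B F M := by
  have hu : F.b + 1 / 2 ∈ Ioo F.b (F.b + 1) := ⟨by linarith, by linarith⟩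
  obtain ⟨L, hL⟩ := lst_ne hF.irr hF.lf3 (nX (Zf F.b TC F.z NW)) nO (F.b + 1 / 2)
  obtain ⟨R, hR⟩ := rst_ne hF.irr hF.lf3 (nX (Zf F.b TC F.z NW)) nO (F.b + 1 / 2)
  have S : St4 F.U F.T (Zf F.b TC F.z NW) F.b (F.b + 1 / 2) (rS (cxv NW TC) F.s0) (rS (cxv NW TC) F.s1) L R :=
    ⟨by rw [zf_eq]; exact hF.r0, by rw [zf_eq]; exact hF.r1, hL, hR⟩
  obtain ⟨s0', s1', L', R', S', e0, e1, -, -⟩ := exists_st4 hF.hy S
  exact ⟨mS hF.hy B F.z F.σ hu S', hF.hy, _, hu, _, _, _, _, S', e0, e1, rfl⟩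

/-- **a certified pattern is dead** -/
theorem dead_of_pat {B : Tb NP NW TB TC} {E : List (List ℕ)} {P : List ℕ} {Inv : List (List ℕ)} {C : Fr → Prop}
    (hC : ∀ F, C F → FOk (kap TC) (cxv NW TC) F) (hE : ∀ F M, C F → Mdl B F M → ∀ c ∈ E, Ho M c)
    (hv : ∀ l ∈ P, Wa (Gp NP TC) (Ce NW TC) (a0 (l / 2)) (a1 (l / 2)) (a2 (l / 2)) (a3 (l / 2)) (a4 (l / 2)))
    (H : Pat NP NW TB TC E P Inv) : Dead (kap TC) C P := by
  intro F hF hall
  obtain ⟨M, hM⟩ := exists_mdl B (hC F hF)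
  obtain ⟨hy, hl⟩ := id hM
  exact pdr (fun M' hM' => hE F M' hF ⟨hy, hM'⟩) H ⟨M, hl, fun l hl => (hM.lv (hv l hl)).2 (hall l hl)⟩

end

end Vale.Agent.P032.H61
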