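import Vale.Agent.P032X.H61.SymD

/-!
# P032: images of dead patterns as clauses of the germ model

* `nr`, `nm`, `nc` : images of the numbers of atoms, `gq` : image of a literal under mirror image, rotation, colours,
* `Tabs` : the tables of the points are correct,
* `Dead.gq` : images of dead patterns are dead,
* `img_ho` : the clause of an image holds in every model.
-/

open Set Filter Topology Metric

noncomputable section

namespace Vale.Agent.P032.H61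

open Vale.Agent.P032.Six Vale.Agent.P032.Words Vale.Agent.P032.S5.H767 Vale.Agent.P032.H892
  Vale.Agent.P032.H913 Vale.Agent.P032.H357
open Vale.Agent.P032.H820.K (a0 a1 a2 a3 a4 En en_eq dec Md av lv Ho ps ng lv_ps lv_ng)

/-- valid numbers of atoms -/
def Wn (G Ce : ℕ → Prop) (n : ℕ) : Prop := Wa G Ce (a0 n) (a1 n) (a2 n) (a3 n) (a4 n)

/-- rotation of an atom, `p` = the point -/
def nr (p : ℕ → ℕ) (r n : ℕ) : ℕ := En (a0 n) (p (a1 n)) (rj (a0 n) (a2 n) r) (a3 n) (a4 n)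

/-- mirror image of an atom -/
def nm (p : ℕ → ℕ) (n : ℕ) : ℕ := En (mkd (a0 n)) (p (a1 n)) (mj (a0 n) (a2 n)) (mz (a0 n) (a3 n)) (a4 n)

/-- change of the colour of an atom -/
def nc (f : ℕ → ℕ) (n : ℕ) : ℕ := En (a0 n) (a1 n) (a2 n) (a3 n) (qc f (a0 n) (a4 n))

section
variable {G Ce : ℕ → Prop} {kd x j k q : ℕ}

theorem Va.bd (h : Va G kd x j k q) : kd < 16 ∧ j < 256 ∧ k < 8 := by
  rcases h.kind with ⟨rfl, h1, h2, h3, h4⟩ | ⟨h0, h1, h2⟩ | ⟨rfl, h1, h2, h3⟩ | ⟨h0, h1, h2⟩ <;> omega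

theorem wn_en (hG : ∀ x, G x → x < 4096) (h : Wa G Ce kd x j k q) :
    a0 (En kd x j k q) = kd ∧ a1 (En kd x j k q) = x ∧ a2 (En kd x j k q) = j ∧ a3 (En kd x j k q) = k ∧
      a4 (En kd x j k q) = q := by
  obtain ⟨h1, h2, h3⟩ := h.va.bd
  exact dec h1 (hG x h.va.pt) h2 h3

theorem wn_of (hG : ∀ x, G x → x < 4096) (h : Wa G Ce kd x j k q) : Wn G Ce (En kd x j k q) := by
  obtain ⟨e0, e1, e2, e3, e4⟩ := wn_en hG h
  unfold Wn
  rw [e0, e1, e2, e3, e4]; exact h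

theorem tv_en {κ : ℕ → ℤ × ℤ} {F : Fr} (hG : ∀ x, G x → x < 4096) (h : Wa G Ce kd x j k q) :
    tv κ F (En kd x j k q) ↔ tva κ F kd x j k q := by
  obtain ⟨e0, e1, e2, e3, e4⟩ := wn_en hG h
  unfold tv
  rw [e0, e1, e2, e3, e4]

end

/-! ### tables -/

/-- the tables `tab g x` of the images of the points (`g = r` : rotation, `g = 6 + r` : mirror image, then rotation) -/
structure Tabs (κ : ℕ → ℤ × ℤ) (G Ce : ℕ → Prop) (tab : ℕ → ℕ → ℕ) : Prop where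
  lt : ∀ x, G x → x < 4096
  zero : ∀ x, G x → tab 0 x = x
  good : ∀ x, G x → ∀ g < 12, G (tab g x)
  cen : ∀ x, Ce x → ∀ g < 12, Ce (tab g x)
  rot : ∀ x, G x → κ (tab 1 x) = rC (κ x)
  mir : ∀ x, G x → κ (tab 6 x) = mC (κ x)
  sr : ∀ x, G x → ∀ r < 5, tab (r + 1) x = tab 1 (tab r x)
  sm : ∀ x, G x → ∀ r < 5, tab (6 + (r + 1)) x = tab 1 (tab (6 + r) x)

section
variable {κ : ℕ → ℤ × ℤ} {G Ce : ℕ → Prop} {tab : ℕ → ℕ → ℕ} {C : Fr → Prop} {P : List ℕ}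

theorem rj_rj {kd j r : ℕ} (hv : (kd = 0 ∧ j % 2 = 0 ∧ j < 12) ∨ (kd = 4 ∨ kd = 5 ∨ kd = 6) ∨
    (kd = 9 ∧ j % 2 = 0 ∧ j < 12) ∨ ((kd = 11 ∨ kd = 14 ∨ kd = 15) ∧ j < 6)) :
    rj kd (rj kd j r) 1 = rj kd j (r + 1) := by
  unfold rj
  split_ifs <;> omega

theorem rj_zero {kd j : ℕ} (hv : (kd = 0 ∧ j % 2 = 0 ∧ j < 12) ∨ (kd = 4 ∨ kd = 5 ∨ kd = 6) ∨
    (kd = 9 ∧ j % 2 = 0 ∧ j < 12) ∨ ((kd = 11 ∨ kd = 14 ∨ kd = 15) ∧ j < 6)) :
    rj kd j 0 = j := by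
  unfold rj
  split_ifs <;> omega

theorem va_hv {kd x j k q : ℕ} (h : Va G kd x j k q) : (kd = 0 ∧ j % 2 = 0 ∧ j < 12) ∨ (kd = 4 ∨ kd = 5 ∨ kd = 6) ∨
    (kd = 9 ∧ j % 2 = 0 ∧ j < 12) ∨ ((kd = 11 ∨ kd = 14 ∨ kd = 15) ∧ j < 6) := by
  rcases h.kind with ⟨rfl, h1, h2, h3, h4⟩ | ⟨h0, h1, h2⟩ | ⟨rfl, h1, h2, h3⟩ | ⟨h0, h1, h2⟩
  · exact Or.inl ⟨rfl, h1, h2⟩
  · exact Or.inr (Or.inl h0)
  · exact Or.inr (Or.inr (Or.inl ⟨rfl, h1, h2⟩))
  · exact Or.inr (Or.inr (Or.inr ⟨h0, h1⟩))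

/-- all literals are valid -/
def Vl (G Ce : ℕ → Prop) (P : List ℕ) : Prop := ∀ l ∈ P, Wn G Ce (l / 2)

theorem lm_div (f : ℕ → ℕ) (l : ℕ) : lm f l / 2 = f (l / 2) := by unfold lm; omega

theorem lm_mod (f : ℕ → ℕ) (l : ℕ) : lm f l % 2 = l % 2 := by unfold lm; omega

theorem Vl.map {f : ℕ → ℕ} (h : Vl G Ce P) (hf : ∀ n, Wn G Ce n → Wn G Ce (f n)) : Vl G Ce (P.map (lm f)) := by
  intro l hl
  obtain ⟨l', h1, rfl⟩ := List.mem_map.1 hl
  rw [lm_div]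
  exact hf _ (h l' h1)

variable (t : Tabs κ G Ce tab)
include t

theorem Wn.nr {n g r : ℕ} (h : Wn G Ce n) (hg : g < 12) : Wn G Ce (nr (tab g) r n) :=
  wn_of t.lt (Wa.rot h (t.good _ h.va.pt g hg) fun hc => t.cen _ hc g hg)

theorem Wn.nm {n g : ℕ} (h : Wn G Ce n) (hg : g < 12) : Wn G Ce (nm (tab g) n) :=
  wn_of t.lt (Wa.mir h (t.good _ h.va.pt g hg) fun hc => t.cen _ hc g hg)

theorem Wn.nc {n : ℕ} (h : Wn G Ce n) (π : Equiv.Perm (Fin 6)) : Wn G Ce (nc (pn π) n) := wn_of t.lt (Wa.col h π)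

theorem dead_rot (hP : Dead κ C P) (hv : Vl G Ce P) (hC : ∀ F, C F → C (F.rot (tab 1))) :
    Dead κ C (P.map (lm (nr (tab 1) 1))) := by
  refine hP.of_map hC fun F hF l hl => ?_
  have h := hv l hl
  unfold H61.nr
  rw [tv_en t.lt (Wa.rot h (t.good _ h.va.pt 1 (by norm_num)) fun hc => t.cen _ hc 1 (by norm_num))]
  exact tva_rot (t.rot _ h.va.pt) h.va

theorem dead_mir (hP : Dead κ C P) (hv : Vl G Ce P) (hC : ∀ F, C F → C (F.mir (tab 6))) :
    Dead κ C (P.map (lm (nm (tab 6)))) := by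
  refine hP.of_map hC fun F hF l hl => ?_
  have h := hv l hl
  unfold H61.nm
  rw [tv_en t.lt (Wa.mir h (t.good _ h.va.pt 6 (by norm_num)) fun hc => t.cen _ hc 6 (by norm_num))]
  exact tva_mir (t.mir _ h.va.pt) h.va

theorem dead_col (hP : Dead κ C P) (hv : Vl G Ce P) (π : Equiv.Perm (Fin 6)) (hC : ∀ F, C F → C (F.col π)) :
    Dead κ C (P.map (lm (nc (pn π)))) := by
  refine hP.of_map hC fun F hF l hl => ?_
  have h := hv l hl
  unfold H61.nc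
  rw [tv_en t.lt (Wa.col h π)]
  exact tva_col' π

/-- the image of an atom under the element `g` of the dihedral group -/
def gn (tab : ℕ → ℕ → ℕ) (g n : ℕ) : ℕ :=
  if g < 6 then En (a0 n) (tab g (a1 n)) (rj (a0 n) (a2 n) g) (a3 n) (a4 n)
  else En (mkd (a0 n)) (tab g (a1 n)) (rj (mkd (a0 n)) (mj (a0 n) (a2 n)) (g - 6)) (mz (a0 n) (a3 n)) (a4 n)

theorem gn_r {r n : ℕ} (hr : r < 5) (hn : Wn G Ce n) : nr (tab 1) 1 (gn tab r n) = gn tab (r + 1) n := by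
  have h1 : Wa G Ce (a0 n) (tab r (a1 n)) (rj (a0 n) (a2 n) r) (a3 n) (a4 n) :=
    Wa.rot hn (t.good _ hn.va.pt r (by omega)) fun hc => t.cen _ hc r (by omega)
  obtain ⟨e0, e1, e2, e3, e4⟩ := wn_en t.lt h1
  have e : gn tab r n = En (a0 n) (tab r (a1 n)) (rj (a0 n) (a2 n) r) (a3 n) (a4 n) := by
    unfold gn; rw [if_pos (by omega)]
  unfold H61.nr
  rw [e, e0, e1, e2, e3, e4, ← t.sr _ hn.va.pt r hr, rj_rj (va_hv hn.va)]
  unfold gn
  rw [if_pos (by omega)]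

theorem gn_m {r n : ℕ} (hr : r < 5) (hn : Wn G Ce n) : nr (tab 1) 1 (gn tab (6 + r) n) = gn tab (6 + (r + 1)) n := by
  have h0 : Wa G Ce (mkd (a0 n)) (tab (6 + r) (a1 n)) (mj (a0 n) (a2 n)) (mz (a0 n) (a3 n)) (a4 n) :=
    Wa.mir hn (t.good _ hn.va.pt (6 + r) (by omega)) fun hc => t.cen _ hc (6 + r) (by omega)
  have h1 : Wa G Ce (mkd (a0 n)) (tab (6 + r) (a1 n)) (rj (mkd (a0 n)) (mj (a0 n) (a2 n)) r) (mz (a0 n) (a3 n)) (a4 n) :=
    Wa.rot (pr := id) h0 h0.va.pt id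
  obtain ⟨e0, e1, e2, e3, e4⟩ := wn_en t.lt h1
  have e : gn tab (6 + r) n =
      En (mkd (a0 n)) (tab (6 + r) (a1 n)) (rj (mkd (a0 n)) (mj (a0 n) (a2 n)) r) (mz (a0 n) (a3 n)) (a4 n) := by
    unfold gn; rw [if_neg (by omega), show 6 + r - 6 = r by omega]
  unfold H61.nr
  rw [e, e0, e1, e2, e3, e4, ← t.sm _ hn.va.pt r hr, rj_rj (va_hv h0.va)]
  unfold gn
  rw [if_neg (by omega), show 6 + (r + 1) - 6 = r + 1 by omega]

theorem gn_zero {n : ℕ} (hn : Wn G Ce n) : a0 (gn tab 0 n) = a0 n ∧ a1 (gn tab 0 n) = a1 n ∧ a2 (gn tab 0 n) = a2 n ∧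
    a3 (gn tab 0 n) = a3 n ∧ a4 (gn tab 0 n) = a4 n := by
  have e : gn tab 0 n = En (a0 n) (a1 n) (a2 n) (a3 n) (a4 n) := by
    unfold gn
    rw [if_pos (by norm_num), t.zero _ hn.va.pt, rj_zero (va_hv hn.va)]
  rw [e]
  exact wn_en t.lt hn

theorem gn_six {n : ℕ} (hn : Wn G Ce n) : gn tab 6 n = nm (tab 6) n := by
  unfold gn H61.nm
  rw [if_neg (by norm_num), show 6 - 6 = 0 by norm_num]
  have h0 : Wa G Ce (mkd (a0 n)) (tab 6 (a1 n)) (mj (a0 n) (a2 n)) (mz (a0 n) (a3 n)) (a4 n) :=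
    Wa.mir hn (t.good _ hn.va.pt 6 (by omega)) fun hc => t.cen _ hc 6 (by omega)
  rw [rj_zero (va_hv h0.va)]

theorem wn_gn {g n : ℕ} (hg : g < 12) (hn : Wn G Ce n) : Wn G Ce (gn tab g n) := by
  unfold gn
  split_ifs with h
  · exact wn_of t.lt (Wa.rot hn (t.good _ hn.va.pt g hg) fun hc => t.cen _ hc g hg)
  · have h0 : Wa G Ce (mkd (a0 n)) (tab g (a1 n)) (mj (a0 n) (a2 n)) (mz (a0 n) (a3 n)) (a4 n) :=
      Wa.mir hn (t.good _ hn.va.pt g hg) fun hc => t.cen _ hc g hg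
    exact wn_of t.lt (Wa.rot (pr := id) h0 h0.va.pt id)

omit t in
theorem map_lm_lm (f h : ℕ → ℕ) (P : List ℕ) : (P.map (lm f)).map (lm h) = P.map (lm fun n => h (f n)) := by
  rw [List.map_map]
  congr 1
  funext l
  show lm h (lm f l) = lm (fun n => h (f n)) l
  unfold lm
  have h1 : (2 * f (l / 2) + l % 2) / 2 = f (l / 2) := by omega
  have h2 : (2 * f (l / 2) + l % 2) % 2 = l % 2 := by omega
  rw [h1, h2]

omit t in
theorem map_congr' {f h : ℕ → ℕ} {P : List ℕ} (hv : Vl G Ce P) (e : ∀ n, Wn G Ce n → f n = h n) :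
    P.map (lm f) = P.map (lm h) := by
  refine List.map_congr_left fun l hl => ?_
  unfold lm
  rw [e _ (hv l hl)]

/-- **images under the dihedral group** -/
theorem dead_gn (hP : Dead κ C P) (hv : Vl G Ce P) (hCr : ∀ F, C F → C (F.rot (tab 1)))
    (hCm : ∀ F, C F → C (F.mir (tab 6))) {g : ℕ} (hg : g < 12) : Dead κ C (P.map (lm (gn tab g))) := by
  have hvg : ∀ g < 12, Vl G Ce (P.map (lm (gn tab g))) := fun g hg => hv.map fun n hn => wn_gn t hg hn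
  have key1 : ∀ r, r ≤ 5 → Dead κ C (P.map (lm (gn tab r))) := by
    intro r
    induction r with
    | zero =>
      intro _
      refine (hP.of_map (g := id) (fun F hF => hF) fun F hF l hl => ?_)
      obtain ⟨e0, e1, e2, e3, e4⟩ := gn_zero t (hv l hl)
      unfold tv
      rw [e0, e1, e2, e3, e4]
      exact Iff.rfl
    | succ r ih =>
      intro hr
      have h1 := dead_rot t (ih (by omega)) (hvg r (by omega)) hCr
      rw [map_lm_lm, map_congr' hv (fun n hn => gn_r t (by omega) hn)] at h1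
      exact h1
  have key2 : ∀ r, r ≤ 5 → Dead κ C (P.map (lm (gn tab (6 + r)))) := by
    intro r
    induction r with
    | zero =>
      intro _
      have h1 := dead_mir t hP hv hCm
      rw [map_congr' hv (fun n hn => (gn_six t hn).symm)] at h1
      exact h1
    | succ r ih =>
      intro hr
      have h1 := dead_rot t (ih (by omega)) (hvg (6 + r) (by omega)) hCr
      rw [map_lm_lm, map_congr' hv (fun n hn => gn_m t (by omega) hn)] at h1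
      exact h1
  rcases Nat.lt_or_ge g 6 with h | h
  · exact key1 g (by omega)
  · have := key2 (g - 6) (by omega)
    rwa [show 6 + (g - 6) = g by omega] at this

/-- **images under the whole group** -/
theorem dead_img (hP : Dead κ C P) (hv : Vl G Ce P) (hCr : ∀ F, C F → C (F.rot (tab 1)))
    (hCm : ∀ F, C F → C (F.mir (tab 6))) {g : ℕ} (hg : g < 12) (π : Equiv.Perm (Fin 6))
    (hCc : ∀ F, C F → C (F.col π)) : Dead κ C (P.map (lm fun n => nc (pn π) (gn tab g n))) := by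
  have h1 := dead_col t (dead_gn t hP hv hCr hCm hg) (hv.map fun n hn => wn_gn t hg hn) π hCc
  rwa [map_lm_lm] at h1

theorem vl_img (hv : Vl G Ce P) {g : ℕ} (hg : g < 12) (π : Equiv.Perm (Fin 6)) :
    Vl G Ce (P.map (lm fun n => nc (pn π) (gn tab g n))) :=
  hv.map fun n hn => Wn.nc t (wn_gn t hg hn) π

end

/-! ### clauses -/

theorem lv_xor {K NP NW : ℕ} {nb : ℕ → ℕ → ℕ} {M : Md K NP NW nb} {l : ℕ} : lv M (Nat.xor l 1) ↔ ¬ lv M l := by
  have e : Nat.xor l 1 = if l % 2 = 0 then l + 1 else l - 1 := by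
    show l ^^^ 1 = _
    rcases Nat.even_or_odd l with h | h
    · rw [if_pos (Nat.even_iff.1 h), Nat.xor_one_of_even h]
    · rw [if_neg (by rw [Nat.odd_iff.1 h]; norm_num), Nat.xor_one_of_odd h]
  rw [e]
  unfold H820.K.lv
  split_ifs with h1 h2 h2
  · omega
  · rw [show (l + 1) / 2 = l / 2 by omega]
  · rw [show (l - 1) / 2 = l / 2 by omega]; tauto
  · omega

/-- the clause which forbids the pattern `P` -/
def ncl (P : List ℕ) : List ℕ := P.map fun l => Nat.xor l 1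

theorem ho_ncl {NP NW TB TC : ℕ} {B : H357.MK.Tb NP NW TB TC} {F : Fr} {M : Md 2 NP NW (H820.K.nbf 2 TB)}
    (hM : Mdl B F M) {C : Fr → Prop} {P : List ℕ} (hP : Dead (kap TC) C P) (hF : C F)
    (hv : Vl (Gp NP TC) (Ce NW TC) P) : Ho M (ncl P) := by
  have h := hP F hF
  rw [not_forall] at h
  obtain ⟨l, h⟩ := h
  rw [Classical.not_imp] at h
  obtain ⟨hl, h⟩ := h
  refine ⟨Nat.xor l 1, List.mem_map_of_mem hl, lv_xor.2 ?_⟩
  rw [hM.lv (hv l hl)]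
  exact h

end Vale.Agent.P032.H61
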