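import Vale.Agent.P032X.H61.SymH
import Vale.Agent.P032X.H357.HistE

/-!
# P032: images of patterns with history bits

* `KP F i` : a letter of the centre at the class 0 has both colours of the pair `i` (`0, 1 | 2, 3`); the meaning of the
  monitor `hA i 0`,
* `tvK`, `lfK`, `DeadK`, `WK`, `VlK` : atoms, literals, dead patterns with these bits,
* `gK`, `cK` : images of atoms, `ClK` : classes closed under an element of the group, `clK_all`, `clK_six`,
* `OkPK` : the allowed permutations of the colours (they keep the partition `01 | 23`),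
* `gBK`, `imTK`, `imTK_ho` : the clauses of the images in the models with free atoms,
* `vlKB`, `chTK`, `tr_allK` : trees of certified patterns, `dead_QK` : a query,
* `kp_XH` : the monitors of `H357.HistE` satisfy the hypothesis `MvK`.
-/

open Set Filter Topology Metric

noncomputable section

namespace Vale.Agent.P032.H61

open Vale.Agent.P032.Six Vale.Agent.P032.Words Vale.Agent.P032.S5.H767 Vale.Agent.P032.H892
  Vale.Agent.P032.H913 Vale.Agent.P032.H357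
open Vale.Agent.P032.H357.MK (fx0 cf al al_spec Tb nbeq co Cn Hy alL alL_spec alLL alLL_spec Qy XV xT xT_av xT_fr LegX
  PatH pdrH Xok mS Zf hA hA_av lpr prs Kp Hp XH xh_ok crp hb hb_zero r_0 rs)
open Vale.Agent.P032.H820.K (a0 a1 a2 a3 a4 En en_eq dec Md av lv Ho ps ng nbf lb lb_iff trv ho_trv ho_bif nthC_ho)

/-! ### the bits of a frame -/

/-- a letter of the centre at the class 0 has both colours of the pair `i` -/
def KP (F : Fr) (i : ℕ) : Prop := ∃ m : Fin 6, lpr F.σ i (F.s0 (0, m)) ∨ lpr F.σ i (F.s1 (0, m))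

theorem kp_rot {F : Fr} {pr : ℕ → ℕ} (h : pr 0 = 0) {i : ℕ} : KP (F.rot pr) i ↔ KP F i := by
  constructor
  · rintro ⟨m, hm⟩
    refine ⟨m + 1, ?_⟩
    have hm : lpr F.σ i (F.s0 (pr 0, m + 1)) ∨ lpr F.σ i (F.s1 (pr 0, m + 1)) := hm
    rwa [h] at hm
  · rintro ⟨m, hm⟩
    refine ⟨m - 1, ?_⟩
    show lpr F.σ i (F.s0 (pr 0, m - 1 + 1)) ∨ lpr F.σ i (F.s1 (pr 0, m - 1 + 1))
    rw [h, sub_add_cancel]; exact hm

theorem kp_mir {F : Fr} {pm : ℕ → ℕ} (h : pm 0 = 0) {i : ℕ} : KP (F.mir pm) i ↔ KP F i := by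
  constructor
  · rintro ⟨m, hm⟩
    refine ⟨m.rev, ?_⟩
    have hm : lpr F.σ i (F.s1 (pm 0, m.rev)) ∨ lpr F.σ i (F.s0 (pm 0, m.rev)) := hm
    rw [h] at hm
    exact hm.symm
  · rintro ⟨m, hm⟩
    refine ⟨m.rev, ?_⟩
    show lpr F.σ i (F.s1 (pm 0, m.rev.rev)) ∨ lpr F.σ i (F.s0 (pm 0, m.rev.rev))
    rw [h, Fin.rev_rev]
    exact hm.symm

/-- the permutation keeps the partition `01 | 23` -/
def Kpi (π : Equiv.Perm (Fin 6)) : Prop := ∀ j < 2, pn π (2 * j) < 4 ∧ pn π (2 * j + 1) / 2 = pn π (2 * j) / 2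

theorem pn_ne {π : Equiv.Perm (Fin 6)} {p q : ℕ} (hp : p < 6) (hq : q < 6) (h : p ≠ q) : pn π p ≠ pn π q := by
  intro e
  have h1 := π.injective (Fin.ext e)
  have h2 : (Fin.ofNat 6 p).val = (Fin.ofNat 6 q).val := congrArg Fin.val h1
  have e1 : (Fin.ofNat 6 p).val = p := Nat.mod_eq_of_lt hp
  have e2 : (Fin.ofNat 6 q).val = q := Nat.mod_eq_of_lt hq
  rw [e1, e2] at h2
  exact h h2

theorem prs_col {σ π : Equiv.Perm (Fin 6)} (hπ : Kpi π) {i : ℕ} (hi : i < 2) (w : Fin 6) :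
    prs (σ * π) i w ↔ prs σ (pn π (2 * i) / 2) w := by
  obtain ⟨-, h2⟩ := hπ i hi
  have h3 := pn_ne (π := π) (p := 2 * i) (q := 2 * i + 1) (by omega) (by omega) (by omega)
  unfold prs
  rw [co_pn, co_pn]
  generalize pn π (2 * i) = a at h2 h3
  generalize pn π (2 * i + 1) = b at h2 h3
  rcases Nat.even_or_odd a with ha | ha
  · have e1 : 2 * (a / 2) = a := Nat.two_mul_div_two_of_even ha
    have e2 : 2 * (a / 2) + 1 = b := by rcases Nat.even_or_odd b with hb | hb <;> [(have := Nat.two_mul_div_two_of_even hb); (have := Nat.two_mul_div_two_add_one_of_odd hb)] <;> omega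
    rw [e2, e1]
  · have e1 : 2 * (a / 2) + 1 = a := Nat.two_mul_div_two_add_one_of_odd ha
    have e2 : 2 * (a / 2) = b := by rcases Nat.even_or_odd b with hb | hb <;> [(have := Nat.two_mul_div_two_of_even hb); (have := Nat.two_mul_div_two_add_one_of_odd hb)] <;> omega
    rw [e1, e2, or_comm]

theorem kp_col {F : Fr} {π : Equiv.Perm (Fin 6)} (hπ : Kpi π) {i : ℕ} (hi : i < 2) :
    KP (F.col π) i ↔ KP F (pn π (2 * i) / 2) := by
  have key : ∀ w : Fin 6 × Fin 6, lpr (F.σ * π) i w ↔ lpr F.σ (pn π (2 * i) / 2) w := fun w => by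
    unfold lpr
    rw [prs_col hπ hi, prs_col hπ hi]
  exact exists_congr fun m => or_congr (key _) (key _)

/-! ### atoms and literals -/

/-- the atoms of class 0 with the bits -/
def tvK (κ : ℕ → ℤ × ℤ) (F : Fr) (n : ℕ) : Prop := if a1 n = 4095 then KP F (a4 n / 4) else tv κ F n

/-- the literals -/
def lfK (κ : ℕ → ℤ × ℤ) (F : Fr) (l : ℕ) : Prop := if l % 2 = 0 then tvK κ F (l / 2) else ¬ tvK κ F (l / 2)

/-- the pattern `P` does not occur -/
def DeadK (κ : ℕ → ℤ × ℤ) (C : Fr → Prop) (P : List ℕ) : Prop := ∀ F, C F → ¬ ∀ l ∈ P, lfK κ F l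

/-- valid atoms with the bits -/
def WK (G Ce : ℕ → Prop) (n : ℕ) : Prop := Wn G Ce n ∨ ∃ i < 2, n = hA i 0

/-- valid patterns with the bits -/
def VlK (G Ce : ℕ → Prop) (P : List ℕ) : Prop := ∀ l ∈ P, WK G Ce (l / 2)

/-- image of an atom under the element `g` -/
def gK (tab : ℕ → ℕ → ℕ) (g n : ℕ) : ℕ := if a1 n = 4095 then n else gn tab g n

/-- image of an atom under a permutation of the colours -/
def cK (f : ℕ → ℕ) (n : ℕ) : ℕ := if a1 n = 4095 then hA (f (2 * (a4 n / 4)) / 2) 0 else nc f n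

theorem hA_dec (i : ℕ) : a0 (hA i 0) = 4 ∧ a1 (hA i 0) = 4095 ∧ a2 (hA i 0) = 0 ∧ a3 (hA i 0) = 0 ∧
    a4 (hA i 0) = 4 * i := by
  unfold hA
  exact dec (by norm_num) (by norm_num) (by norm_num) (by norm_num)

section
variable {κ : ℕ → ℤ × ℤ} {G Ce : ℕ → Prop} {tab : ℕ → ℕ → ℕ} {C : Fr → Prop} {P : List ℕ}

theorem tvK_hA {F : Fr} {i : ℕ} : tvK κ F (hA i 0) ↔ KP F i := by
  obtain ⟨-, e1, -, -, e4⟩ := hA_dec i
  unfold tvK
  rw [if_pos e1, e4, show 4 * i / 4 = i by omega]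

theorem tvK_real (hG : ∀ x, G x → x < 4095) {F : Fr} {n : ℕ} (hn : Wn G Ce n) : tvK κ F n ↔ tv κ F n := by
  have h := hG _ hn.va.pt
  unfold tvK
  rw [if_neg (by omega)]

theorem gK_real (hG : ∀ x, G x → x < 4095) {g n : ℕ} (hn : Wn G Ce n) : gK tab g n = gn tab g n := by
  have h := hG _ hn.va.pt
  unfold gK
  rw [if_neg (by omega)]

theorem gK_hA {g i : ℕ} : gK tab g (hA i 0) = hA i 0 := by
  unfold gK
  rw [if_pos (hA_dec i).2.1]

theorem cK_real (hG : ∀ x, G x → x < 4095) {f : ℕ → ℕ} {n : ℕ} (hn : Wn G Ce n) : cK f n = nc f n := by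
  have h := hG _ hn.va.pt
  unfold cK
  rw [if_neg (by omega)]

theorem cK_hA {f : ℕ → ℕ} {i : ℕ} : cK f (hA i 0) = hA (f (2 * i) / 2) 0 := by
  obtain ⟨-, e1, -, -, e4⟩ := hA_dec i
  unfold cK
  rw [if_pos e1, e4, show 4 * i / 4 = i by omega]

theorem lfK_lm {F F' : Fr} {f : ℕ → ℕ} {l : ℕ} (h : tvK κ F' (l / 2) ↔ tvK κ F (f (l / 2))) :
    lfK κ F' l ↔ lfK κ F (lm f l) := by
  unfold lfK
  rw [lm_mod, lm_div, h]

variable (t : Tabs κ G Ce tab) (hG : ∀ x, G x → x < 4095)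
include t hG

/-- the class `C` is closed under the element `g` -/
def ClK (κ : ℕ → ℤ × ℤ) (tab : ℕ → ℕ → ℕ) (C : Fr → Prop) (G Ce : ℕ → Prop) (g : ℕ) : Prop :=
  ∀ F, C F → ∃ F', C F' ∧ ∀ n, WK G Ce n → (tvK κ F' n ↔ tvK κ F (gK tab g n))

theorem tvK_rot {F : Fr} {n : ℕ} (hn : Wn G Ce n) :
    tvK κ (F.rot (tab 1)) n ↔ tvK κ F (nr (tab 1) 1 n) := by
  rw [tvK_real hG hn, tvK_real hG (Wn.nr t (g := 1) (r := 1) hn (by norm_num))]
  unfold H61.nr
  rw [tv_en t.lt (Wa.rot hn (t.good _ hn.va.pt 1 (by norm_num)) fun hc => t.cen _ hc 1 (by norm_num))]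
  exact tva_rot (t.rot _ hn.va.pt) hn.va

theorem tvK_mir {F : Fr} {n : ℕ} (hn : Wn G Ce n) :
    tvK κ (F.mir (tab 6)) n ↔ tvK κ F (nm (tab 6) n) := by
  rw [tvK_real hG hn, tvK_real hG (Wn.nm t (g := 6) hn (by norm_num))]
  unfold H61.nm
  rw [tv_en t.lt (Wa.mir hn (t.good _ hn.va.pt 6 (by norm_num)) fun hc => t.cen _ hc 6 (by norm_num))]
  exact tva_mir (t.mir _ hn.va.pt) hn.va

theorem tvK_zero {F : Fr} {n : ℕ} (hn : WK G Ce n) : tvK κ F n ↔ tvK κ F (gK tab 0 n) := by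
  rcases hn with hn | ⟨i, hi, rfl⟩
  · rw [gK_real hG hn, tvK_real hG hn, tvK_real hG (wn_gn t (by norm_num) hn)]
    obtain ⟨e0, e1, e2, e3, e4⟩ := gn_zero t hn
    unfold tv
    rw [e0, e1, e2, e3, e4]
  · rw [gK_hA]

theorem clK_six (hC : ∀ F, C F → C (F.mir (tab 6))) (h6 : tab 6 0 = 0) {g : ℕ} (hg : g = 0 ∨ g = 6) :
    ClK κ tab C G Ce g := by
  intro F hF
  rcases hg with rfl | rfl
  · exact ⟨F, hF, fun n hn => tvK_zero t hG hn⟩
  · refine ⟨_, hC F hF, fun n hn => ?_⟩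
    rcases hn with hn | ⟨i, hi, rfl⟩
    · rw [gK_real hG hn, gn_six t hn]
      exact tvK_mir t hG hn
    · rw [gK_hA, tvK_hA, tvK_hA]
      exact kp_mir h6

/-- one more rotation -/
theorem clK_rot (hC : ∀ F, C F → C (F.rot (tab 1))) (h1 : tab 1 0 = 0) {g g' : ℕ} (hg : g < 12)
    (h : ClK κ tab C G Ce g) (e : ∀ n, Wn G Ce n → nr (tab 1) 1 (gn tab g n) = gn tab g' n) :
    ClK κ tab C G Ce g' := by
  intro F hF
  obtain ⟨F', hF', h2⟩ := h _ (hC F hF)
  refine ⟨F', hF', fun n hn => ?_⟩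
  rw [h2 n hn]
  rcases hn with hn | ⟨i, hi, rfl⟩
  · rw [gK_real hG hn, gK_real hG hn, ← e n hn]
    exact tvK_rot t hG (wn_gn t hg hn)
  · rw [gK_hA, gK_hA, tvK_hA, tvK_hA]
    exact kp_rot h1

/-- **closed under the dihedral group** -/
theorem clK_all (hCr : ∀ F, C F → C (F.rot (tab 1))) (hCm : ∀ F, C F → C (F.mir (tab 6))) (h1 : tab 1 0 = 0)
    (h6 : tab 6 0 = 0) {g : ℕ} (hg : g < 12) : ClK κ tab C G Ce g := by
  have key1 : ∀ r, r ≤ 5 → ClK κ tab C G Ce r := by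
    intro r
    induction r with
    | zero => intro _; exact clK_six t hG hCm h6 (Or.inl rfl)
    | succ r ih =>
      intro hr
      exact clK_rot t hG hCr h1 (g := r) (by omega) (ih (by omega)) fun n hn => gn_r t (by omega) hn
  have key2 : ∀ r, r ≤ 5 → ClK κ tab C G Ce (6 + r) := by
    intro r
    induction r with
    | zero => intro _; exact clK_six t hG hCm h6 (Or.inr rfl)
    | succ r ih =>
      intro hr
      exact clK_rot t hG hCr h1 (g := 6 + r) (by omega) (ih (by omega)) fun n hn => gn_m t (by omega) hn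
  rcases Nat.lt_or_ge g 6 with h | h
  · exact key1 g (by omega)
  · have := key2 (g - 6) (by omega)
    rwa [show 6 + (g - 6) = g by omega] at this

theorem tvK_col {F : Fr} {π : Equiv.Perm (Fin 6)} (hπ : Kpi π) {n : ℕ} (hn : WK G Ce n) :
    tvK κ (F.col π) n ↔ tvK κ F (cK (pn π) n) := by
  rcases hn with hn | ⟨i, hi, rfl⟩
  · rw [cK_real hG hn, tvK_real hG hn, tvK_real hG (Wn.nc t hn π)]
    unfold H61.nc
    rw [tv_en t.lt (Wa.col hn π)]
    exact tva_col' π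
  · rw [cK_hA, tvK_hA, tvK_hA]
    exact kp_col hπ hi

theorem wK_g {g n : ℕ} (hg : g < 12) (hn : WK G Ce n) : WK G Ce (gK tab g n) := by
  rcases hn with hn | ⟨i, hi, rfl⟩
  · left; rw [gK_real hG hn]; exact wn_gn t hg hn
  · right; exact ⟨i, hi, gK_hA⟩

theorem wK_c {π : Equiv.Perm (Fin 6)} (hπ : Kpi π) {n : ℕ} (hn : WK G Ce n) : WK G Ce (cK (pn π) n) := by
  rcases hn with hn | ⟨i, hi, rfl⟩
  · left; rw [cK_real hG hn]; exact Wn.nc t hn π
  · right
    refine ⟨pn π (2 * i) / 2, ?_, cK_hA⟩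
    have := (hπ i hi).1
    omega

/-- **images of dead patterns with bits** -/
theorem deadK_img (hP : DeadK κ C P) (hv : VlK G Ce P) {g : ℕ} (hg : ClK κ tab C G Ce g) (hg12 : g < 12)
    {π : Equiv.Perm (Fin 6)} (hπ : Kpi π) (hCc : ∀ F, C F → C (F.col π)) :
    DeadK κ C (P.map (lm fun n => cK (pn π) (gK tab g n))) := by
  intro F hF hall
  obtain ⟨F', hF', h1⟩ := hg _ (hCc F hF)
  refine hP F' hF' fun l hl => ?_
  have h2 := hall _ (List.mem_map_of_mem hl)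
  refine (lfK_lm ?_).2 h2
  rw [h1 _ (hv l hl)]
  exact tvK_col t hG hπ (wK_g t hG hg12 (hv l hl))

theorem vlK_img (hv : VlK G Ce P) {g : ℕ} (hg12 : g < 12) {π : Equiv.Perm (Fin 6)} (hπ : Kpi π) :
    VlK G Ce (P.map (lm fun n => cK (pn π) (gK tab g n))) := by
  intro l hl
  obtain ⟨l', h1, rfl⟩ := List.mem_map.1 hl
  rw [lm_div]
  exact wK_c t hG hπ (wK_g t hG hg12 (hv l' h1))

end

/-! ### models -/

/-- the atoms of class 0 and the bits of the model are those of the frame -/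
def MvK {NP NW TB : ℕ} (TC : ℕ) (F : Fr) (M : Md 2 NP NW (nbf 2 TB)) : Prop :=
  ∀ n, WK (Gp NP TC) (Ce NW TC) n → (av M n ↔ tvK (kap TC) F n)

section
variable {NP NW TB TC TG : ℕ} {B : Tb NP NW TB TC} {F : Fr} {M : Md 2 NP NW (nbf 2 TB)} {C : Fr → Prop}

theorem gp_lt (hNP : NP ≤ 4095) : ∀ x, Gp NP TC x → x < 4095 := fun _ hx => lt_of_lt_of_le hx.1 hNP

theorem mvK_of {XF : Fr → XV NW} (hNP : NP ≤ 4095) (hM : MdlX B XF F M) (h : ∀ i < 2, (av M (hA i 0) ↔ KP F i)) :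
    MvK TC F M := by
  rintro n (hn | ⟨i, hi, rfl⟩)
  · rw [tvK_real (gp_lt hNP) hn]
    exact hM.av hn
  · rw [tvK_hA]; exact h i hi

theorem MvK.lv (hM : MvK TC F M) {l : ℕ} (hv : WK (Gp NP TC) (Ce NW TC) (l / 2)) : lv M l ↔ lfK (kap TC) F l := by
  unfold H820.K.lv lfK
  rw [hM _ hv]

theorem ho_nclK (hM : MvK TC F M) {P : List ℕ} (hP : DeadK (kap TC) C P) (hF : C F)
    (hv : VlK (Gp NP TC) (Ce NW TC) P) : Ho M (ncl P) := by
  have h := hP F hF
  rw [not_forall] at h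
  obtain ⟨l, h⟩ := h
  rw [Classical.not_imp] at h
  obtain ⟨hl, h⟩ := h
  refine ⟨Nat.xor l 1, List.mem_map_of_mem hl, lv_xor.2 ?_⟩
  rw [hM.lv (hv l hl)]
  exact h

/-! ### images in the kernel -/

/-- the image of an atom -/
def gBK (TG cp g n : ℕ) : ℕ := bif Nat.beq (Nat.mod (Nat.div n 16) 4096) 4095 then
    hA (Nat.div (cpf cp (Nat.mul 2 (Nat.div (Nat.div n 134217728) 4))) 2) 0 else gB TG cp g n

/-- the negated image of a literal -/
def gLK (TG cp g l : ℕ) : ℕ := Nat.add (Nat.mul 2 (gBK TG cp g (Nat.div l 2))) (Nat.sub 1 (Nat.mod l 2))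

/-- the clause of an image of a pattern -/
def imCK (TG cp g x : ℕ) : List ℕ := upk (gLK TG cp g) 64 x

theorem gLK_eq (TG cp g l : ℕ) : gLK TG cp g l = Nat.xor (lm (gBK TG cp g) l) 1 := by
  have h1 : gLK TG cp g l = 2 * gBK TG cp g (l / 2) + (1 - l % 2) := rfl
  have h2 : lm (gBK TG cp g) l = 2 * gBK TG cp g (l / 2) + l % 2 := rfl
  rw [h1, h2]
  show _ = (2 * gBK TG cp g (l / 2) + l % 2) ^^^ 1
  rcases Nat.mod_two_eq_zero_or_one l with h | h
  · rw [h, Nat.xor_one_of_even (by simp)]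
  · rw [h, Nat.xor_one_of_odd (by exact odd_two_mul_add_one _)]
    simp

theorem gBK_eq (t : Tabs (kap TC) (Gp NP TC) (Ce NW TC) (ptb TG)) (hNP : NP ≤ 4095) {cp g n : ℕ} (hg : g < 12)
    {π : Equiv.Perm (Fin 6)} (hcp : ∀ q < 6, pn π q = cpf cp q) (hn : WK (Gp NP TC) (Ce NW TC) n) :
    gBK TG cp g n = cK (pn π) (gK (ptb TG) g n) := by
  rcases hn with hn | ⟨i, hi, rfl⟩
  · have h1 := gp_lt hNP _ hn.va.pt
    have h2 : Nat.beq (Nat.mod (Nat.div n 16) 4096) 4095 = false := by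
      rw [← Bool.not_eq_true, nbeq]
      intro e
      have : a1 n = 4095 := e
      omega
    unfold gBK
    rw [h2, cond_false, gB_eq t hg hn, gK_real (gp_lt hNP) hn, cK_real (gp_lt hNP) (wn_gn t hg hn)]
    have hw := wn_gn t hg hn
    unfold nc
    congr 1
    unfold qc
    split_ifs
    · rfl
    · exact (hcp _ hw.va.col).symm
  · obtain ⟨-, e1, -, -, e4⟩ := hA_dec i
    have h2 : Nat.beq (Nat.mod (Nat.div (hA i 0) 16) 4096) 4095 = true := nbeq.2 e1
    have h3 : Nat.div (Nat.div (hA i 0) 134217728) 4 = i := by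
      have e4 : Nat.div (hA i 0) 134217728 = 4 * i := e4
      rw [e4]
      show 4 * i / 4 = i
      omega
    unfold gBK
    rw [h2, cond_true, h3, gK_hA, cK_hA, hcp _ (by omega)]
    rfl

/-- the permutations with the numbers below `NPM` in the table `PT` are allowed and keep the partition `01 | 23` -/
def OkPK (C : Fr → Prop) (PT NPM : ℕ) : Prop := ∀ i < NPM, ∃ π : Equiv.Perm (Fin 6),
  (∀ q < 6, pn π q = cpf (Nat.land (Nat.shiftRight PT (Nat.mul 18 i)) 262143) q) ∧ Kpi π ∧ ∀ F, C F → C (F.col π)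

/-- the check of the partition -/
def kpiB (PT NPM : ℕ) : Bool := al (fun i => al (fun j =>
  lb (cpf (Nat.land (Nat.shiftRight PT (Nat.mul 18 i)) 262143) (Nat.mul 2 j)) 4 &&
  Nat.beq (Nat.div (cpf (Nat.land (Nat.shiftRight PT (Nat.mul 18 i)) 262143) (Nat.succ (Nat.mul 2 j))) 2)
    (Nat.div (cpf (Nat.land (Nat.shiftRight PT (Nat.mul 18 i)) 262143) (Nat.mul 2 j)) 2)) 2) NPM

theorem okPK_of {PT NPM : ℕ} (h : OkPT C PT NPM) (hk : kpiB PT NPM = true) : OkPK C PT NPM := by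
  intro i hi
  obtain ⟨π, h1, h2⟩ := h i hi
  refine ⟨π, h1, fun j hj => ?_, h2⟩
  have h3 := al_spec (al_spec hk i hi) j hj
  rw [Bool.and_eq_true, lb_iff, nbeq] at h3
  rw [h1 _ (by omega), h1 _ (by omega)]
  exact h3

/-- the clause of an image, code `g + 16 i + 4096 n` -/
def imTK (G : ℕ → Bool) (t : PTr) (PT NPM TG c : ℕ) : List ℕ :=
  bif G (Nat.land c 15) && lb (Nat.land (Nat.shiftRight c 4) 255) NPM then
    imCK TG (Nat.land (Nat.shiftRight PT (Nat.mul 18 (Nat.land (Nat.shiftRight c 4) 255))) 262143)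
      (Nat.land c 15) (t.get (Nat.shiftRight c 12)) else trv

/-- **clauses of images hold in every model** -/
theorem imTK_ho (t : Tabs (kap TC) (Gp NP TC) (Ce NW TC) (ptb TG)) (hNP : NP ≤ 4095) (hM : MvK TC F M) (hF : C F)
    {G : ℕ → Bool} (hG : ∀ g, G g = true → g < 12 ∧ ClK (kap TC) (ptb TG) C (Gp NP TC) (Ce NW TC) g) {PT NPM : ℕ}
    (hPT : OkPK C PT NPM) {tr : PTr}
    (ht : tr.All fun p => DeadK (kap TC) C (pk p) ∧ VlK (Gp NP TC) (Ce NW TC) (pk p)) (c : ℕ) :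
    Ho M (imTK G tr PT NPM TG c) := by
  unfold imTK
  cases h1 : G (Nat.land c 15) && lb (Nat.land (Nat.shiftRight c 4) 255) NPM
  · rw [cond_false]; exact ho_trv M
  · rw [cond_true]
    rw [Bool.and_eq_true, lb_iff] at h1
    generalize Nat.land c 15 = g at h1
    generalize Nat.land (Nat.shiftRight c 4) 255 = i at h1
    obtain ⟨hg, hg1⟩ := hG g h1.1
    obtain ⟨π, h2, hk, h3⟩ := hPT i h1.2
    generalize Nat.land (Nat.shiftRight PT (Nat.mul 18 i)) 262143 = cp at h2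
    obtain ⟨h4, h5⟩ := PTr.get_all ht (Nat.shiftRight c 12)
    generalize tr.get (Nat.shiftRight c 12) = x at h4 h5
    have h7 := deadK_img t (gp_lt hNP) h4 h5 hg1 hg hk h3
    have h6 := ho_nclK hM h7 hF (vlK_img t (gp_lt hNP) h5 hg hk)
    have e1 : imCK TG cp g x = ncl ((pk x).map (lm fun n => cK (pn π) (gK (ptb TG) g n))) := by
      unfold imCK ncl pk
      rw [upk_map (gLK TG cp g), List.map_map]
      refine List.map_congr_left fun l hl => ?_
      show gLK TG cp g l = Nat.xor (lm (fun n => cK (pn π) (gK (ptb TG) g n)) l) 1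
      rw [gLK_eq]
      congr 1
      unfold lm
      rw [gBK_eq t hNP hg h2 (h5 l hl)]
    rw [e1]; exact h6

theorem gA_okK (t : Tabs (kap TC) (Gp NP TC) (Ce NW TC) (ptb TG)) (hNP : NP ≤ 4095)
    (hCr : ∀ F, C F → C (F.rot (ptb TG 1))) (hCm : ∀ F, C F → C (F.mir (ptb TG 6))) (h1 : ptb TG 1 0 = 0)
    (h6 : ptb TG 6 0 = 0) (g : ℕ) (hg : gA g = true) : g < 12 ∧ ClK (kap TC) (ptb TG) C (Gp NP TC) (Ce NW TC) g := by
  have h := lb_iff.1 hg
  exact ⟨h, clK_all t (gp_lt hNP) hCr hCm h1 h6 h⟩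

theorem gS_okK (t : Tabs (kap TC) (Gp NP TC) (Ce NW TC) (ptb TG)) (hNP : NP ≤ 4095)
    (hCm : ∀ F, C F → C (F.mir (ptb TG 6))) (h6 : ptb TG 6 0 = 0) (g : ℕ) (hg : gS g = true) :
    g < 12 ∧ ClK (kap TC) (ptb TG) C (Gp NP TC) (Ce NW TC) g := by
  unfold gS at hg
  rw [Bool.or_eq_true, nbeq, nbeq] at hg
  exact ⟨by omega, clK_six t (gp_lt hNP) hCm h6 hg⟩

/-! ### trees of certified patterns -/

/-- check of a valid pattern with bits -/
def vlKB (NP NW TC : ℕ) (P : List ℕ) : Bool :=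
  alL (fun l => wnL NP NW TC l || (Nat.beq (Nat.div l 2) (hA 0 0) || Nat.beq (Nat.div l 2) (hA 1 0))) P

theorem vlK_of_B {P : List ℕ} (h : vlKB NP NW TC P = true) : VlK (Gp NP TC) (Ce NW TC) P := by
  intro l hl
  have h1 := alL_spec h l hl
  rw [Bool.or_eq_true, Bool.or_eq_true, nbeq, nbeq] at h1
  rcases h1 with h1 | h1 | h1
  · exact Or.inl (wa_of_F h1)
  · exact Or.inr ⟨0, by norm_num, h1⟩
  · exact Or.inr ⟨1, by norm_num, h1⟩

/-- the packed patterns `N` are the patterns `L`, all are valid -/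
def chLK (NP NW TC : ℕ) (N : List ℕ) : List (List ℕ) → Bool :=
  @List.rec ℕ (fun _ => List (List ℕ) → Bool)
    (fun L => @List.rec (List ℕ) (fun _ => Bool) true (fun _ _ _ => false) L)
    (fun x _ ih L => @List.rec (List ℕ) (fun _ => Bool) false
      (fun P L' _ => (eqLc (pk x) P && vlKB NP NW TC P) && ih L') L) N

theorem chLK_spec {N : List ℕ} {L : List (List ℕ)} (h : chLK NP NW TC N L = true) :
    ∀ x ∈ N, pk x ∈ L ∧ VlK (Gp NP TC) (Ce NW TC) (pk x) := by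
  induction N generalizing L with
  | nil => exact fun x hx => absurd hx List.not_mem_nil
  | cons y N ih =>
    cases L with
    | nil => exact absurd h Bool.false_ne_true
    | cons P L =>
      have h1 : ((eqLc (pk y) P && vlKB NP NW TC P) && chLK NP NW TC N L) = true := h
      rw [Bool.and_eq_true, Bool.and_eq_true] at h1
      intro x hx
      rcases List.mem_cons.1 hx with rfl | hx
      · have e := eqLc_spec h1.1.1
        rw [e]
        exact ⟨List.mem_cons_self, vlK_of_B h1.1.2⟩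
      · obtain ⟨h2, h3⟩ := ih h1.2 x hx
        exact ⟨List.mem_cons_of_mem _ h2, h3⟩

/-- the tree `t` is the tree of the patterns `L` (with bits) -/
def chTK (NP NW TC : ℕ) (t : PTr) (L : List (List ℕ)) : Bool := chLK NP NW TC (t.lvs []) L

/-- **patterns which are certified with monitors are dead** (the bits of the class 0 may occur in the pattern) -/
theorem deadK_of_patH {nm : ℕ} {XF : Fr → XV NW} {Kc : Fr → Fin nm → Prop} {Hs : Fr → Fin nm → Set ℝ}
    {E : List (List ℕ)} {P : List ℕ} {Inv : List (List ℕ)} (B : Tb NP NW TB TC)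
    (hC : ∀ F, C F → FOk (kap TC) (cxv NW TC) F) (hcl : ∀ F, C F → ∀ i, IsClosed (Hs F i))
    (hX : ∀ F, C F → Xok (XF F) (Kc F) (Hs F) F.b) (hNP : NP ≤ 4095)
    (hMK : ∀ F (M : Md 2 NP NW (nbf 2 TB)), C F → MdlX B XF F M → MvK TC F M)
    (hE : ∀ F M, C F → MdlX B XF F M → ∀ c ∈ E, Ho M c) (hv : VlK (Gp NP TC) (Ce NW TC) P)
    (H : PatH NP NW TB TC nm E P Inv) : DeadK (kap TC) C P := by
  intro F hF hall
  obtain ⟨M, hM⟩ := exists_mdlX B XF (hC F hF)
  obtain ⟨hy, hl⟩ := id hM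
  exact pdrH (hcl F hF) (hX F hF) hNP (fun M' hM' => hE F M' hF ⟨hy, hM'⟩) H
    ⟨M, hl, fun l hl => ((hMK F M hF hM).lv (hv l hl)).2 (hall l hl)⟩

/-- **the tree of a list of patterns which are certified with monitors, extra clauses from a function** -/
theorem tr_allK {nm : ℕ} {XF : Fr → XV NW} {Kc : Fr → Fin nm → Prop} {Hs : Fr → Fin nm → Set ℝ} {t : PTr}
    {L : List (List ℕ)} {fam : ℕ → List ℕ} (B : Tb NP NW TB TC) (h : chTK NP NW TC t L = true)
    (hL : ∀ P ∈ L, CrtG NP NW TB TC nm fam P) (hC : ∀ F, C F → FOk (kap TC) (cxv NW TC) F)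
    (hcl : ∀ F, C F → ∀ i, IsClosed (Hs F i)) (hX : ∀ F, C F → Xok (XF F) (Kc F) (Hs F) F.b) (hNP : NP ≤ 4095)
    (hMK : ∀ F (M : Md 2 NP NW (nbf 2 TB)), C F → MdlX B XF F M → MvK TC F M)
    (hE : ∀ F M, C F → MdlX B XF F M → ∀ c, Ho M (fam c)) :
    t.All fun p => DeadK (kap TC) C (pk p) ∧ VlK (Gp NP TC) (Ce NW TC) (pk p) := by
  refine (PTr.all_of (acc := []) fun x hx => ?_).1
  obtain ⟨h1, h2⟩ := chLK_spec h x hx
  obtain ⟨cs, I, hI⟩ := hL _ h1
  refine ⟨deadK_of_patH B hC hcl hX hNP hMK (fun F M hF hM c hc => ?_) h2 hI, h2⟩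
  obtain ⟨i, -, rfl⟩ := List.mem_map.1 hc
  exact hE F M hF hM i

/-- patterns of a larger class without bits -/
theorem deadK_of_dead {C' : Fr → Prop} {P : List ℕ} (hNP : NP ≤ 4095) (hCC : ∀ F, C F → C' F)
    (hv : Vl (Gp NP TC) (Ce NW TC) P) (h : Dead (kap TC) C' P) : DeadK (kap TC) C P := by
  intro F hF hall
  refine h F (hCC F hF) fun l hl => ?_
  have h1 := hall l hl
  unfold lfK at h1
  unfold lf
  rw [tvK_real (gp_lt hNP) (hv l hl)] at h1
  exact h1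

theorem vlK_of_vl {P : List ℕ} {G Ce : ℕ → Prop} (hv : Vl G Ce P) : VlK G Ce P := fun l hl => Or.inl (hv l hl)

/-- **a query with free atoms** -/
theorem dead_QK (B : Tb NP NW TB TC) (XF : Fr → XV NW) {C' : Fr → Prop}
    (hOk : ∀ F, C' F → FOk (kap TC) (cxv NW TC) F)
    (hMK : ∀ F (M : Md 2 NP NW (nbf 2 TB)), C' F → MdlX B XF F M → MvK TC F M) {P : List ℕ}
    (hv : VlK (Gp NP TC) (Ce NW TC) P) {E : ℕ → List ℕ}
    (hE : ∀ F M, C' F → MdlX B XF F M → (∀ l ∈ P, H820.K.lv M l) → ∀ i, Ho M (E i))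
    {cs : List ℕ} (hq : Qy NP NW TB (cs.map E)) : DeadK (kap TC) C' P := by
  intro F hF hall
  obtain ⟨M, hM⟩ := exists_mdlX B XF (hOk F hF)
  refine hq M fun c hc => ?_
  obtain ⟨i, -, rfl⟩ := List.mem_map.1 hc
  exact hE F M hF hM (fun l hl => ((hMK F M hF hM).lv (hv l hl)).2 (hall l hl)) i

/-- the class is empty -/
theorem dead_nil {C' : Fr → Prop} (h : DeadK (kap TC) C' []) {κ : ℕ → ℤ × ℤ} : Dead κ C' [] :=
  fun F hF _ => h F hF fun _ hl => absurd hl List.not_mem_nil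

end

/-! ### the monitors of `HistE` -/

section
variable {NP NW TB TC : ℕ} {B : Tb NP NW TB TC} {F : Fr} {M : Md 2 NP NW (nbf 2 TB)}

/-- the values of the free atoms: the monitors of `H357.HistE` -/
def XK (c : Cn NW TC) (F : Fr) : XV NW :=
  XH F.U F.T F.z F.σ F.b c (rS (cxv NW TC) F.s0) (rS (cxv NW TC) F.s1)

/-- the constants of the monitors -/
def KcK (c : Cn NW TC) (F : Fr) (i : Fin 2) : Prop :=
  Kp F.σ c (rS (cxv NW TC) F.s0) (rS (cxv NW TC) F.s1) i.val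

/-- the directions of the monitors -/
def HsK (F : Fr) (i : Fin 2) : Set ℝ := Hp F.U F.T F.z F.σ i.val

theorem xK_ok (c : Cn NW TC) (F : Fr) : Xok (XK c F) (KcK c F) (HsK F) F.b := xh_ok _ _ _ _ _ _ 2

theorem hsK_closed (F : Fr) (i : Fin 2) : IsClosed (HsK F i) := H357.MK.hp_closed _ _ _

theorem rS_zero {c : Cn NW TC} (hc : c.1 = 0) (s : ℕ × Fin 6 → Fin 6 × Fin 6) (m : Fin 6) :
    rS (cxv NW TC) s (c, m) = s (0, m) := by
  show s (c.1, m) = s (0, m)
  rw [hc]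

/-- **the monitor at the class 0 is a letter at the class 0** -/
theorem kp_XH {c : Cn NW TC} (hc : c.1 = 0) (hNP : NP ≤ 4095) (hz : Zf F.b TC F.z NW c = F.z)
    (hct : Vale.Agent.P032.H892.Cn F.U F.T F.z) (hM : MdlX B (XK c) F M) {i : ℕ} (hi : i < 2) :
    av M (hA i 0) ↔ KP F i := by
  obtain ⟨hy, u, hu, s0, s1, L, R, S, e0, e1, rfl⟩ := hM
  refine (hA_av (xK_ok c F) hNP hi (by norm_num)).trans ?_
  have e2 : KcK c F ⟨i, hi⟩ ↔ KP F i := by
    refine exists_congr fun m => ?_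
    rw [rS_zero hc, rS_zero hc]
  rw [e2]
  refine or_iff_left_of_imp fun h => ?_
  obtain ⟨m, hm⟩ := hb_zero (u := u) hct h
  have h2 := r_0 (k := m.val) hy S hct hz hm
  rw [e0, rS_zero hc] at h2
  refine ⟨m, Or.inl ?_⟩
  have h3 : f6 m.val = m := Fin.ext (Nat.mod_eq_of_lt m.isLt)
  rw [h3] at h2
  exact h2

/-- **the models with the monitors of `HistE`** -/
theorem mvK_XH {c : Cn NW TC} (hc : c.1 = 0) (hNP : NP ≤ 4095) (hz : Zf F.b TC F.z NW c = F.z)
    (hct : Vale.Agent.P032.H892.Cn F.U F.T F.z) (hM : MdlX B (XK c) F M) : MvK TC F M :=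
  mvK_of hNP hM fun _ hi => kp_XH hc hNP hz hct hM hi

end

end Vale.Agent.P032.H61
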