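import Vale.Agent.P032X.H61.SymG

/-!
# P032: patterns from another system of points

A pattern which is certified in a system with other tables (more points, fewer word points) is dead for the frames of the
given system.

* `Cmp` : the tables agree at the first points, `cmp_of` : the check, `fok_tr` : valid frames, `dead_tr` : dead patterns,
* `tr_all'` : the tree of a list of patterns which are certified in the other system.
-/

open Set Filter Topology Metric

noncomputable section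

namespace Vale.Agent.P032.H61

open Vale.Agent.P032.Six Vale.Agent.P032.Words Vale.Agent.P032.S5.H767 Vale.Agent.P032.H892
  Vale.Agent.P032.H913 Vale.Agent.P032.H357
open Vale.Agent.P032.H357.MK (fx0 cf al al_spec Tb nbeq co Cn of6 ct6 alL alL_spec alLL alLL_spec Pat Qy)
open Vale.Agent.P032.H820.K (a0 a1 a2 a3 a4 En en_eq dec Md av lv Ho ps ng nbf lb lb_iff Crt)

/-- the centres of the system `TC'`, `NW'` are centres of the system `TC`, `NW`, same points -/
structure Cmp (NW TC NW' TC' : ℕ) : Prop where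
  cen : ∀ x, x < NW' → fx0 TC' x = true → (x < NW ∧ fx0 TC x = true) ∧ kap TC' x = kap TC x

/-- equal coordinates of the point `x` -/
def cfE (TC TC' x : ℕ) : Bool :=
  (Nat.beq (cf 2 TC' x 0) (cf 2 TC x 0) && Nat.beq (cf 2 TC' x 1) (cf 2 TC x 1)) &&
  (Nat.beq (cf 2 TC' x 2) (cf 2 TC x 2) && Nat.beq (cf 2 TC' x 3) (cf 2 TC x 3))

theorem cfE_spec {TC TC' x : ℕ} (h : cfE TC TC' x = true) : kap TC' x = kap TC x ∧ fx0 TC' x = fx0 TC x := by
  unfold cfE at h
  rw [Bool.and_eq_true, Bool.and_eq_true, Bool.and_eq_true, nbeq, nbeq, nbeq, nbeq] at h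
  obtain ⟨⟨h0, h1⟩, h2, h3⟩ := h
  unfold kap fx0
  rw [h0, h1, h2, h3]
  exact ⟨rfl, rfl⟩

/-- the check of the tables -/
def cmpB (NW TC NW' TC' : ℕ) : Bool := Nat.ble NW' NW && al (cfE TC TC') NW'

theorem cmp_of {NW TC NW' TC' : ℕ} (h : cmpB NW TC NW' TC' = true) : Cmp NW TC NW' TC' := by
  unfold cmpB at h
  rw [Bool.and_eq_true, Nat.ble_eq] at h
  obtain ⟨h1, h2⟩ := h
  refine ⟨fun x hx hf => ?_⟩
  obtain ⟨h3, h4⟩ := cfE_spec (al_spec h2 x hx)
  exact ⟨⟨by omega, by rw [← h4]; exact hf⟩, h3⟩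

section
variable {NW TC NW' TC' : ℕ} {F : Fr}

/-- **valid frames of the system are valid frames of the other system** -/
theorem fok_tr (c : Cmp NW TC NW' TC') (h : FOk (kap TC) (cxv NW TC) F) : FOk (kap TC') (cxv NW' TC') F := by
  let f : Cn NW' TC' × Fin 6 → Cn NW TC × Fin 6 := fun i => (⟨i.1.1, (c.cen i.1.1 i.1.2.1 i.1.2.2).1⟩, i.2)
  have hX : ∀ i, ct6 (F.Z (kap TC') (cxv NW' TC')) i = ct6 (F.Z (kap TC) (cxv NW TC)) (f i) := by
    intro i
    show hp F.z F.b (kap TC' i.1.1) = hp F.z F.b (kap TC i.1.1)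
    rw [(c.cen i.1.1 i.1.2.1 i.1.2.2).2]
  refine ⟨h.irr, h.ctn, h.lf3, h.five, h.ln, ?_, ?_⟩
  · have h1 := rst_tr (o' := of6) (d := 0) f hX (fun i => ⟨0, by push_cast; unfold of6; ring⟩) h.r0
    rw [add_zero] at h1
    exact h1
  · have h1 := lst_tr (o' := of6) (d := 0) f hX (fun i => ⟨0, by push_cast; unfold of6; ring⟩) h.r1
    rw [add_zero] at h1
    exact h1

/-- the points of the literals of `P` have the same coordinates -/
def kapB (TC TC' : ℕ) (P : List ℕ) : Bool := alL (fun l => cfE TC TC' (a1 (Nat.div l 2))) P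

theorem tv_tr {κ κ' : ℕ → ℤ × ℤ} {n : ℕ} (h : κ' (a1 n) = κ (a1 n)) : tv κ' F n ↔ tv κ F n := by
  have e : F.P κ' (a1 n) = F.P κ (a1 n) := by
    unfold Fr.P
    rw [h]
  unfold tv tva
  rw [e]

/-- **dead patterns of the other system are dead** -/
theorem dead_tr {C C' : Fr → Prop} {P : List ℕ} (hP : Dead (kap TC') C' P) (hC : ∀ F, C F → C' F)
    (hk : kapB TC TC' P = true) : Dead (kap TC) C P := by
  intro F hF hall
  refine hP F (hC F hF) fun l hl => ?_
  have h1 := hall l hl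
  have h2 := tv_tr (F := F) (κ := kap TC) (κ' := kap TC') (n := l / 2) (cfE_spec (alL_spec hk l hl)).1
  unfold lf at h1 ⊢
  rw [h2]
  exact h1

end

/-! ### lists -/

/-- all patterns of a list are valid in the other system, same points -/
def alB (NP' NW' TC' TC : ℕ) (L : List (List ℕ)) : Bool := alLL (fun P => vlB NP' NW' TC' P && kapB TC TC' P) L

/-- **the tree of a list of patterns which are certified in the system `NP'`, `NW'`, `TB'`, `TC'`** -/
theorem tr_all' {NP NW TC NP' NW' TB' TC' : ℕ} {t : PTr} {L : List (List ℕ)} {E : List (List ℕ)}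
    (h : chT NP NW TC t L = true) (h' : alB NP' NW' TC' TC L = true) (hL : ∀ P ∈ L, Crt NP' NW' TB' TC' E P)
    (B : Tb NP' NW' TB' TC') {C C' : Fr → Prop} (hCC : ∀ F, C F → C' F)
    (hC : ∀ F, C' F → FOk (kap TC') (cxv NW' TC') F) (hE : ∀ F M, C' F → Mdl B F M → ∀ c ∈ E, Ho M c) :
    t.All fun p => Dead (kap TC) C (pk p) ∧ Vl (Gp NP TC) (Ce NW TC) (pk p) := by
  refine (PTr.all_of (acc := []) fun x hx => ?_).1
  obtain ⟨h1, h2⟩ := chL_spec h x hx
  have h3 := alLL_spec h' _ h1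
  rw [Bool.and_eq_true] at h3
  obtain ⟨I, hI⟩ := hL _ h1
  exact ⟨dead_tr (dead_of_pat (B := B) hC hE (vl_of_B h3.1) hI) hCC h3.2, h2⟩

end Vale.Agent.P032.H61
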