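import Vale.Agent.P032X.H892.Cen
import Vale.Agent.P032W.H892.Dir

/-!
# P032: the words of all points

`Ino U T x s p q` : at the time `s` (units of 60 degrees) the palette is locally constant along `S(x)`, `pt x s` is not
exceptional, pure points of the colour `p` come near from inside `S(x)`, pure points of the colour `q` from outside.

* `exists_IO` : for finitely many points and times there are colours `p j`, `q j` and arbitrarily small common shifts `τ`
  (to the right or to the left) with `Ino (x j) (t j + τ) (p j) (q j)` for all `j`,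
* `Ino.ne` (a), `Ino.far`, `Ino.near` (b), `Ino.mate` (c), `Ino.off_line`, `Ino.sixty` (d), `Ino.par` (e), `Fam.*` : the rules,
* `Fam.far_at`, `Fam.near_at` (b at the limit point), `Fam.tang_in`, `Fam.tang_out` (f),
* `Fam.cr`, `Fam.cl` : the letters of the centres.
-/

open Set Filter Topology Metric

noncomputable section

namespace Vale.Agent.P032.H61

open Vale.Agent.P032.Six Vale.Agent.P032.Words Vale.Agent.P032.S5.H767 Vale.Agent.P032.H892

variable {U : Fin 6 → Set ℂ} {T : ℂ → Set (Fin 6)} {x : ℂ} {s t : ℝ} {p q c : Fin 6}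

/-- the inner colour `p` and the outer colour `q` of `S(x)` at the time `s` -/
structure Ino (U : Fin 6 → Set ℂ) (T : ℂ → Set (Fin 6)) (x : ℂ) (s : ℝ) (p q : Fin 6) : Prop where
  loc : ∀ᶠ v in 𝓝 s, T (pt x v) = T (pt x s)
  nex : ¬ Ex3 U T (pt x s)
  inn : ∃ᶠ y in 𝓝 (pt x s), T y = {p} ∧ dist y x < 1
  out : ∃ᶠ y in 𝓝 (pt x s), T y = {q} ∧ 1 < dist y x

/-- right or left -/
def Side (l : Filter ℝ) : Prop := l = 𝓝[>] 0 ∨ l = 𝓝[<] 0

theorem Side.ne {l : Filter ℝ} (h : Side l) : l ≤ 𝓝[≠] 0 := by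
  rcases h with rfl | rfl
  · exact nhdsWithin_mono _ fun x hx => ne_of_gt hx
  · exact nhdsWithin_mono _ fun x hx => ne_of_lt hx

theorem Side.le {l : Filter ℝ} (h : Side l) : l ≤ 𝓝 0 := h.ne.trans nhdsWithin_le_nhds

theorem Side.nebot {l : Filter ℝ} (h : Side l) : l.NeBot := by
  rcases h with rfl | rfl
  · infer_instance
  · infer_instance

theorem Side.exists_open {l : Filter ℝ} (h : Side l) {S : Set ℝ} (hS : S ∈ l) :
    ∃ O ⊆ S, IsOpen O ∧ O.Nonempty := by
  rcases h with rfl | rfl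
  · obtain ⟨w, hw, hs⟩ := (mem_nhdsGT_iff_exists_Ioo_subset (a := (0 : ℝ))).1 hS
    exact ⟨_, hs, isOpen_Ioo, nonempty_Ioo.2 hw⟩
  · obtain ⟨w, hw, hs⟩ := (mem_nhdsLT_iff_exists_Ioo_subset (a := (0 : ℝ))).1 hS
    exact ⟨_, hs, isOpen_Ioo, nonempty_Ioo.2 hw⟩

/-! ### existence -/

theorem freq_exists {α ι : Type*} [Finite ι] {l : Filter α} {P : ι → α → Prop}
    (h : ∃ᶠ a in l, ∃ i, P i a) : ∃ i, ∃ᶠ a in l, P i a := by
  by_contra hcon
  rw [not_exists] at hcon
  refine h ?_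
  have h1 : ∀ᶠ a in l, ∀ i, ¬ P i a := eventually_all.2 fun i => not_frequently.1 (hcon i)
  filter_upwards [h1] with a ha
  rw [not_exists]
  exact ha

/-- a pure colour near a point of the closure of an open set -/
theorem exists_pure (h : Irr U T) {w : ℂ} {P : ℂ → Prop} (hP : IsOpen {y | P y})
    (hw : ∃ᶠ y in 𝓝 w, P y) : ∃ p, ∃ᶠ y in 𝓝 w, T y = {p} ∧ P y := by
  refine freq_exists ?_
  rw [frequently_iff]
  intro N hN
  obtain ⟨N', hN', hNo, hwN⟩ := _root_.mem_nhds_iff.1 hN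
  obtain ⟨y, hyP, hy⟩ := (hw.and_eventually (hNo.mem_nhds hwN)).exists
  obtain ⟨i, hi⟩ := h.ne y
  have h4 : ∀ᶠ y' in 𝓝 y, P y' ∧ y' ∈ N' := (hP.inter hNo).mem_nhds ⟨hyP, hy⟩
  obtain ⟨y', h1, h2, h3⟩ := ((h.pure y i hi).and_eventually h4).exists
  exact ⟨y', hN' h3, i, h1, h2⟩

theorem freq_in {x w : ℂ} (hw : dist w x = 1) : ∃ᶠ y in 𝓝 w, dist y x < 1 := by
  have h1 : w ∈ closure (ball x 1) := by
    rw [closure_ball x one_ne_zero]; exact hw.le
  exact mem_closure_iff_frequently.1 h1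

theorem freq_out {x w : ℂ} (hw : dist w x = 1) : ∃ᶠ y in 𝓝 w, 1 < dist y x := by
  have h1 : Tendsto (fun e : ℝ => w + e * (w - x)) (𝓝[>] 0) (𝓝 w) := by
    have h2 : Continuous fun e : ℝ => w + e * (w - x) := by fun_prop
    have h3 := h2.tendsto 0
    simp only [Complex.ofReal_zero, zero_mul, add_zero] at h3
    exact h3.mono_left nhdsWithin_le_nhds
  have h4 : ∀ᶠ e : ℝ in 𝓝[>] 0, 1 < dist (w + e * (w - x)) x := by
    filter_upwards [self_mem_nhdsWithin] with e he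
    have he : 0 < e := he
    have e1 : w + e * (w - x) - x = ((1 + e : ℝ) : ℂ) * (w - x) := by push_cast; ring
    rw [dist_eq_norm, e1, norm_mul, Complex.norm_real, Real.norm_of_nonneg (by linarith),
      ← dist_eq_norm, hw]
    linarith
  exact h1.frequently h4.frequently

theorem isOpen_in (x : ℂ) : IsOpen {y : ℂ | dist y x < 1} := isOpen_lt (by fun_prop) (by fun_prop)

theorem isOpen_out (x : ℂ) : IsOpen {y : ℂ | 1 < dist y x} := isOpen_lt (by fun_prop) (by fun_prop)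

/-- common local constancy -/
theorem loc_open (h : Irr U T) {J : Type*} [Fintype J] (x : J → ℂ) (t : J → ℝ) {O : Set ℝ}
    (hO : IsOpen O) (hne : O.Nonempty) :
    ∃ τ ∈ O, ∀ j, ∀ᶠ v in 𝓝 (t j + τ), T (pt (x j) v) = T (pt (x j) (t j + τ)) := by
  let f : ℝ → ℕ := fun τ => ∑ j, (T (pt (x j) (t j + τ))).ncard
  have hf : (f '' O).Nonempty := hne.image f
  obtain ⟨_, ⟨τ, hτ, rfl⟩, hmin⟩ :=
    WellFounded.has_min (r := ((· < ·) : ℕ → ℕ → Prop)) wellFounded_lt _ hf
  refine ⟨τ, hτ, ?_⟩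
  have h1 : ∀ᶠ τ' in 𝓝 τ, ∀ j, T (pt (x j) (t j + τ')) ⊆ T (pt (x j) (t j + τ)) := by
    refine eventually_all.2 fun j => ?_
    have h2 : Continuous fun τ' : ℝ => pt (x j) (t j + τ') :=
      (continuous_pt (x j)).comp (by fun_prop)
    exact (h2.tendsto τ).eventually (h.nhd _)
  have h3 : ∀ᶠ τ' in 𝓝 τ, ∀ j, T (pt (x j) (t j + τ')) = T (pt (x j) (t j + τ)) := by
    filter_upwards [h1, hO.mem_nhds hτ] with τ' h4 h5 j
    have h6 : f τ ≤ f τ' := not_lt.1 (hmin _ ⟨τ', h5, rfl⟩)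
    have h7 : ∀ j ∈ Finset.univ, (T (pt (x j) (t j + τ'))).ncard ≤ (T (pt (x j) (t j + τ))).ncard :=
      fun j _ => Set.ncard_le_ncard (h4 j) (Set.toFinite _)
    have h8 : f τ' = f τ := le_antisymm (Finset.sum_le_sum h7) h6
    have h9 := (Finset.sum_eq_sum_iff_of_le h7).1 h8 j (Finset.mem_univ j)
    exact Set.eq_of_subset_of_ncard_le (h4 j) h9.ge (Set.toFinite _)
  intro j
  have h4 : Tendsto (fun v : ℝ => v - t j) (𝓝 (t j + τ)) (𝓝 τ) := by
    have h5 : Continuous fun v : ℝ => v - t j := by fun_prop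
    have h6 := h5.tendsto (t j + τ)
    rwa [add_sub_cancel_left] at h6
  filter_upwards [h4.eventually h3] with v hv
  have h5 := hv j
  rwa [add_sub_cancel] at h5

/-- a family of words at common shifts -/
def Fam (U : Fin 6 → Set ℂ) (T : ℂ → Set (Fin 6)) {J : Type*} (l : Filter ℝ) (x : J → ℂ) (t : J → ℝ)
    (p q : J → Fin 6) : Prop :=
  ∃ᶠ τ in l, ∀ j, Ino U T (x j) (t j + τ) (p j) (q j)

/-- **Existence.** -/
theorem exists_Fam (h : Irr U T) (hl3 : LF3 U T) {J : Type*} [Finite J] (x : J → ℂ) (t : J → ℝ)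
    {l : Filter ℝ} (hl : Side l) : ∃ p q : J → Fin 6, Fam U T l x t p q := by
  have := Fintype.ofFinite J
  have h1 : ∀ᶠ τ in l, ∀ j, ¬ Ex3 U T (pt (x j) (t j + τ)) := by
    refine eventually_all.2 fun j => ?_
    have h2 : Tendsto (fun τ : ℝ => t j + τ) (𝓝[≠] 0) (𝓝[≠] (t j)) := by
      refine tendsto_nhdsWithin_of_tendsto_nhds_of_eventually_within _ ?_ ?_
      · have h5 : Continuous fun τ : ℝ => t j + τ := by fun_prop
        have h6 := h5.tendsto 0
        rw [add_zero] at h6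
        exact h6.mono_left nhdsWithin_le_nhds
      · filter_upwards [self_mem_nhdsWithin] with τ hτ he
        exact hτ (by simpa using he)
    exact (h2.eventually (lf_circ hl3 (x j) (t j))).filter_mono hl.ne
  have h2 : ∃ᶠ τ in l, ∃ pq : (J → Fin 6) × (J → Fin 6),
      ∀ j, Ino U T (x j) (t j + τ) (pq.1 j) (pq.2 j) := by
    rw [frequently_iff]
    intro S hS
    obtain ⟨O, hOS, hO, hne⟩ := hl.exists_open (inter_mem hS h1)
    obtain ⟨τ, hτ, hloc⟩ := loc_open h x t hO hne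
    refine ⟨τ, (hOS hτ).1, ?_⟩
    choose p hp using fun j => exists_pure h (isOpen_in (x j)) (freq_in (dist_pt (x j) (t j + τ)))
    choose q hq using fun j => exists_pure h (isOpen_out (x j)) (freq_out (dist_pt (x j) (t j + τ)))
    exact ⟨(p, q), fun j => ⟨hloc j, (hOS hτ).2 j, hp j, hq j⟩⟩
  obtain ⟨pq, hpq⟩ := freq_exists h2
  exact ⟨pq.1, pq.2, hpq⟩

/-! ### the rules at a point -/

/-- inner side: a point of the colour `p` near `w`, joined to `w`, inside `S(x)` -/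
theorem far_of (h : Irr U T) {w : ℂ} (hct : Ctn U T w) (hw : ∃ᶠ y in 𝓝 w, p ∈ T y ∧ dist y x < 1) :
    ∀ᶠ y in 𝓝 x, 1 < dist y w → p ∉ Pal U y := by
  obtain ⟨w', ⟨h1, h2⟩, h3⟩ := (hw.and_eventually hct).exists
  obtain ⟨Q, hQF, hQ, hwQ, hw'Q⟩ := h3 p h1
  have h4 : ∀ᶠ y in 𝓝 x, dist w' y < 1 :=
    (continuous_const.dist continuous_id).continuousAt.eventually_lt_const h2
  filter_upwards [h4] with y hy hyw
  exact h.mx.wlemma hQ hQF hw'Q hwQ hy (by rw [dist_comm]; exact hyw)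

/-- outer side -/
theorem near_of (h : Irr U T) {w : ℂ} (hct : Ctn U T w) (hw : ∃ᶠ y in 𝓝 w, q ∈ T y ∧ 1 < dist y x) :
    ∀ᶠ y in 𝓝 x, dist y w < 1 → q ∉ Pal U y := by
  obtain ⟨w', ⟨h1, h2⟩, h3⟩ := (hw.and_eventually hct).exists
  obtain ⟨Q, hQF, hQ, hwQ, hw'Q⟩ := h3 q h1
  have h4 : ∀ᶠ y in 𝓝 x, 1 < dist w' y :=
    (continuous_const.dist continuous_id).continuousAt.eventually_const_lt h2
  filter_upwards [h4] with y hy hyw
  exact h.mx.wlemma hQ hQF hwQ hw'Q (by rw [dist_comm]; exact hyw) hy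

theorem mem_of_freq (h : Irr U T) {w : ℂ} {P : ℂ → Prop} (hw : ∃ᶠ y in 𝓝 w, T y = {p} ∧ P y) :
    p ∈ T w :=
  (h.closed p).mem_of_frequently_of_tendsto
    (hw.mono fun _ hy => (by simp only [id_eq, mem_ofPred_eq, hy.1, mem_singleton_iff])) tendsto_id

namespace Ino

variable (I : Ino U T x s p q)
include I

theorem p_mem (h : Irr U T) : p ∈ T (pt x s) := mem_of_freq h I.inn

theorem q_mem (h : Irr U T) : q ∈ T (pt x s) := mem_of_freq h I.out

theorem inn' : ∃ᶠ y in 𝓝 (pt x s), p ∈ T y ∧ dist y x < 1 :=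
  I.inn.mono fun y hy => ⟨by rw [hy.1]; rfl, hy.2⟩

theorem out' : ∃ᶠ y in 𝓝 (pt x s), q ∈ T y ∧ 1 < dist y x :=
  I.out.mono fun y hy => ⟨by rw [hy.1]; rfl, hy.2⟩

/-- the palette is constant on an arc -/
theorem arc : ∀ᶠ y in 𝓝[sphere x 1] (pt x s), T y = T (pt x s) := ev_circle x I.loc

/-- **(a)** -/
theorem ne (h : Irr U T) (hct : Ctn U T (pt x s)) (hp : p ∈ Pal U x) : p ≠ q := by
  rintro rfl
  rcases h.one_side hct hp with h1 | h1
  · obtain ⟨y, h2, h3⟩ := (I.out'.and_eventually h1).exists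
    linarith [h3 h2.1, h2.2]
  · obtain ⟨y, h2, h3⟩ := (I.inn'.and_eventually h1).exists
    linarith [h3 h2.1, h2.2]

/-- **(b)**, inner colour -/
theorem far (h : Irr U T) (hct : Ctn U T (pt x s)) :
    ∀ᶠ y in 𝓝 x, 1 < dist y (pt x s) → p ∉ Pal U y := far_of h hct I.inn'

/-- **(b)**, outer colour -/
theorem near (h : Irr U T) (hct : Ctn U T (pt x s)) :
    ∀ᶠ y in 𝓝 x, dist y (pt x s) < 1 → q ∉ Pal U y := near_of h hct I.out'

/-- the colours of the arc are absent at unit distance from `pt x s` off the line -/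
theorem off_line (h : Irr U T) (hc : c ∈ T (pt x s)) {w : ℂ} (hw : dist (pt x s) w = 1) (h1 : w ≠ x)
    (h2 : w + x ≠ 2 * pt x s) : c ∉ Pal U w :=
  line_free h (dist_pt x s) (I.arc.mono fun _ hy => hy ▸ hc) hw h1 h2

theorem two (h : Irr U T) (hpq : p ≠ q) (hX : pt x s ∈ XX U) : T (pt x s) = {p, q} := by
  have h1 : (T (pt x s)).ncard ≤ 2 := by
    by_contra hcon
    exact I.nex ⟨hX, by omega⟩
  have h2 : ({p, q} : Set (Fin 6)) ⊆ T (pt x s) := by
    rintro m (rfl | rfl)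
    · exact I.p_mem h
    · exact I.q_mem h
  exact (Set.eq_of_subset_of_ncard_le h2 (by rw [Set.ncard_pair hpq]; exact h1)
    (Set.toFinite _)).symm

theorem pal_eq (h : Irr U T) (hpq : p ≠ q) (hp : p ∈ Pal U x) : T (pt x s) = {p, q} :=
  I.two h hpq (h.mem_XX (dist_pt x s) (I.p_mem h) hp)

/-- **(c)** -/
theorem mate (h : Irr U T) (hpq : p ≠ q) (hp : p ∈ Pal U x) : q ∈ Pal U x := by
  by_contra hq
  have hT := I.pal_eq h hpq hp
  have hX : ∀ᶠ v in 𝓝 s, q ∈ Pal U (2 * pt x v - x) := by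
    filter_upwards [I.loc, I.loc.eventually_nhds] with v hv hv2
    have hTv : T (pt x v) = {p, q} := hv.trans hT
    have h1 : pt x v ∈ XX U := h.mem_XX (dist_pt x v) (by rw [hTv]; simp) hp
    have hqv : q ∈ T (pt x v) := by rw [hTv]; simp
    obtain ⟨V, hzV, hV⟩ : ∃ V, dist (pt x v) V = 1 ∧ q ∈ Pal U V := by
      first
        | exact h.partner_XX h1 q
        | exact h.partner_XX h1 hqv
    have harc : ∀ᶠ y in 𝓝[sphere x 1] (pt x v), q ∈ Pal U y := by
      have h3 : ∀ᶠ v' in 𝓝 v, q ∈ Pal U (pt x v') := by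
        filter_upwards [hv2] with v' hv'
        exact h.sub _ (by rw [hv', hT]; simp)
      exact ev_circle x h3
    rcases h.mx.partner_line (dist_pt x v) harc hzV hV with h3 | h3
    · rw [h3] at hV; exact absurd hV hq
    · have : V = 2 * pt x v - x := by rw [← h3]; ring
      rwa [this] at hV
  obtain ⟨η, hη, hball⟩ := Metric.mem_nhds_iff.1 hX
  set η' := min η 1 with hη'
  have hη0 : 0 < η' := lt_min hη one_pos
  have hball' : ∀ v ∈ ball s η', q ∈ Pal U (2 * pt x v - x) := fun v hv =>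
    hball (ball_subset_ball (min_le_left _ _) hv)
  have hQ : IsPreconnected ((fun v => 2 * pt x v - x) '' ball s η') :=
    (convex_ball s η').isPreconnected.image _
      ((continuous_const.mul (continuous_pt x)).sub continuous_const).continuousOn
  have hQF : (fun v => 2 * pt x v - x) '' ball s η' ⊆ closure (U q) := by
    rintro _ ⟨v, hv, rfl⟩
    exact hball' v hv
  -- the far point
  set v1 := s + η' / 2 with hv1
  have hm1 : v1 ∈ ball s η' := by
    rw [mem_ball, Real.dist_eq, hv1, add_sub_cancel_left, abs_of_pos (by linarith)]; linarith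
  have hfar : 1 < dist (2 * pt x v1 - x) (pt x s) := by
    have e0 : dist (2 * pt x v1 - x) (pt x s) ^ 2 =
        5 - 4 * Real.cos (v1 * (Real.pi / 3) - s * (Real.pi / 3)) := by
      rw [sq_dist]
      unfold pt
      have k1 : (2 * (x + cis (v1 * (Real.pi / 3))) - x : ℂ) = x + 2 * cis (v1 * (Real.pi / 3)) := by
        ring
      rw [k1]
      simp only [Complex.add_re, Complex.add_im, Complex.mul_re, Complex.mul_im, Complex.re_ofNat,
        Complex.im_ofNat, cis_re, cis_im]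
      rw [Real.cos_sub]
      have h1 := Real.sin_sq_add_cos_sq (v1 * (Real.pi / 3))
      have h2 := Real.sin_sq_add_cos_sq (s * (Real.pi / 3))
      linear_combination 4 * h1 + h2
    have hle : η' ≤ 1 := min_le_right _ _
    have hpi := Real.pi_pos
    have e1 : v1 * (Real.pi / 3) - s * (Real.pi / 3) = η' / 2 * (Real.pi / 3) := by rw [hv1]; ring
    have h3 : Real.cos (v1 * (Real.pi / 3) - s * (Real.pi / 3)) < 1 := by
      rw [e1, ← Real.cos_zero]
      exact Real.cos_lt_cos_of_nonneg_of_le_pi le_rfl (by nlinarith) (by positivity)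
    have h4 : 1 < dist (2 * pt x v1 - x) (pt x s) ^ 2 := by rw [e0]; linarith
    by_contra hcon
    push Not at hcon
    have := dist_nonneg (x := 2 * pt x v1 - x) (y := pt x s)
    nlinarith
  have hfar' : ∀ᶠ y in 𝓝 (pt x s), 1 < dist (2 * pt x v1 - x) y :=
    (continuous_const.dist continuous_id).continuousAt.eventually_const_lt hfar
  -- the near point
  have hc1 : ∀ᶠ w in 𝓝[sphere x 1] (pt x s), ∃ v ∈ ball s η', w = pt x v :=
    ev_circle x (by
      filter_upwards [ball_mem_nhds s hη0] with v hv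
      exact ⟨v, hv, rfl⟩)
  have hne0 : (dist (pt x s) x : ℂ) ≠ 0 := by rw [dist_pt]; simp
  have hc2 : ContinuousAt (fun y : ℂ => x + (y - x) / (dist y x : ℂ)) (pt x s) := by
    have k1 : ContinuousAt (fun y : ℂ => (y - x)) (pt x s) := by fun_prop
    have k2 : ContinuousAt (fun y : ℂ => ((dist y x : ℝ) : ℂ)) (pt x s) := by
      have : Continuous fun y : ℂ => ((dist y x : ℝ) : ℂ) :=
        Complex.continuous_ofReal.comp (continuous_id.dist continuous_const)
      exact this.continuousAt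
    exact continuousAt_const.add (k1.div k2 hne0)
  have hval : x + (pt x s - x) / (dist (pt x s) x : ℂ) = pt x s := by
    rw [dist_pt]; simp
  have hc3 : Tendsto (fun y : ℂ => x + (y - x) / (dist y x : ℂ)) (𝓝 (pt x s))
      (𝓝[sphere x 1] (pt x s)) := by
    refine tendsto_nhdsWithin_of_tendsto_nhds_of_eventually_within _ ?_ ?_
    · have := hc2.tendsto
      rwa [hval] at this
    · have h5 : ∀ᶠ y in 𝓝 (pt x s), y ≠ x := by
        refine isOpen_ne.mem_nhds ?_
        intro h6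
        have := dist_pt x s
        rw [h6, dist_self] at this
        exact zero_ne_one this
      filter_upwards [h5] with y hy
      have hpos : 0 < dist y x := dist_pos.2 hy
      show dist (x + (y - x) / (dist y x : ℂ)) x = 1
      rw [dist_eq_norm, add_sub_cancel_left, norm_div, Complex.norm_real, ← dist_eq_norm,
        Real.norm_of_nonneg hpos.le, div_self hpos.ne']
  have hlt : ∀ᶠ y in 𝓝 (pt x s), dist y x < 3 :=
    (continuous_id.dist continuous_const).continuousAt.eventually_lt_const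
      (by simp only [id_eq, dist_pt]; norm_num)
  obtain ⟨y, ⟨hy1, hy2⟩, hy3, ⟨v, hv, hv'⟩, hy5⟩ :=
    (I.out.and_eventually (hfar'.and ((hc3.eventually hc1).and hlt))).exists
  have hyq : q ∈ Pal U y := h.sub y (by rw [hy1]; rfl)
  refine h.mx.wlemma hQ hQF (z := y) ⟨v, hv, rfl⟩ ⟨v1, hm1, rfl⟩ ?_ hy3 hyq
  show dist (2 * pt x v - x) y < 1
  rw [← hv']
  have hpos : 0 < dist y x := by linarith
  have hne : ((dist y x : ℝ) : ℂ) ≠ 0 := by exact_mod_cast hpos.ne'
  have e1 : 2 * (x + (y - x) / (dist y x : ℂ)) - x - y =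
      (((2 - dist y x) / dist y x : ℝ) : ℂ) * (y - x) := by
    push_cast
    field_simp
    ring
  rw [dist_eq_norm, e1, norm_mul, Complex.norm_real, ← dist_eq_norm, Real.norm_eq_abs, abs_div,
    abs_of_pos hpos, div_mul_cancel₀ _ hpos.ne', abs_lt]
  constructor <;> linarith

end Ino

/-! ### distances between `pt x (t + τ)` and a fixed point -/

theorem ev_shift {P : ℝ → Prop} {l : Filter ℝ} (hl : Side l) (t : ℝ) (h : ∀ᶠ v in 𝓝[≠] t, P v) :
    ∀ᶠ τ in l, P (t + τ) := by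
  have h2 : Tendsto (fun τ : ℝ => t + τ) (𝓝[≠] 0) (𝓝[≠] t) := by
    refine tendsto_nhdsWithin_of_tendsto_nhds_of_eventually_within _ ?_ ?_
    · have h5 : Continuous fun τ : ℝ => t + τ := by fun_prop
      have h6 := h5.tendsto 0
      rw [add_zero] at h6
      exact h6.mono_left nhdsWithin_le_nhds
    · filter_upwards [self_mem_nhdsWithin] with τ hτ he
      exact hτ (by simpa using he)
  exact (h2.eventually h).filter_mono hl.ne

theorem tendsto_pt_shift {l : Filter ℝ} (hl : Side l) (x : ℂ) (t : ℝ) :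
    Tendsto (fun τ : ℝ => pt x (t + τ)) l (𝓝 (pt x t)) := by
  have h2 : Continuous fun τ' : ℝ => pt x (t + τ') := (continuous_pt x).comp (by fun_prop)
  have h3 := h2.tendsto 0
  rw [add_zero] at h3
  exact h3.mono_left hl.le

/-- the moving point avoids every fixed point -/
theorem ev_ne {l : Filter ℝ} (hl : Side l) (x : ℂ) (t : ℝ) (y : ℂ) : ∀ᶠ τ in l, pt x (t + τ) ≠ y := by
  by_cases hy : y = pt x t
  · subst hy
    exact ev_shift hl t (pt_near' (z := x) t)
  · exact (tendsto_pt_shift hl x t).eventually (isOpen_ne.mem_nhds fun h => hy h.symm)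

/-- a common shift -/
theorem freq_lim {l : Filter ℝ} {X : Type*} [TopologicalSpace X] {f : ℝ → X} {a : X}
    (hf : Tendsto f l (𝓝 a)) {P : X → Prop} (h : ∃ᶠ τ in l, ∃ᶠ y in 𝓝 (f τ), P y) :
    ∃ᶠ y in 𝓝 a, P y := by
  rw [frequently_iff]
  intro N hN
  obtain ⟨N', hN', hNo, haN⟩ := _root_.mem_nhds_iff.1 hN
  obtain ⟨τ, h1, h2⟩ := (h.and_eventually (hf.eventually (hNo.mem_nhds haN))).exists
  obtain ⟨y, h3, h4⟩ := (h1.and_eventually (hNo.mem_nhds h2)).exists
  exact ⟨y, hN' h4, h3⟩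

/-! ### polar coordinates -/

/-- a chart of the polar coordinates -/
theorem freq_po {w : ℂ} {r θ : ℝ} (hr : 0 < r) (hw : w = po x (r, θ)) {P : ℂ → Prop}
    (h : ∃ᶠ y in 𝓝 w, P y) : ∃ᶠ a in 𝓝 (r, θ), 0 < a.1 ∧ P (po x a) := by
  set c0 : ℂ := cis (θ * (Real.pi / 3)) with hc0
  have hc0n : ‖c0‖ = 1 := norm_cis _
  have hne : c0 ≠ 0 := by intro h0; rw [h0, norm_zero] at hc0n; exact zero_ne_one hc0n
  let g : ℂ → ℝ × ℝ := fun y => (dist y x, θ + ((y - x) / c0).arg / (Real.pi / 3))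
  have hwx : (w - x) / c0 = r := by
    rw [hw]; unfold po; rw [add_sub_cancel_left]; exact mul_div_cancel_right₀ _ hne
  have hdist : dist w x = r := by
    have : w - x = r * c0 := by rw [← hwx]; field_simp
    rw [dist_eq_norm, this, norm_mul, hc0n, mul_one, Complex.norm_real, Real.norm_of_nonneg hr.le]
  have hg : ContinuousAt g w := by
    have h1 : ContinuousAt (fun y : ℂ => (y - x) / c0) w := by
      have : Continuous fun y : ℂ => (y - x) / c0 := by fun_prop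
      exact this.continuousAt
    have h2 : ContinuousAt Complex.arg ((w - x) / c0) := by
      rw [hwx]
      exact Complex.continuousAt_arg (Complex.ofReal_mem_slitPlane.2 hr)
    have h3 : ContinuousAt (fun y : ℂ => ((y - x) / c0).arg) w :=
      ContinuousAt.comp (g := Complex.arg) h2 h1
    have h4 : ContinuousAt (fun y : ℂ => dist y x) w :=
      (continuous_id.dist continuous_const).continuousAt
    exact h4.prodMk (continuousAt_const.add (h3.div_const _))
  have hgw : g w = (r, θ) := by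
    show (dist w x, θ + ((w - x) / c0).arg / (Real.pi / 3)) = (r, θ)
    rw [hwx, hdist, Complex.arg_ofReal_of_nonneg hr.le]; simp
  have h1 : Tendsto g (𝓝 w) (𝓝 (r, θ)) := by
    have := hg.tendsto
    rwa [hgw] at this
  refine h1.frequently ?_
  have h2 : ∀ᶠ y in 𝓝 w, y ≠ x := isOpen_ne.mem_nhds fun h6 => by
    rw [h6, dist_self] at hdist; linarith
  refine (h.and_eventually h2).mono ?_
  rintro y ⟨hy, hyx⟩
  have hpos : 0 < dist y x := dist_pos.2 hyx
  refine ⟨hpos, ?_⟩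
  have e : po x (g y) = y := by
    show x + ((dist y x : ℝ) : ℂ) * cis ((θ + ((y - x) / c0).arg / (Real.pi / 3)) * (Real.pi / 3)) = y
    have hpi : Real.pi / 3 ≠ 0 := by positivity
    have e1 : (θ + ((y - x) / c0).arg / (Real.pi / 3)) * (Real.pi / 3) =
        θ * (Real.pi / 3) + ((y - x) / c0).arg := by field_simp
    have hn : ‖(y - x) / c0‖ = dist y x := by
      rw [norm_div, hc0n, ← dist_eq_norm, div_one]
    have e2 : ((dist y x : ℝ) : ℂ) * cis ((y - x) / c0).arg = (y - x) / c0 := by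
      have := Complex.norm_mul_exp_arg_mul_I ((y - x) / c0)
      rw [hn] at this
      simpa [cis] using this
    rw [e1, Six.cis_add, ← hc0]
    calc x + ((dist y x : ℝ) : ℂ) * (c0 * cis ((y - x) / c0).arg) =
        x + c0 * (((dist y x : ℝ) : ℂ) * cis ((y - x) / c0).arg) := by ring
      _ = y := by rw [e2, mul_div_cancel₀ _ hne]; ring
  rw [e]; exact hy

/-- the chord from `pt x t` to `pt x (t + τ)`, `τ > 0` -/
theorem chord_right (x : ℂ) (t τ : ℝ) :
    pt x (t + τ) = po (pt x t) (2 * Real.sin (τ * (Real.pi / 6)), t + 3 / 2 + τ / 2) := by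
  unfold po pt
  have e1 : (t + 3 / 2 + τ / 2) * (Real.pi / 3) =
      (t * (Real.pi / 3) + τ * (Real.pi / 6)) + Real.pi / 2 := by ring
  have e2 : (t + τ) * (Real.pi / 3) = (t * (Real.pi / 3) + τ * (Real.pi / 6)) + τ * (Real.pi / 6) := by
    ring
  have e3 : t * (Real.pi / 3) = (t * (Real.pi / 3) + τ * (Real.pi / 6)) - τ * (Real.pi / 6) := by ring
  set A := t * (Real.pi / 3) + τ * (Real.pi / 6) with hA
  simp only
  rw [e1, e2, e3]
  apply Complex.ext
  · simp only [Complex.add_re, Complex.mul_re, Complex.ofReal_re, Complex.ofReal_im, cis_re, cis_im]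
    rw [Real.cos_add A, Real.cos_sub A, Real.cos_add_pi_div_two]
    ring
  · simp only [Complex.add_im, Complex.mul_im, Complex.ofReal_re, Complex.ofReal_im, cis_re, cis_im]
    rw [Real.sin_add A, Real.sin_sub A, Real.sin_add_pi_div_two]
    ring

/-- the chord from `pt x t` to `pt x (t + τ)`, `τ < 0` -/
theorem chord_left (x : ℂ) (t τ : ℝ) :
    pt x (t + τ) = po (pt x t) (-(2 * Real.sin (τ * (Real.pi / 6))), t - 3 / 2 + τ / 2) := by
  rw [chord_right]
  unfold po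
  have e : (t + 3 / 2 + τ / 2) * (Real.pi / 3) = (t - 3 / 2 + τ / 2) * (Real.pi / 3) + Real.pi := by ring
  simp only
  rw [e, Six.cis_add, cis_pi]
  push_cast
  ring

namespace Fam

variable {J : Type*} {l : Filter ℝ} {X : J → ℂ} {t : J → ℝ} {p q : J → Fin 6}
variable (F : Fam U T l X t p q)
include F

theorem exists_at {P : ℝ → Prop} (hP : ∀ᶠ τ in l, P τ) :
    ∃ τ, P τ ∧ ∀ j, Ino U T (X j) (t j + τ) (p j) (q j) := by
  obtain ⟨τ, h1, h2⟩ := (F.and_eventually hP).exists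
  exact ⟨τ, h2, h1⟩

/-- **(a)** -/
theorem ne (h : Irr U T) (hct : ∀ y, Ctn U T y) {j : J} (hp : p j ∈ Pal U (X j)) :
    p j ≠ q j := by
  obtain ⟨τ, -, h1⟩ := F.exists_at (P := fun _ => True) (Eventually.of_forall fun _ => trivial)
  exact (h1 j).ne h (hct _) hp

/-- **(c)** -/
theorem mate (h : Irr U T) {j : J} (hpq : p j ≠ q j) (hp : p j ∈ Pal U (X j)) :
    q j ∈ Pal U (X j) := by
  obtain ⟨τ, -, h1⟩ := F.exists_at (P := fun _ => True) (Eventually.of_forall fun _ => trivial)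
  exact (h1 j).mate h hpq hp

theorem inn_at {j : J} (hl : Side l) :
    ∃ᶠ y in 𝓝 (pt (X j) (t j)), T y = {p j} ∧ dist y (X j) < 1 :=
  freq_lim (tendsto_pt_shift hl (X j) (t j)) (F.mono fun _ hτ => (hτ j).inn)

theorem out_at {j : J} (hl : Side l) :
    ∃ᶠ y in 𝓝 (pt (X j) (t j)), T y = {q j} ∧ 1 < dist y (X j) :=
  freq_lim (tendsto_pt_shift hl (X j) (t j)) (F.mono fun _ hτ => (hτ j).out)

theorem p_mem (h : Irr U T) (hl : Side l) (j : J) : p j ∈ T (pt (X j) (t j)) :=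
  mem_of_freq h (F.inn_at hl)

theorem q_mem (h : Irr U T) (hl : Side l) (j : J) : q j ∈ T (pt (X j) (t j)) :=
  mem_of_freq h (F.out_at hl)

/-- **(b)** at the limit point, inner colour -/
theorem far_at (h : Irr U T) (hct : ∀ y, Ctn U T y) (hl : Side l) (j : J) :
    ∀ᶠ y in 𝓝 (X j), 1 < dist y (pt (X j) (t j)) → p j ∉ Pal U y :=
  far_of h (hct _) ((F.inn_at hl).mono fun y hy => ⟨by rw [hy.1]; rfl, hy.2⟩)

/-- **(b)** at the limit point, outer colour -/
theorem near_at (h : Irr U T) (hct : ∀ y, Ctn U T y) (hl : Side l) (j : J) :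
    ∀ᶠ y in 𝓝 (X j), dist y (pt (X j) (t j)) < 1 → q j ∉ Pal U y :=
  near_of h (hct _) ((F.out_at hl).mono fun y hy => ⟨by rw [hy.1]; rfl, hy.2⟩)

/-- **(b)** for the shifted points, inner colour -/
theorem far (h : Irr U T) (hct : ∀ y, Ctn U T y) (j : J)
    (hP : ∀ᶠ τ in l, ∃ᶠ y in 𝓝 (X j), p j ∈ Pal U y ∧ 1 < dist y (pt (X j) (t j + τ))) : False := by
  obtain ⟨τ, h1, h2⟩ := F.exists_at hP
  obtain ⟨y, h3, h4⟩ := (h1.and_eventually ((h2 j).far h (hct _))).exists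
  exact h4 h3.2 h3.1

/-- **(b)** for the shifted points, outer colour -/
theorem near (h : Irr U T) (hct : ∀ y, Ctn U T y) (j : J)
    (hP : ∀ᶠ τ in l, ∃ᶠ y in 𝓝 (X j), q j ∈ Pal U y ∧ dist y (pt (X j) (t j + τ)) < 1) : False := by
  obtain ⟨τ, h1, h2⟩ := F.exists_at hP
  obtain ⟨y, h3, h4⟩ := (h1.and_eventually ((h2 j).near h (hct _))).exists
  exact h4 h3.2 h3.1

/-- **(d)** the rule of 60 degrees -/
theorem sixty (h : Irr U T) {i j : J} (hx : X i = X j) (ht : t j = t i + 1) :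
    (p i ≠ p j ∧ p i ≠ q j) ∧ (q i ≠ p j ∧ q i ≠ q j) := by
  obtain ⟨τ, -, h1⟩ := F.exists_at (P := fun _ => True) (Eventually.of_forall fun _ => trivial)
  have hi := h1 i
  have hj := h1 j
  rw [hx] at hi
  rw [ht, show t i + 1 + τ = t i + τ + 1 by ring] at hj
  set s := t i + τ with hs
  have hd := dist_pt_one (X j) s
  have htri : pt (X j) (s + 1) ≠ X j ∧ pt (X j) (s + 1) + X j ≠ 2 * pt (X j) s := by
    constructor
    · intro e
      have := dist_pt (X j) (s + 1)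
      rw [e, dist_self] at this
      exact zero_ne_one this
    · intro e
      have e1 : pt (X j) s - X j = pt (X j) (s + 1) - pt (X j) s := by linear_combination -e
      have e2 : pt (X j) (s + 1) - X j = 2 * (pt (X j) s - X j) := by linear_combination e
      have e3 := dist_pt (X j) (s + 1)
      rw [dist_eq_norm, e2, norm_mul, ← dist_eq_norm, dist_pt] at e3
      norm_num at e3
  have key : ∀ c ∈ T (pt (X j) s), c ∉ Pal U (pt (X j) (s + 1)) := fun c hc =>
    hi.off_line h hc hd htri.1 htri.2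
  have k1 := key _ (hi.p_mem h)
  have k2 := key _ (hi.q_mem h)
  have k3 := h.sub _ (hj.p_mem h)
  have k4 := h.sub _ (hj.q_mem h)
  exact ⟨⟨fun e => k1 (e ▸ k3), fun e => k1 (e ▸ k4)⟩, fun e => k2 (e ▸ k3), fun e => k2 (e ▸ k4)⟩

/-- **(e)** parallel points of a unit pair -/
theorem par (h : Irr U T) (hl : Side l) {i j : J} (hx : dist (X i) (X j) = 1) (ht : t j = t i) :
    (p i ≠ p j ∧ p i ≠ q j) ∧ (q i ≠ p j ∧ q i ≠ q j) := by
  obtain ⟨τ, ⟨hn1, hn2⟩, h1⟩ := F.exists_at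
    ((ev_ne hl (X i) (t i) (X j)).and (ev_ne hl (X j) (t i) (X i)))
  have hi := h1 i
  have hj := h1 j
  rw [ht] at hj
  set s := t i + τ with hs
  have e0 : pt (X j) s = pt (X i) s + (X j - X i) := by unfold pt; ring
  have hd : dist (pt (X i) s) (pt (X j) s) = 1 := by
    rw [e0, dist_eq_norm]
    have : pt (X i) s - (pt (X i) s + (X j - X i)) = X i - X j := by ring
    rw [this, ← dist_eq_norm, hx]
  have key : ∀ c ∈ T (pt (X i) s), c ∉ Pal U (pt (X j) s) := fun c hc =>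
    hi.off_line h hc hd hn2 (by
      intro e
      apply hn1
      rw [e0] at e
      linear_combination -e)
  have k1 := key _ (hi.p_mem h)
  have k2 := key _ (hi.q_mem h)
  have k3 := h.sub _ (hj.p_mem h)
  have k4 := h.sub _ (hj.q_mem h)
  exact ⟨⟨fun e => k1 (e ▸ k3), fun e => k1 (e ▸ k4)⟩, fun e => k2 (e ▸ k3), fun e => k2 (e ▸ k4)⟩

end Fam

/-! ### the rule (f) -/

theorem lim_R (t : ℝ) : Tendsto (fun τ : ℝ => ((2 * Real.sin (τ * (Real.pi / 6)), t + 3 / 2 + τ / 2) : ℝ × ℝ))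
    (𝓝[>] 0) (𝓝 (0, t + 3 / 2)) := by
  have h1 : Continuous fun τ : ℝ => ((2 * Real.sin (τ * (Real.pi / 6)), t + 3 / 2 + τ / 2) : ℝ × ℝ) := by
    fun_prop
  have h2 := h1.tendsto 0
  simp only [zero_mul, Real.sin_zero, mul_zero, zero_div, add_zero] at h2
  exact h2.mono_left nhdsWithin_le_nhds

theorem lim_L (t : ℝ) :
    Tendsto (fun τ : ℝ => ((-(2 * Real.sin (τ * (Real.pi / 6))), t - 3 / 2 + τ / 2) : ℝ × ℝ))
    (𝓝[<] 0) (𝓝 (0, t - 3 / 2)) := by
  have h1 : Continuous fun τ : ℝ =>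
      ((-(2 * Real.sin (τ * (Real.pi / 6))), t - 3 / 2 + τ / 2) : ℝ × ℝ) := by
    fun_prop
  have h2 := h1.tendsto 0
  simp only [zero_mul, Real.sin_zero, mul_zero, zero_div, add_zero, neg_zero] at h2
  exact h2.mono_left nhdsWithin_le_nhds

theorem pos_R : ∀ᶠ τ : ℝ in 𝓝[>] 0, 0 < 2 * Real.sin (τ * (Real.pi / 6)) := by
  filter_upwards [Ioo_mem_nhdsGT (one_pos : (0 : ℝ) < 1)] with τ hτ
  have hpi := Real.pi_pos
  have h1 := hτ.1
  have h2 := hτ.2
  have := Real.sin_pos_of_pos_of_lt_pi (x := τ * (Real.pi / 6)) (by positivity) (by nlinarith)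
  linarith

theorem pos_L : ∀ᶠ τ : ℝ in 𝓝[<] 0, 0 < -(2 * Real.sin (τ * (Real.pi / 6))) := by
  filter_upwards [Ioo_mem_nhdsLT (by norm_num : (-1 : ℝ) < 0)] with τ hτ
  have hpi := Real.pi_pos
  have h1 := hτ.1
  have h2 := hτ.2
  have := Real.sin_neg_of_neg_of_neg_pi_lt (x := τ * (Real.pi / 6)) (by nlinarith) (by nlinarith)
  linarith

/-- the mirror point of `x` at `pt x t` is far from the circle -/
theorem far_mirror {x : ℂ} {t τ : ℝ} (h0 : τ ≠ 0) (h1 : |τ| < 1) :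
    1 < dist (pt x (t + τ)) (2 * pt x t - x) := by
  have e0 : dist (pt x (t + τ)) (2 * pt x t - x) ^ 2 = 5 - 4 * Real.cos (τ * (Real.pi / 3)) := by
    rw [sq_dist]
    unfold pt
    have k1 : (2 * (x + cis (t * (Real.pi / 3))) - x : ℂ) = x + 2 * cis (t * (Real.pi / 3)) := by
      ring
    have k2 : τ * (Real.pi / 3) = (t + τ) * (Real.pi / 3) - t * (Real.pi / 3) := by ring
    rw [k1, k2]
    simp only [Complex.add_re, Complex.add_im, Complex.mul_re, Complex.mul_im, Complex.re_ofNat,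
      Complex.im_ofNat, cis_re, cis_im]
    rw [Real.cos_sub]
    have h1 := Real.sin_sq_add_cos_sq ((t + τ) * (Real.pi / 3))
    have h2 := Real.sin_sq_add_cos_sq (t * (Real.pi / 3))
    linear_combination h1 + 4 * h2
  have hpi := Real.pi_pos
  have h3 : Real.cos (τ * (Real.pi / 3)) < 1 := by
    rw [← Real.cos_abs, abs_mul, abs_of_pos (by positivity : 0 < Real.pi / 3), ← Real.cos_zero]
    have := abs_pos.2 h0
    exact Real.cos_lt_cos_of_nonneg_of_le_pi le_rfl (by nlinarith) (by positivity)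
  have h4 : 1 < dist (pt x (t + τ)) (2 * pt x t - x) ^ 2 := by rw [e0]; linarith
  by_contra hcon
  push Not at hcon
  have := dist_nonneg (x := pt x (t + τ)) (y := 2 * pt x t - x)
  nlinarith

namespace Fam

variable {J : Type*} {l : Filter ℝ} {X : J → ℂ} {t : J → ℝ} {p q : J → Fin 6}

/-- **(f)** inner colour, right -/
theorem tang_in_R (F : Fam U T (𝓝[>] 0) X t p q) (j : J) :
    ∃ᶠ a in 𝓝 ((0 : ℝ), t j + 3 / 2), 0 < a.1 ∧ T (po (pt (X j) (t j)) a) = {p j} ∧
      dist (po (pt (X j) (t j)) a) (X j) < 1 :=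
  freq_lim (lim_R (t j)) ((F.and_eventually pos_R).mono fun τ hτ =>
    freq_po hτ.2 (chord_right (X j) (t j) τ) (hτ.1 j).inn)

/-- **(f)** inner colour, left -/
theorem tang_in_L (F : Fam U T (𝓝[<] 0) X t p q) (j : J) :
    ∃ᶠ a in 𝓝 ((0 : ℝ), t j - 3 / 2), 0 < a.1 ∧ T (po (pt (X j) (t j)) a) = {p j} ∧
      dist (po (pt (X j) (t j)) a) (X j) < 1 :=
  freq_lim (lim_L (t j)) ((F.and_eventually pos_L).mono fun τ hτ =>
    freq_po hτ.2 (chord_left (X j) (t j) τ) (hτ.1 j).inn)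

theorem out_mirror {x : ℂ} {t τ : ℝ} {p q : Fin 6} (h0 : τ ≠ 0) (h1 : |τ| < 1)
    (I : Ino U T x (t + τ) p q) :
    ∃ᶠ y in 𝓝 (pt x (t + τ)), T y = {q} ∧ 1 < dist y x ∧ 1 < dist y (2 * pt x t - x) := by
  have h2 : ∀ᶠ y in 𝓝 (pt x (t + τ)), 1 < dist y (2 * pt x t - x) :=
    (continuous_id.dist continuous_const).continuousAt.eventually_const_lt (far_mirror h0 h1)
  exact (I.out.and_eventually h2).mono fun y hy => ⟨hy.1.1, hy.1.2, hy.2⟩

/-- **(f)** outer colour, right -/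
theorem tang_out_R (F : Fam U T (𝓝[>] 0) X t p q) (j : J) :
    ∃ᶠ a in 𝓝 ((0 : ℝ), t j + 3 / 2), 0 < a.1 ∧ T (po (pt (X j) (t j)) a) = {q j} ∧
      1 < dist (po (pt (X j) (t j)) a) (X j) ∧
      1 < dist (po (pt (X j) (t j)) a) (2 * pt (X j) (t j) - X j) := by
  have h1 : ∀ᶠ τ : ℝ in 𝓝[>] 0, τ ≠ 0 ∧ |τ| < 1 := by
    filter_upwards [Ioo_mem_nhdsGT (one_pos : (0 : ℝ) < 1)] with τ hτ
    exact ⟨hτ.1.ne', by rw [abs_of_pos hτ.1]; exact hτ.2⟩
  exact freq_lim (lim_R (t j)) ((F.and_eventually (pos_R.and h1)).mono fun τ hτ =>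
    freq_po hτ.2.1 (chord_right (X j) (t j) τ) (out_mirror hτ.2.2.1 hτ.2.2.2 (hτ.1 j)))

/-- **(f)** outer colour, left -/
theorem tang_out_L (F : Fam U T (𝓝[<] 0) X t p q) (j : J) :
    ∃ᶠ a in 𝓝 ((0 : ℝ), t j - 3 / 2), 0 < a.1 ∧ T (po (pt (X j) (t j)) a) = {q j} ∧
      1 < dist (po (pt (X j) (t j)) a) (X j) ∧
      1 < dist (po (pt (X j) (t j)) a) (2 * pt (X j) (t j) - X j) := by
  have h1 : ∀ᶠ τ : ℝ in 𝓝[<] 0, τ ≠ 0 ∧ |τ| < 1 := by
    filter_upwards [Ioo_mem_nhdsLT (by norm_num : (-1 : ℝ) < 0)] with τ hτ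
    exact ⟨hτ.2.ne, by rw [abs_of_neg hτ.2]; linarith [hτ.1]⟩
  exact freq_lim (lim_L (t j)) ((F.and_eventually (pos_L.and h1)).mono fun τ hτ =>
    freq_po hτ.2.1 (chord_left (X j) (t j) τ) (out_mirror hτ.2.2.1 hτ.2.2.2 (hτ.1 j)))

end Fam

/-! ### the rule (b) in directions -/

/-- points of `S` in polar coordinates -/
def PS (S : Set ℂ) (x : ℂ) : Set (ℝ × ℝ) := {a | 0 < a.1 ∧ po x a ∈ S}

theorem far_dir {S : Set ℂ} {θ u : ℝ} (hθ : ((0 : ℝ), θ) ∈ closure (PS S x))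
    (hc : Real.cos ((θ - u) * (Real.pi / 3)) < 0) : ∃ᶠ y in 𝓝 x, y ∈ S ∧ 1 < dist y (pt x u) := by
  rw [mem_closure_iff_frequently] at hθ
  have h2 : ∀ᶠ a : ℝ × ℝ in 𝓝 ((0 : ℝ), θ), Real.cos ((a.2 - u) * (Real.pi / 3)) < 0 :=
    (cosc u).continuousAt.eventually_lt_const hc
  have ht := (continuous_po x).tendsto ((0 : ℝ), θ)
  rw [po_zero] at ht
  refine ht.frequently ((hθ.and_eventually h2).mono ?_)
  rintro ⟨r, φ⟩ ⟨⟨h3, h4⟩, h5⟩
  refine ⟨h4, ?_⟩
  have h3 : 0 < r := h3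
  have h6 := sq_dist_po x r φ u
  simp only at h5
  have h7 : 1 < dist (po x (r, φ)) (pt x u) ^ 2 := by rw [h6]; nlinarith
  by_contra h8
  push Not at h8
  have := dist_nonneg (x := po x (r, φ)) (y := pt x u)
  nlinarith

theorem near_dir {S : Set ℂ} {θ u : ℝ} (hθ : ((0 : ℝ), θ) ∈ closure (PS S x))
    (hc : 0 < Real.cos ((θ - u) * (Real.pi / 3))) : ∃ᶠ y in 𝓝 x, y ∈ S ∧ dist y (pt x u) < 1 := by
  rw [mem_closure_iff_frequently] at hθ
  set C := Real.cos ((θ - u) * (Real.pi / 3)) with hC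
  have h2 : ∀ᶠ a : ℝ × ℝ in 𝓝 ((0 : ℝ), θ), C / 2 < Real.cos ((a.2 - u) * (Real.pi / 3)) :=
    (cosc u).continuousAt.eventually_const_lt (by show C / 2 < C; linarith)
  have h3 : ∀ᶠ a : ℝ × ℝ in 𝓝 ((0 : ℝ), θ), a.1 < C :=
    continuous_fst.continuousAt.eventually_lt_const hc
  have ht := (continuous_po x).tendsto ((0 : ℝ), θ)
  rw [po_zero] at ht
  refine ht.frequently ((hθ.and_eventually (h2.and h3)).mono ?_)
  rintro ⟨r, φ⟩ ⟨⟨h4, h5⟩, h6, h7⟩
  refine ⟨h5, ?_⟩
  have h4 : 0 < r := h4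
  have h7 : r < C := h7
  have h8 := sq_dist_po x r φ u
  simp only at h6
  have h9 : dist (po x (r, φ)) (pt x u) ^ 2 < 1 := by rw [h8]; nlinarith
  by_contra h10
  push Not at h10
  have := dist_nonneg (x := po x (r, φ)) (y := pt x u)
  nlinarith

theorem ev_cos {l : Filter ℝ} (hl : Side l) (θ t : ℝ) {P : ℝ → Prop}
    (hP : ∀ᶠ c in 𝓝 (Real.cos ((θ - t) * (Real.pi / 3))), P c) :
    ∀ᶠ τ in l, P (Real.cos ((θ - (t + τ)) * (Real.pi / 3))) := by
  have h1 : Continuous fun τ : ℝ => Real.cos ((θ - (t + τ)) * (Real.pi / 3)) := by fun_prop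
  have h2 := h1.tendsto 0
  rw [add_zero] at h2
  exact (h2.mono_left hl.le).eventually hP

theorem ray_pos {d : ℝ} (h0 : 0 < d) (h1 : d < 1) :
    0 < Real.cos ((3 / 2 - d) * (Real.pi / 3)) := by
  have hpi := Real.pi_pos
  refine Real.cos_pos_of_mem_Ioo ⟨?_, ?_⟩
  · nlinarith
  · nlinarith

theorem ray_neg {d : ℝ} (h0 : 0 < d) (h1 : d < 1) :
    Real.cos ((3 / 2 + d) * (Real.pi / 3)) < 0 := by
  have hpi := Real.pi_pos
  refine Real.cos_neg_of_pi_div_two_lt_of_lt ?_ ?_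
  · nlinarith
  · nlinarith

theorem ray_R (t : ℝ) : ∀ᶠ τ : ℝ in 𝓝[>] 0,
    0 < Real.cos ((t + 3 / 2 - (t + τ)) * (Real.pi / 3)) ∧
      Real.cos ((t - 3 / 2 - (t + τ)) * (Real.pi / 3)) < 0 := by
  filter_upwards [Ioo_mem_nhdsGT (one_pos : (0 : ℝ) < 1)] with τ hτ
  constructor
  · have := ray_pos hτ.1 hτ.2
    rwa [show (t + 3 / 2 - (t + τ)) * (Real.pi / 3) = (3 / 2 - τ) * (Real.pi / 3) by ring]
  · have := ray_neg hτ.1 hτ.2
    rwa [show (t - 3 / 2 - (t + τ)) * (Real.pi / 3) = -((3 / 2 + τ) * (Real.pi / 3)) by ring,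
      Real.cos_neg]

theorem ray_L (t : ℝ) : ∀ᶠ τ : ℝ in 𝓝[<] 0,
    0 < Real.cos ((t - 3 / 2 - (t + τ)) * (Real.pi / 3)) ∧
      Real.cos ((t + 3 / 2 - (t + τ)) * (Real.pi / 3)) < 0 := by
  filter_upwards [Ioo_mem_nhdsLT (by norm_num : (-1 : ℝ) < 0)] with τ hτ
  have h1 := hτ.1
  have h2 := hτ.2
  constructor
  · have := ray_pos (d := -τ) (by linarith) (by linarith)
    rwa [show (t - 3 / 2 - (t + τ)) * (Real.pi / 3) = -((3 / 2 - -τ) * (Real.pi / 3)) by ring,
      Real.cos_neg]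
  · have := ray_neg (d := -τ) (by linarith) (by linarith)
    rwa [show (t + 3 / 2 - (t + τ)) * (Real.pi / 3) = (3 / 2 + -τ) * (Real.pi / 3) by ring]

namespace Fam

variable {J : Type*} {l : Filter ℝ} {X : J → ℂ} {t : J → ℝ} {p q : J → Fin 6}

/-- **(b)** the inner colour has no direction away from `pt x (t + τ)` -/
theorem far_cl (F : Fam U T l X t p q) (h : Irr U T) (hct : ∀ y, Ctn U T y) {j : J} {θ : ℝ}
    (hθ : ((0 : ℝ), θ) ∈ closure (PS {y | p j ∈ Pal U y} (X j)))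
    (hc : ∀ᶠ τ in l, Real.cos ((θ - (t j + τ)) * (Real.pi / 3)) < 0) : False :=
  F.far h hct j (hc.mono fun _ hτ => far_dir hθ hτ)

/-- **(b)** the outer colour has no direction towards `pt x (t + τ)` -/
theorem near_cl (F : Fam U T l X t p q) (h : Irr U T) (hct : ∀ y, Ctn U T y) {j : J} {θ : ℝ}
    (hθ : ((0 : ℝ), θ) ∈ closure (PS {y | q j ∈ Pal U y} (X j)))
    (hc : ∀ᶠ τ in l, 0 < Real.cos ((θ - (t j + τ)) * (Real.pi / 3))) : False :=
  F.near h hct j (hc.mono fun _ hτ => near_dir hθ hτ)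

/-! ### letters -/

theorem oc (h : Irr U T) {x : ℂ} {s : ℝ} {p q : Fin 6} (I : Ino U T x s p q) (C : Cn U T x)
    (hct : ∀ y, Ctn U T y) (hp : p ∈ T x) (hq : q ∈ T x) : s ∈ OC U T x (p, q) := by
  have hpq : p ≠ q := I.ne h (hct _) (h.sub x hp)
  have hT := I.pal_eq h hpq (h.sub x hp)
  refine ⟨hp, hq, hT, hpq, ?_⟩
  rcases h.sides_of_sided (dist_pt x s) hT.le (h.mx.sided_of_ct (C.ct p hp))
    (h.mx.sided_of_ct (C.ct q hq)) with h2 | h2
  · exact h2
  · exfalso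
    have h2 : ∀ᶠ y in 𝓝 (pt x s), (1 < dist y x → q ∉ Pal U y) ∧ (dist y x < 1 → p ∉ Pal U y) := h2
    obtain ⟨y, h3, h4⟩ := (I.inn'.and_eventually h2).exists
    exact h4.2 h3.2 (h.sub y h3.1)

theorem oc_mem {x : ℂ} {s : ℝ} {p q : Fin 6} (h : Irr U T) (I : Ino U T x s p q) {m : L6}
    (hm : s ∈ OC U T x m) : p ∈ T x ∧ q ∈ T x := by
  obtain ⟨h1, h2, h3⟩ := hm
  have hp := I.p_mem h
  have hq := I.q_mem h
  rw [h3.1] at hp hq
  constructor
  · rcases hp with rfl | hp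
    · exact h1
    · rw [mem_singleton_iff.1 hp]; exact h2
  · rcases hq with rfl | hq
    · exact h1
    · rw [mem_singleton_iff.1 hq]; exact h2

theorem to_R {t : ℝ} : Tendsto (fun τ : ℝ => t + τ) (𝓝[>] 0) (𝓝[>] t) := by
  refine tendsto_nhdsWithin_of_tendsto_nhds_of_eventually_within _ ?_ ?_
  · have h5 : Continuous fun τ : ℝ => t + τ := by fun_prop
    have h6 := h5.tendsto 0
    rw [add_zero] at h6
    exact h6.mono_left nhdsWithin_le_nhds
  · filter_upwards [self_mem_nhdsWithin] with τ hτ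
    have hτ : 0 < τ := hτ
    show t < t + τ
    linarith

theorem to_L {t : ℝ} : Tendsto (fun τ : ℝ => t + τ) (𝓝[<] 0) (𝓝[<] t) := by
  refine tendsto_nhdsWithin_of_tendsto_nhds_of_eventually_within _ ?_ ?_
  · have h5 : Continuous fun τ : ℝ => t + τ := by fun_prop
    have h6 := h5.tendsto 0
    rw [add_zero] at h6
    exact h6.mono_left nhdsWithin_le_nhds
  · filter_upwards [self_mem_nhdsWithin] with τ hτ
    have hτ : τ < 0 := hτ
    show t + τ < t
    linarith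

/-- the letter just after `t j` -/
theorem cr_some (F : Fam U T (𝓝[>] 0) X t p q) (h : Irr U T) (hct : ∀ y, Ctn U T y) {j : J}
    (C : Cn U T (X j)) (hp : p j ∈ T (X j)) (hq : q j ∈ T (X j)) :
    CR U T (X j) (t j) = some (p j, q j) :=
  C.cr_eq (to_R.frequently (F.mono fun _ hτ => oc h (hτ j) C hct hp hq))

theorem cr_none (F : Fam U T (𝓝[>] 0) X t p q) (h : Irr U T) {j : J}
    (hpq : ¬ (p j ∈ T (X j) ∧ q j ∈ T (X j))) : CR U T (X j) (t j) = none := by
  cases hc : CR U T (X j) (t j) with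
  | none => rfl
  | some m =>
    exfalso
    obtain ⟨τ, h1, h2⟩ := F.exists_at (to_R.eventually (H892.cr_some hc))
    exact hpq (oc_mem h (h2 j) h1)

/-- the letter just before `t j` -/
theorem cl_some (F : Fam U T (𝓝[<] 0) X t p q) (h : Irr U T) (hct : ∀ y, Ctn U T y) {j : J}
    (C : Cn U T (X j)) (hp : p j ∈ T (X j)) (hq : q j ∈ T (X j)) :
    CL U T (X j) (t j) = some (p j, q j) :=
  C.cl_eq (to_L.frequently (F.mono fun _ hτ => oc h (hτ j) C hct hp hq))

theorem cl_none (F : Fam U T (𝓝[<] 0) X t p q) (h : Irr U T) {j : J}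
    (hpq : ¬ (p j ∈ T (X j) ∧ q j ∈ T (X j))) : CL U T (X j) (t j) = none := by
  cases hc : CL U T (X j) (t j) with
  | none => rfl
  | some m =>
    exfalso
    obtain ⟨τ, h1, h2⟩ := F.exists_at (to_L.eventually (H892.cl_some hc))
    exact hpq (oc_mem h (h2 j) h1)

end Fam

end Vale.Agent.P032.H61
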