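import Vale.Agent.P032X.H892.Fam
import Vale.Agent.P032X.H61.SymL

/-!
# P032: the block of the two-pair points (`N55` gives `ND5`)

* `DPn T v` : the point `v` shows two disjoint pairs of its colours; `CD` : frames of the block (5, 4) with `N55` where the
  point 1 shows two pairs,
* `CH a b c d` : the point 1 has the colours `a, b, c, d` and shows the pairs `a b`, `c d`; `D4 a b c d` : the monitors of
  these pairs, `hE` : the base clauses,
* `famH`, `trH` : patterns with monitors; `mXH`, `wordH` : words with monitors,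
* `dead_colH` : change of the names of the colours; `cov`, `wdC` : **a word is dead in `CD` if it is dead for all partitions**,
* `masterD` : the master; `nd5_of` : **the conclusion.**
-/

open Set Filter Topology Metric

noncomputable section

namespace Vale.Agent.P032.X2d

open Vale.Agent.P032.Six Vale.Agent.P032.Words Vale.Agent.P032.S5.H767
  Vale.Agent.P032.H913 Vale.Agent.P032.H357 Vale.Agent.P032.H61 Vale.Agent.P032.BlkE Vale.Agent.P032.BlkS
  Vale.Agent.P032.TW Vale.Agent.P032.Fam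
open Vale.Agent.P032.BlkV (CN eN eN_ho okPT_of okN okN_spec cpt)
open Vale.Agent.P032.H357.MK (fx0 cf al al_spec alL alL_spec alLL alLL_spec Tb nbeq co Cn Hy Qy XV xT xT_av Xok Zf hA rs
  co_inj co_surj PatH)
open Vale.Agent.P032.H820.K (a0 a1 a2 a3 a4 En en_eq dec Md av lv Ho ps ng lv_ps lv_ng nbf lb lb_iff trv ho_trv nthC
  nthC_ho av9)
open Vale.Agent.P032.H61.TF (tb g73 gp_zero gp_one kap_zero kap_one PX TG)
open Vale.Agent.P032.H892 (cj cj_cj L6 OC O6)

/-! ### occurrences of pairs -/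

theorem ct_of_ctn {U : Fin 6 → Set ℂ} {T : ℂ → Set (Fin 6)} {z : ℂ} (h : Irr U T) (hc : Ctn U T z) {i : Fin 6}
    (hi : i ∈ T z) : Ct U z i := by
  obtain ⟨w, hwT, hw⟩ := ((h.pure z i hi).and_eventually hc).exists
  obtain ⟨Q, h3, h4, h5, h6⟩ := hw i (by rw [hwT]; exact mem_singleton i)
  exact ⟨Q, h3, h4, h5, w, h6, h.mem_of_single hwT.le⟩

theorem cn_of_ok {κ : ℕ → ℤ × ℤ} {B : Type} {cx : B → ℕ} {F : Fr} (h : FOk κ cx F) (z : ℂ) :
    H892.Cn F.U F.T z :=
  H892.Cn.of_lf h.irr h.lf3 fun _ hi => ct_of_ctn h.irr (h.ctn z) hi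

/-- the pair `i j` is the palette of a point of the circle about `v` -/
def PcT (T : ℂ → Set (Fin 6)) (v : ℂ) (i j : Fin 6) : Prop := ∃ p, dist p v = 1 ∧ T p = {i, j}

theorem PcT.symm {T : ℂ → Set (Fin 6)} {v : ℂ} {i j : Fin 6} (h : PcT T v i j) : PcT T v j i := by
  obtain ⟨p, h1, h2⟩ := h
  exact ⟨p, h1, by rw [h2, Set.pair_comm]⟩

theorem PcT.mir {T : ℂ → Set (Fin 6)} {v : ℂ} {i j : Fin 6} (h : PcT T v i j) : PcT (mT T) (cj v) i j := by
  obtain ⟨p, h1, h2⟩ := h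
  refine ⟨cj p, ?_, ?_⟩
  · rw [BlkE.cj_dist]
    exact h1
  · show T (cj (cj p)) = _
    rw [cj_cj]
    exact h2

theorem occ_of {U : Fin 6 → Set ℂ} {T : ℂ → Set (Fin 6)} {v : ℂ} (C : H892.Cn U T v) {i j : Fin 6} (hij : i ≠ j)
    (hi : i ∈ T v) (hj : j ∈ T v) (h : PcT T v i j) : HG.Occ U T v i j := by
  obtain ⟨p, h1, h2⟩ := h
  obtain ⟨u, hu⟩ := BlkV.exists_pt h1
  refine ⟨u, ?_⟩
  rw [← hu] at h1 h2
  rcases C.irr.sides_of_sided h1 h2.le (C.irr.mx.sided_of_ct (C.ct i hi))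
    (C.irr.mx.sided_of_ct (C.ct j hj)) with h3 | h3
  · exact Or.inl ⟨hi, hj, h2, hij, h3⟩
  · exact Or.inr ⟨hj, hi, by rw [h2]; exact Set.pair_comm i j, hij.symm, h3⟩

/-- the point `v` shows two disjoint pairs of its colours -/
def DPn (T : ℂ → Set (Fin 6)) (v : ℂ) : Prop := ∃ p q, dist p v = 1 ∧ dist q v = 1 ∧ T p ⊆ T v ∧ T q ⊆ T v ∧
  (T p).ncard = 2 ∧ (T q).ncard = 2 ∧ Disjoint (T p) (T q)

theorem DPn.mir {T : ℂ → Set (Fin 6)} {v : ℂ} (h : DPn T v) : DPn (mT T) (cj v) := by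
  obtain ⟨p, q, h1, h2, h3, h4, h5, h6, h7⟩ := h
  refine ⟨cj p, cj q, ?_, ?_, ?_, ?_, ?_, ?_, ?_⟩
  · rw [BlkE.cj_dist]; exact h1
  · rw [BlkE.cj_dist]; exact h2
  all_goals
    unfold mT
    simp only [cj_cj]
    assumption

/-! ### classes -/

/-- frames of the block (5, 4) with `N55` where the point 1 shows two disjoint pairs -/
structure CD (F : Fr) : Prop where
  cw : CW N55 5 4 73 TF.TC F
  dp : DPn F.T (pt F.z F.b)

section
variable {F : Fr}

theorem pt_mir : pt (F.mir (ptb TG 6)).z (F.mir (ptb TG 6)).b = cj (pt F.z F.b) := (cj_ptx F.z F.b).symm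

theorem CD.mir (h : CD F) : CD (F.mir (ptb TG 6)) := by
  refine ⟨h.cw.mir inv_n55 tabs73 le_rfl, ?_⟩
  rw [pt_mir]
  exact h.dp.mir

theorem CD.col (h : CD F) (π : Equiv.Perm (Fin 6)) (hπ : ∀ q < 6, (pn π q < 5 ↔ q < 5)) : CD (F.col π) :=
  ⟨h.cw.col π hπ, h.dp⟩

theorem okPTD_of {PT NPM : ℕ} (h : okN 5 PT NPM = true) : OkPT CD PT NPM := by
  intro i hi
  obtain ⟨π, h1, h2⟩ := okN_spec h hi
  exact ⟨π, h1, fun F hF => hF.col π h2⟩

/-- the point 1 has the colours `a, b, c, d`, the pairs `a b` and `c d` occur -/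
structure CH (a b c d : ℕ) (F : Fr) : Prop where
  cw : CW N55 5 4 73 TF.TC F
  tv : ∀ q < 6, (co F.σ q ∈ F.T (pt F.z F.b) ↔ q = a ∨ q = b ∨ q = c ∨ q = d)
  o1 : PcT F.T (pt F.z F.b) (co F.σ a) (co F.σ b)
  o2 : PcT F.T (pt F.z F.b) (co F.σ c) (co F.σ d)

variable {a b c d : ℕ}

theorem CH.mir (h : CH a b c d F) : CH a b c d (F.mir (ptb TG 6)) := by
  refine ⟨h.cw.mir inv_n55 tabs73 le_rfl, fun q hq => ?_, ?_, ?_⟩
  · rw [pt_mir]
    show co F.σ q ∈ F.T (cj (cj (pt F.z F.b))) ↔ _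
    rw [cj_cj]
    exact h.tv q hq
  · rw [pt_mir]
    exact h.o1.mir
  · rw [pt_mir]
    exact h.o2.mir

theorem CH.s1 (h : CH a b c d F) : CH b a c d F :=
  ⟨h.cw, fun q hq => (h.tv q hq).trans ⟨by tauto, by tauto⟩, h.o1.symm, h.o2⟩

theorem CH.s2 (h : CH a b c d F) : CH a b d c F :=
  ⟨h.cw, fun q hq => (h.tv q hq).trans ⟨by tauto, by tauto⟩, h.o1, h.o2.symm⟩

theorem CH.s3 (h : CH a b c d F) : CH c d a b F :=
  ⟨h.cw, fun q hq => (h.tv q hq).trans ⟨by tauto, by tauto⟩, h.o2, h.o1⟩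

/-- the eight orders of the two pairs -/
def st8 (a b c d x y z w : ℕ) : Bool :=
  (((Nat.beq x a && Nat.beq y b) || (Nat.beq x b && Nat.beq y a)) &&
    ((Nat.beq z c && Nat.beq w d) || (Nat.beq z d && Nat.beq w c))) ||
  (((Nat.beq x c && Nat.beq y d) || (Nat.beq x d && Nat.beq y c)) &&
    ((Nat.beq z a && Nat.beq w b) || (Nat.beq z b && Nat.beq w a)))

theorem CH.st {x y z w : ℕ} (h : CH a b c d F) (hs : st8 a b c d x y z w = true) : CH x y z w F := by
  unfold st8 at hs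
  simp only [Bool.or_eq_true, Bool.and_eq_true, nbeq] at hs
  rcases hs with ⟨⟨h1, h2⟩ | ⟨h1, h2⟩, ⟨h3, h4⟩ | ⟨h3, h4⟩⟩ | ⟨⟨h1, h2⟩ | ⟨h1, h2⟩, ⟨h3, h4⟩ | ⟨h3, h4⟩⟩ <;>
    subst h1 h2 h3 h4
  · exact h
  · exact h.s2
  · exact h.s1
  · exact h.s1.s2
  · exact h.s3
  · exact h.s3.s2
  · exact h.s3.s1
  · exact h.s3.s1.s2

/-- **change of the names of the colours** -/
theorem CH.col {π : Equiv.Perm (Fin 6)} (hπ : ∀ q < 6, (pn π q < 5 ↔ q < 5))
    (h : CH (pn π a) (pn π b) (pn π c) (pn π d) F) (ha : a < 6) (hb : b < 6) (hc : c < 6) (hd : d < 6) :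
    CH a b c d (F.col π) := by
  have e : ∀ q, co (F.σ * π) q = co F.σ (pn π q) := fun q => co_pn F.σ π q
  have inj : ∀ {p q}, p < 6 → q < 6 → (pn π p = pn π q ↔ p = q) := fun {p q} hp hq =>
    ⟨fun h1 => by by_contra h2; exact BlkE.pn_ne π hp hq h2 h1, fun h1 => by rw [h1]⟩
  refine ⟨h.cw.col π hπ, fun q hq => ?_, ?_, ?_⟩
  · show co (F.σ * π) q ∈ F.T (pt F.z F.b) ↔ _
    rw [e, h.tv _ (pn_lt π q), inj hq ha, inj hq hb, inj hq hc, inj hq hd]
  · show PcT F.T (pt F.z F.b) (co (F.σ * π) a) (co (F.σ * π) b)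
    rw [e, e]
    exact h.o1
  · show PcT F.T (pt F.z F.b) (co (F.σ * π) c) (co (F.σ * π) d)
    rw [e, e]
    exact h.o2

/-- check: the four colours are below 6 and different -/
def d4 (a b c d : ℕ) : Bool := ((lb a 6 && lb b 6) && (lb c 6 && lb d 6)) && (!(Nat.beq a b) && !(Nat.beq c d))

theorem d4_spec (h : d4 a b c d = true) : a < 6 ∧ b < 6 ∧ c < 6 ∧ d < 6 ∧ a ≠ b ∧ c ≠ d := by
  unfold d4 at h
  simp only [Bool.and_eq_true, Bool.not_eq_true', lb_iff] at h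
  obtain ⟨⟨⟨h1, h2⟩, h3, h4⟩, h5, h6⟩ := h
  refine ⟨h1, h2, h3, h4, fun e => ?_, fun e => ?_⟩
  · rw [nbeq.2 e] at h5
    exact Bool.noConfusion h5
  · rw [nbeq.2 e] at h6
    exact Bool.noConfusion h6

/-- check: the permutations of the table preserve the class -/
def okS (a b c d PT NPM : ℕ) : Bool := al (fun i => st8 a b c d (cpf (cpt PT i) a) (cpf (cpt PT i) b)
  (cpf (cpt PT i) c) (cpf (cpt PT i) d)) NPM

theorem okPTH_of {PT NPM : ℕ} (h4 : d4 a b c d = true) (h : okN 5 PT NPM = true) (hs : okS a b c d PT NPM = true) :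
    OkPT (CH a b c d) PT NPM := by
  obtain ⟨ha, hb, hc, hd, -, -⟩ := d4_spec h4
  intro i hi
  obtain ⟨π, h1, h2⟩ := okN_spec h hi
  refine ⟨π, h1, fun F hF => CH.col h2 (hF.st ?_) ha hb hc hd⟩
  rw [h1 a ha, h1 b hb, h1 c hc, h1 d hd]
  exact al_spec hs i hi

end

/-! ### monitors -/

theorem fx1 : fx0 TF.TC 1 = true := by decide +kernel

/-- the monitors of the pairs `a b` and `c d` at the point 1 -/
def D4 (a b c d : ℕ) : HG.Mon 73 TF.TC where
  c := fun _ => ⟨1, by norm_num, fx1⟩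
  p := fun i => bif Nat.beq i 0 then a else c
  q := fun i => bif Nat.beq i 0 then b else d

/-- the palette of the point 1 -/
def vU (a b c d : ℕ) : List (List ℕ) :=
  [[bif ((Nat.beq 0 a || Nat.beq 0 b) || (Nat.beq 0 c || Nat.beq 0 d)) then ps (En 4 1 0 0 0) else ng (En 4 1 0 0 0)],
   [bif ((Nat.beq 1 a || Nat.beq 1 b) || (Nat.beq 1 c || Nat.beq 1 d)) then ps (En 4 1 0 0 1) else ng (En 4 1 0 0 1)],
   [bif ((Nat.beq 2 a || Nat.beq 2 b) || (Nat.beq 2 c || Nat.beq 2 d)) then ps (En 4 1 0 0 2) else ng (En 4 1 0 0 2)],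
   [bif ((Nat.beq 3 a || Nat.beq 3 b) || (Nat.beq 3 c || Nat.beq 3 d)) then ps (En 4 1 0 0 3) else ng (En 4 1 0 0 3)],
   [bif ((Nat.beq 4 a || Nat.beq 4 b) || (Nat.beq 4 c || Nat.beq 4 d)) then ps (En 4 1 0 0 4) else ng (En 4 1 0 0 4)],
   [bif ((Nat.beq 5 a || Nat.beq 5 b) || (Nat.beq 5 c || Nat.beq 5 d)) then ps (En 4 1 0 0 5) else ng (En 4 1 0 0 5)]]

/-- the clauses of the point 1 and of the monitors -/
def hE (a b c d : ℕ) : List (List ℕ) :=
  vU a b c d ++ HG.EGi 0 1 a b ++ HG.EGi 1 1 c d ++ [[ps (hA 0 3)], [ps (hA 1 3)]]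

section
variable {F : Fr} {a b c d : ℕ} {M : Md 2 73 73 (nbf 2 TF.TB)}

theorem zf_one (D : HG.Mon 73 TF.TC) {i : ℕ} (h : (D.c i).1 = 1) : Zf F.b TF.TC F.z 73 (D.c i) = pt F.z F.b := by
  have h1 : Zf F.b TF.TC F.z 73 (D.c i) = F.P (kap TF.TC) (D.c i).1 := yc_P
  rw [h1, h, BlkV.P_one kap_one]

theorem monOk (h4 : d4 a b c d = true) (hF : CH a b c d F) {i : ℕ} (hi : i < 2) :
    HG.MonOk (D4 a b c d) F.U F.T F.z F.σ F.b i := by
  obtain ⟨ha, hb, hc, hd, -, -⟩ := d4_spec h4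
  have e : Zf F.b TF.TC F.z 73 ((D4 a b c d).c i) = pt F.z F.b := zf_one _ rfl
  refine ⟨?_, ?_, ?_, ?_, ?_⟩
  · rw [e]
    exact cn_of_ok hF.cw.cq.cn.ok _
  · interval_cases i
    · exact ha
    · exact hc
  · interval_cases i
    · exact hb
    · exact hd
  · rw [e]
    interval_cases i
    · exact (hF.tv a ha).2 (Or.inl rfl)
    · exact (hF.tv c hc).2 (Or.inr (Or.inr (Or.inl rfl)))
  · rw [e]
    interval_cases i
    · exact (hF.tv b hb).2 (Or.inr (Or.inl rfl))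
    · exact (hF.tv d hd).2 (Or.inr (Or.inr (Or.inr rfl)))

theorem monOcc (h4 : d4 a b c d = true) (hF : CH a b c d F) {i : ℕ} (hi : i < 2) :
    HG.Occ F.U F.T (Zf F.b TF.TC F.z 73 ((D4 a b c d).c i)) (co F.σ ((D4 a b c d).p i)) (co F.σ ((D4 a b c d).q i)) := by
  obtain ⟨ha, hb, hc, hd, hab, hcd⟩ := d4_spec h4
  have e : Zf F.b TF.TC F.z 73 ((D4 a b c d).c i) = pt F.z F.b := zf_one _ rfl
  rw [e]
  have C := cn_of_ok hF.cw.cq.cn.ok (pt F.z F.b)
  interval_cases i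
  · exact occ_of C (fun h => hab (co_inj F.σ ha hb h)) ((hF.tv a ha).2 (Or.inl rfl))
      ((hF.tv b hb).2 (Or.inr (Or.inl rfl))) hF.o1
  · exact occ_of C (fun h => hcd (co_inj F.σ hc hd h)) ((hF.tv c hc).2 (Or.inr (Or.inr (Or.inl rfl))))
      ((hF.tv d hd).2 (Or.inr (Or.inr (Or.inr rfl)))) hF.o2

/-- the models of a frame with the monitors -/
abbrev MX (a b c d : ℕ) (F : Fr) (M : Md 2 73 73 (nbf 2 TF.TB)) : Prop :=
  MdlX (tb (le_refl 73)) (XKG (D4 a b c d)) F M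

theorem mvH (h4 : d4 a b c d = true) (hF : CH a b c d F) (hM : MX a b c d F M) :
    MvG (KG (D4 a b c d)) 2 TF.TC F M :=
  mvG_XG (by norm_num) (fun _ hi => monOk h4 hF hi) hM

theorem av_tX (hM : MX a b c d F M) {q : ℕ} (hq : q < 6) :
    av M (En 4 1 0 0 q) ↔ co F.σ q ∈ F.T (pt F.z F.b) := by
  obtain ⟨M0, X, h1, rfl⟩ := hM.base
  have hw := BlkV.wa_t (NW := 73) gp_one hq
  have h2 : a1 (En 4 1 0 0 q) < 73 := by
    have h3 : Wn (Gp 73 TF.TC) (Ce 73 TF.TC) (En 4 1 0 0 q) := wn_of tabs73.lt hw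
    exact h3.va.pt.1
  rw [xT_av (Or.inl h2), BlkV.av_t h1 gp_one hq, BlkV.P_one kap_one]

theorem ho_vU (hF : CH a b c d F) (hM : MX a b c d F M) : ∀ e ∈ vU a b c d, Ho M e := by
  have key : ∀ q < 6, Ho M [bif ((Nat.beq q a || Nat.beq q b) || (Nat.beq q c || Nat.beq q d)) then ps (En 4 1 0 0 q)
      else ng (En 4 1 0 0 q)] := by
    intro q hq
    refine ⟨_, List.mem_singleton_self _, ?_⟩
    have h1 := (av_tX hM hq).trans (hF.tv q hq)
    cases h2 : ((Nat.beq q a || Nat.beq q b) || (Nat.beq q c || Nat.beq q d))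
    · rw [cond_false, lv_ng, h1]
      rintro (h | h | h | h)
      · rw [nbeq.2 h] at h2
        simp at h2
      · rw [nbeq.2 h] at h2
        simp at h2
      · rw [nbeq.2 h] at h2
        simp at h2
      · rw [nbeq.2 h] at h2
        simp at h2
    · rw [cond_true, lv_ps, h1]
      simp only [Bool.or_eq_true, nbeq] at h2
      tauto
  intro e he
  unfold vU at he
  simp only [List.mem_cons, List.not_mem_nil, or_false] at he
  rcases he with rfl | rfl | rfl | rfl | rfl | rfl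
  · exact key 0 (by norm_num)
  · exact key 1 (by norm_num)
  · exact key 2 (by norm_num)
  · exact key 3 (by norm_num)
  · exact key 4 (by norm_num)
  · exact key 5 (by norm_num)

/-- **the clauses of the point 1 and of the monitors hold** -/
theorem ho_hE (h4 : d4 a b c d = true) (hF : CH a b c d F) (hM : MX a b c d F M) : ∀ e ∈ hE a b c d, Ho M e := by
  intro e he
  unfold hE at he
  rcases List.mem_append.1 he with he | he
  · rcases List.mem_append.1 he with he | he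
    · rcases List.mem_append.1 he with he | he
      · exact ho_vU hF hM e he
      · exact MdlX.ho_EGi (i := 0) (by norm_num) (by norm_num) (monOk h4 hF (by norm_num)) hM e he
    · exact MdlX.ho_EGi (i := 1) (by norm_num) (by norm_num) (monOk h4 hF (by norm_num)) hM e he
  · simp only [List.mem_cons, List.not_mem_nil, or_false] at he
    rcases he with rfl | rfl
    · exact MdlX.ho_EGe (i := 0) (by norm_num) (by norm_num) (monOcc h4 hF (by norm_num)) hM
    · exact MdlX.ho_EGe (i := 1) (by norm_num) (by norm_num) (monOcc h4 hF (by norm_num)) hM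

theorem bnd_eN : alLL (bnd 73) (eN 5) = true := by decide +kernel

theorem ho_eNX (hF : CH a b c d F) (hM : MX a b c d F M) : ∀ e ∈ eN 5, Ho M e :=
  hM.ho bnd_eN fun _ h => eN_ho kap_zero gp_zero (by norm_num) (by norm_num) hF.cw.cq.cn h

/-- the clauses of a P word hold in the models with monitors -/
theorem ho_EXwX {xs : List ℕ} (hb : alLL (bnd 73) (EXw xs) = true) (hx : ∀ x ∈ xs, Gp 73 TF.TC x)
    (hF : CH a b c d F) (hM : MX a b c d F M) : ∀ e ∈ EXw xs, Ho M e :=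
  hM.ho hb fun _ h => ho_EXw hx hF.cw h

end

/-! ### images of plain patterns -/

section
variable {NP NW TB TC TG : ℕ} {B : Tb NP NW TB TC} {F : Fr} {M : Md 2 NP NW (nbf 2 TB)} {C : Fr → Prop}

theorem ho_nclX {XF : Fr → XV NW} (hM : MdlX B XF F M) {P : List ℕ} (hP : Dead (kap TC) C P) (hF : C F)
    (hv : Vl (Gp NP TC) (Ce NW TC) P) : Ho M (ncl P) := by
  have h := hP F hF
  rw [not_forall] at h
  obtain ⟨l, h⟩ := h
  rw [Classical.not_imp] at h
  obtain ⟨hl, h⟩ := h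
  refine ⟨Nat.xor l 1, List.mem_map_of_mem hl, lv_xor.2 ?_⟩
  rw [hM.lv (hv l hl)]
  exact h

/-- **images of the patterns of a tree in the models with free atoms** -/
theorem imT_hoX (t : Tabs (kap TC) (Gp NP TC) (Ce NW TC) (ptb TG)) {XF : Fr → XV NW} (hM : MdlX B XF F M) (hF : C F)
    {G : ℕ → Bool} (hG : ∀ g, G g = true → g < 12 ∧ Cl1 (kap TC) (ptb TG) C (Gp NP TC) (Ce NW TC) g) {PT NPM : ℕ}
    (hPT : OkPT C PT NPM) {tr : PTr}
    (ht : tr.All fun p => Dead (kap TC) C (pk p) ∧ Vl (Gp NP TC) (Ce NW TC) (pk p)) (c : ℕ) :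
    Ho M (imT G tr PT NPM TG c) := by
  unfold imT
  cases h1 : G (Nat.land c 15) && lb (Nat.land (Nat.shiftRight c 4) 255) NPM
  · rw [cond_false]; exact ho_trv M
  · rw [cond_true]
    rw [Bool.and_eq_true, lb_iff] at h1
    generalize Nat.land c 15 = g at h1
    generalize Nat.land (Nat.shiftRight c 4) 255 = i at h1
    obtain ⟨hg, hg1⟩ := hG g h1.1
    obtain ⟨π, h2, h3⟩ := hPT i h1.2
    generalize Nat.land (Nat.shiftRight PT (Nat.mul 18 i)) 262143 = cp at h2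
    obtain ⟨h4, h5⟩ := PTr.get_all ht (Nat.shiftRight c 12)
    generalize tr.get (Nat.shiftRight c 12) = x at h4 h5
    have h7 := dead_col t (hg1 _ h4 h5) (h5.map fun n hn => wn_gn t hg hn) π h3
    rw [map_lm_lm] at h7
    have h6 := ho_nclX hM h7 hF (vl_img t h5 hg π)
    have e1 : imC TG cp g x = ncl ((pk x).map (lm fun n => nc (pn π) (gn (ptb TG) g n))) := by
      unfold imC ncl pk
      rw [upk_map (gL TG cp g), List.map_map]
      refine List.map_congr_left fun l hl => ?_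
      show gL TG cp g l = Nat.xor (lm (fun n => nc (pn π) (gn (ptb TG) g n)) l) 1
      rw [gL_eq]
      congr 1
      unfold lm
      rw [gB_eq t hg (h5 l hl)]
      congr 2
      have hw := wn_gn t hg (h5 l hl)
      unfold nc
      congr 1
      unfold qc
      split_ifs
      · rfl
      · exact (h2 _ hw.va.col).symm
    rw [e1]; exact h6

end

/-! ### the tables of the permutations of the two normal forms -/

/-- the permutations of `0 1 | 2 3` : number `i`, bit 0 : exchange `0, 1`, bit 1 : exchange `2, 3`, bit 2 : then exchange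
the pairs -/
def PH3 : ℕ := 15338881698565661953908192164565869446743688

/-- the permutations of `0 1 | 2 5` : number `i`, bit 0 : exchange `0, 1`, bit 1 : exchange `3, 4` -/
def PH5 : ℕ := 3212069579788202198664

/-! ### patterns with monitors -/

section
variable {a b c d PT NPM : ℕ} {tr th : PTr} {F : Fr} {M : Md 2 73 73 (nbf 2 TF.TB)}

/-- the patterns with monitors of the tree are dead for the class `CH a b c d` -/
abbrev DH (a b c d : ℕ) (t : PTr) : Prop :=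
  t.All fun p => DeadG (KG (D4 a b c d)) (kap TF.TC) (CH a b c d) (pk p) ∧ VlG 2 (Gp 73 TF.TC) (Ce 73 TF.TC) (pk p)

theorem DH.node {l r : PTr} (h : DH a b c d l) (h' : DH a b c d r) : DH a b c d (PTr.node l r) := ⟨h, h'⟩

/-- plain patterns are patterns with monitors -/
theorem DH.of {t : PTr} (h : DQ N55 t) : DH a b c d t := allG_of_all (by norm_num) (fun _ hF => hF.cw.cq) h

/-- clauses (code = `4 c + kind`) of a pattern with monitors: base clauses, `N55`, images of the patterns with monitors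
`th`, images of the plain patterns `tr` -/
def famH (a b c d PT NPM : ℕ) (tr th : PTr) : ℕ → List ℕ :=
  sel4 (nthC (eN 5 ++ hE a b c d)) (n55C 73 TF.TB) (imTG (JG (D4 a b c d)) gS th PT NPM TG) (imX 5 tr)

/-- the same without images of plain patterns -/
def famH0 (a b c d PT NPM : ℕ) (th : PTr) : ℕ → List ℕ :=
  sel4 (nthC (eN 5 ++ hE a b c d)) (n55C 73 TF.TB) (imTG (JG (D4 a b c d)) gS th PT NPM TG) im0

/-- check of a table of permutations -/
def okHT (a b c d PT NPM : ℕ) : Bool :=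
  (d4 a b c d && okN 5 PT NPM) && (okS a b c d PT NPM && jchk (D4 a b c d) 2 PT NPM)

theorem ok3 : okHT 0 1 2 3 PH3 8 = true := by decide +kernel

theorem ok5 : okHT 0 1 2 5 PH5 4 = true := by decide +kernel

theorem okHT_spec (h : okHT a b c d PT NPM = true) : d4 a b c d = true ∧
    OkPG (KG (D4 a b c d)) 2 (JG (D4 a b c d)) (CH a b c d) PT NPM := by
  unfold okHT at h
  simp only [Bool.and_eq_true] at h
  exact ⟨h.1.1, okPG_of (okPTH_of h.1.1 h.1.2 h.2.1) h.2.2⟩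

theorem kg6 (F : Fr) (i : ℕ) : KG (D4 a b c d) (F.mir (ptb TG 6)) i ↔ KG (D4 a b c d) F i :=
  kg_mir (by
    show ptb TG 6 1 = 1
    decide +kernel)

theorem gS_okH (g : ℕ) (hg : gS g = true) :
    g < 12 ∧ ClG (KG (D4 a b c d)) 2 (kap TF.TC) (ptb TG) (CH a b c d) (Gp 73 TF.TC) (Ce 73 TF.TC) g :=
  gS_okG tabs73 (by norm_num) (fun _ h => h.mir) (fun F i _ => kg6 F i) g hg

theorem imTG_hoH (hk : okHT a b c d PT NPM = true) (hF : CH a b c d F) (hM : MX a b c d F M) (hth : DH a b c d th)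
    (e : ℕ) : Ho M (imTG (JG (D4 a b c d)) gS th PT NPM TG e) := by
  obtain ⟨h4, hP⟩ := okHT_spec hk
  exact imTG_ho tabs73 (by norm_num) (mvH h4 hF hM) hF gS_okH hP hth e

theorem n55C_hoX (hF : CH a b c d F) (hM : MX a b c d F M) (e : ℕ) : Ho M (n55C 73 TF.TB e) := by
  obtain ⟨Y, w, hR⟩ := rdm_X hM
  exact n55C_ho hR hF.cw.cq.q e

theorem famH_ho (hk : okHT a b c d PT NPM = true) (hF : CH a b c d F) (hM : MX a b c d F M) (htr : DQ N55 tr)
    (hth : DH a b c d th) (e : ℕ) : Ho M (famH a b c d PT NPM tr th e) :=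
  sel4_ho (nthC_ho fun c hc => by
    rcases List.mem_append.1 hc with hc | hc
    · exact ho_eNX hF hM c hc
    · exact ho_hE (okHT_spec hk).1 hF hM c hc) (n55C_hoX hF hM) (imTG_hoH hk hF hM hth)
    (fun c => imQ_hoX inv_n55 hF.cw.cq.q hM htr c) e

theorem famH0_ho (hk : okHT a b c d PT NPM = true) (hF : CH a b c d F) (hM : MX a b c d F M)
    (hth : DH a b c d th) (e : ℕ) : Ho M (famH0 a b c d PT NPM th e) :=
  sel4_ho (nthC_ho fun c hc => by
    rcases List.mem_append.1 hc with hc | hc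
    · exact ho_eNX hF hM c hc
    · exact ho_hE (okHT_spec hk).1 hF hM c hc) (n55C_hoX hF hM) (imTG_hoH hk hF hM hth)
    (fun _ => ho_trv M) e

/-- **the tree of a list of patterns with monitors**, `tr` : plain patterns, `th` : earlier patterns with monitors -/
theorem trH {t : PTr} {L : List (List ℕ)} (hk : okHT a b c d PT NPM = true) (h : chTG 2 73 73 TF.TC t L = true)
    (hL : ∀ P ∈ L, CrtG 73 73 TF.TB TF.TC 2 (famH a b c d PT NPM tr th) P) (htr : DQ N55 tr) (hth : DH a b c d th) :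
    DH a b c d t :=
  tr_allGG (tb (le_refl 73)) h hL (fun _ hF => hF.cw.cq.cn.ok) (fun F _ i => hsG_closed (D4 a b c d) 2 F i)
    (fun F _ => xKG_ok (D4 a b c d) 2 F) (by norm_num) (fun _ _ hF hM => mvH (okHT_spec hk).1 hF hM)
    (fun _ _ hF hM e => famH_ho hk hF hM htr hth e)

/-- the same without images of plain patterns -/
theorem trH0 {t : PTr} {L : List (List ℕ)} (hk : okHT a b c d PT NPM = true) (h : chTG 2 73 73 TF.TC t L = true)
    (hL : ∀ P ∈ L, CrtG 73 73 TF.TB TF.TC 2 (famH0 a b c d PT NPM th) P) (hth : DH a b c d th) :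
    DH a b c d t :=
  tr_allGG (tb (le_refl 73)) h hL (fun _ hF => hF.cw.cq.cn.ok) (fun F _ i => hsG_closed (D4 a b c d) 2 F i)
    (fun F _ => xKG_ok (D4 a b c d) 2 F) (by norm_num) (fun _ _ hF hM => mvH (okHT_spec hk).1 hF hM)
    (fun _ _ hF hM e => famH0_ho hk hF hM hth e)

/-! ### words -/

/-- the clauses (code = `4 c + kind`) of a word with monitors: base clauses and units, images of the plain patterns `t1`,
a function, images of the patterns with monitors `th` -/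
def mXH (e : List (List ℕ)) (a b c d : ℕ) (P : List ℕ) (t1 : PTr) (f : ℕ → List ℕ) (th : PTr) (PT NPM : ℕ) :
    ℕ → List ℕ :=
  sel4 (bsC (e ++ hE a b c d) P) (imT gA t1 PX 120 TG) f (imTG (JG (D4 a b c d)) gS th PT NPM TG)

/-- **words with monitors** -/
theorem wordH {t1 : PTr} (hk : okHT a b c d PT NPM = true) (ht1 : DQ N55 t1) (hth : DH a b c d th) {xs : List ℕ}
    (hb : alLL (bnd 73) (EXw xs) = true) (hx : ∀ x ∈ xs, Gp 73 TF.TC x) {f : ℕ → List ℕ}
    (hf : ∀ F M, CH a b c d F → MX a b c d F M → ∀ e, Ho M (f e)) {P : List ℕ}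
    (hv : Vl (Gp 73 TF.TC) (Ce 73 TF.TC) P) {cs : List ℕ}
    (hq : Qy 73 73 TF.TB (cs.map (mXH (EXw xs) a b c d P t1 f th PT NPM))) : Dead (kap TF.TC) (CH a b c d) P := by
  refine dead_QX (tb (le_refl 73)) (XKG (D4 a b c d)) (fun _ hF => hF.cw.cq.cn.ok) hv (fun F M hF hM hP => ?_) hq
  refine sel4_ho (bsC_ho (fun c hc => ?_) hP) ?_ (hf F M hF hM) (imTG_hoH hk hF hM hth)
  · rcases List.mem_append.1 hc with hc | hc
    · exact ho_EXwX hb hx hF hM c hc
    · exact ho_hE (okHT_spec hk).1 hF hM c hc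
  · exact imT_hoX tabs73 hM hF.cw.cq (gA_ok tabs73 (fun _ hF => hF.rot tabs73 le_rfl)
      fun _ hF => hF.mir inv_n55 tabs73 le_rfl) (okPTQ_of okN5) ht1

/-- functions: images of `tr`, `N55` -/
theorem f2H (htr : DQ N55 tr) (F : Fr) (M : Md 2 73 73 (nbf 2 TF.TB)) (hF : CH a b c d F) (hM : MX a b c d F M)
    (e : ℕ) : Ho M (fam2 (imX 5 tr) e) :=
  sel4_ho (nthC_ho (ho_eNX hF hM)) (n55C_hoX hF hM) (fun _ => ho_trv M)
    (fun c => imQ_hoX inv_n55 hF.cw.cq.q hM htr c) e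

theorem f2H0 (F : Fr) (M : Md 2 73 73 (nbf 2 TF.TB)) (hF : CH a b c d F) (hM : MX a b c d F M)
    (e : ℕ) : Ho M (fam2 im0 e) :=
  sel4_ho (nthC_ho (ho_eNX hF hM)) (n55C_hoX hF hM) (fun _ => ho_trv M) (fun _ => ho_trv M) e

end

/-! ### change of the names of the colours -/

section
variable {a b c d : ℕ} {F : Fr}

theorem vl_of {P : List ℕ} (h : alL (wnL 73 73 TF.TC) P = true) : Vl (Gp 73 TF.TC) (Ce 73 TF.TC) P :=
  fun l hl => wa_of_F (alL_spec h l hl)

/-- the image of a literal under a permutation of the colours -/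
def lC (cp l : ℕ) : ℕ := Nat.add (Nat.mul 2 (gB TG cp 0 (Nat.div l 2))) (Nat.mod l 2)

theorem lC_eq {cp l : ℕ} {π : Equiv.Perm (Fin 6)} (hπ : ∀ q < 6, pn π q = cpf cp q)
    (hn : Wn (Gp 73 TF.TC) (Ce 73 TF.TC) (l / 2)) : lC cp l = lm (nc (pn π)) l := by
  have h1 : lC cp l = 2 * gB TG cp 0 (l / 2) + l % 2 := rfl
  have h2 : lm (nc (pn π)) l = 2 * nc (pn π) (l / 2) + l % 2 := rfl
  rw [h1, h2, gB_eq tabs73 (by norm_num) hn]
  obtain ⟨e0, e1, e2, e3, e4⟩ := gn_zero tabs73 hn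
  unfold nc
  rw [e0, e1, e2, e3, e4]
  congr 3
  unfold qc
  split_ifs
  · rfl
  · exact (hπ _ hn.va.col).symm

/-- check: the permutation `cp` maps the pattern `P'` to `P` and `a, b, c, d` to `x, y, z, w` -/
def colB (cp a b c d x y z w : ℕ) (P' P : List ℕ) : Bool :=
  ((isPm cp && Nat.beq (cpf cp 5) 5) && (d4 a b c d && alL (wnL 73 73 TF.TC) P')) &&
  (((Nat.beq (cpf cp a) x && Nat.beq (cpf cp b) y) && (Nat.beq (cpf cp c) z && Nat.beq (cpf cp d) w)) &&
    eqLc (P'.map (lC cp)) P)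

theorem dead_colH {cp x y z w : ℕ} {P' P : List ℕ} (h : colB cp a b c d x y z w P' P = true)
    (H : Dead (kap TF.TC) (CH a b c d) P') : Dead (kap TF.TC) (CH x y z w) P := by
  unfold colB at h
  simp only [Bool.and_eq_true, nbeq] at h
  obtain ⟨⟨⟨h1, h2⟩, h3, h4⟩, ⟨⟨rfl, rfl⟩, rfl, rfl⟩, h5⟩ := h
  obtain ⟨ha, hb, hc, hd, -, -⟩ := d4_spec h3
  obtain ⟨π, hπ⟩ := exists_pm h1
  have hv := vl_of h4
  have h6 := eqLc_spec h5
  have h25 : ∀ q < 6, (pn π q < 5 ↔ q < 5) := by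
    have e5 : pn π 5 = 5 := by rw [hπ 5 (by norm_num), h2]
    intro q hq
    by_cases hq5 : q = 5
    · rw [hq5, e5]
    · have h7 : pn π q ≠ 5 := fun e => BlkE.pn_ne π hq (by norm_num) hq5 (e.trans e5.symm)
      have h8 := pn_lt π q
      omega
  intro F hF hall
  rw [← hπ a ha, ← hπ b hb, ← hπ c hc, ← hπ d hd] at hF
  refine H _ (hF.col h25 ha hb hc hd) fun l hl => ?_
  have h7 := hall (lC cp l) (by rw [← h6]; exact List.mem_map_of_mem hl)
  rw [lC_eq hπ (hv l hl)] at h7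
  have h8 : H61.tv (kap TF.TC) (F.col π) (l / 2) ↔ H61.tv (kap TF.TC) F (nc (pn π) (l / 2)) := by
    unfold H61.nc
    rw [tv_en tabs73.lt (Wa.col (hv l hl) π)]
    exact tva_col' π
  unfold lf at h7 ⊢
  rw [lm_mod, lm_div] at h7
  rw [h8]
  exact h7

/-! ### all partitions -/

/-- the palettes of four colours and their partitions in two pairs -/
def P45 : List (ℕ × ℕ × ℕ × ℕ) :=
  [(0, 1, 2, 3), (0, 1, 2, 4), (0, 1, 2, 5), (0, 1, 3, 4), (0, 1, 3, 5), (0, 1, 4, 5), (0, 2, 1, 3),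
    (0, 2, 1, 4), (0, 2, 1, 5), (0, 2, 3, 4), (0, 2, 3, 5), (0, 2, 4, 5), (0, 3, 1, 2), (0, 3, 1, 4),
    (0, 3, 1, 5), (0, 3, 2, 4), (0, 3, 2, 5), (0, 3, 4, 5), (0, 4, 1, 2), (0, 4, 1, 3), (0, 4, 1, 5),
    (0, 4, 2, 3), (0, 4, 2, 5), (0, 4, 3, 5), (0, 5, 1, 2), (0, 5, 1, 3), (0, 5, 1, 4), (0, 5, 2, 3),
    (0, 5, 2, 4), (0, 5, 3, 4), (1, 2, 3, 4), (1, 2, 3, 5), (1, 2, 4, 5), (1, 3, 2, 4), (1, 3, 2, 5),
    (1, 3, 4, 5), (1, 4, 2, 3), (1, 4, 2, 5), (1, 4, 3, 5), (1, 5, 2, 3), (1, 5, 2, 4), (1, 5, 3, 4),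
    (2, 3, 4, 5), (2, 4, 3, 5), (2, 5, 3, 4)]

/-- check: every partition is in the list, up to the order -/
def nfB : Bool := (List.range 6).all fun a => (List.range 6).all fun b => (List.range 6).all fun c =>
  (List.range 6).all fun d => (Nat.beq a b || Nat.beq a c || Nat.beq a d || Nat.beq b c || Nat.beq b d || Nat.beq c d) ||
    P45.any fun x => st8 a b c d x.1 x.2.1 x.2.2.1 x.2.2.2

theorem nfB_true : nfB = true := by decide +kernel

theorem nf_of (ha : a < 6) (hb : b < 6) (hc : c < 6) (hd : d < 6) (h1 : a ≠ b) (h2 : a ≠ c) (h3 : a ≠ d) (h4 : b ≠ c)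
    (h5 : b ≠ d) (h6 : c ≠ d) : ∃ x ∈ P45, st8 a b c d x.1 x.2.1 x.2.2.1 x.2.2.2 = true := by
  have h := List.all_eq_true.1 (List.all_eq_true.1 (List.all_eq_true.1 (List.all_eq_true.1 nfB_true a
    (List.mem_range.2 ha)) b (List.mem_range.2 hb)) c (List.mem_range.2 hc)) d (List.mem_range.2 hd)
  simp only [Bool.or_eq_true, nbeq, List.any_eq_true] at h
  rcases h with ((((((h | h) | h) | h) | h) | h) | h)
  · exact absurd h h1
  · exact absurd h h2
  · exact absurd h h3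
  · exact absurd h h4
  · exact absurd h h5
  · exact absurd h h6
  · exact h

/-- **a frame of `CD` is in one of the 45 classes** -/
theorem ch_of_cd (h : CD F) : ∃ x ∈ P45, CH x.1 x.2.1 x.2.2.1 x.2.2.2 F := by
  have hd : dist F.z (pt F.z F.b) = 1 := by
    rw [dist_comm]
    unfold pt
    rw [dist_eq_norm, add_sub_cancel_left]
    exact norm_cis _
  have h5 : (F.T F.z).ncard = 5 := h.cw.cq.cn.card (by norm_num)
  have h4 : (F.T (pt F.z F.b)).ncard = 4 := by
    have h1 := h.cw.v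
    have h2 : ¬ 5 ≤ (F.T (pt F.z F.b)).ncard := fun h3 => h.cw.cq.q _ _ hd h5.ge h3
    omega
  obtain ⟨p, q, p1, q1, p2, q2, p3, q3, hdis⟩ := h.dp
  obtain ⟨i, j, hij, eP⟩ := Set.ncard_eq_two.1 p3
  obtain ⟨k, l, hkl, eQ⟩ := Set.ncard_eq_two.1 q3
  have hdj : ∀ x ∈ F.T p, x ∉ F.T q := fun x hx hx' => Set.disjoint_left.1 hdis hx hx'
  have eT : F.T p ∪ F.T q = F.T (pt F.z F.b) := by
    refine Set.eq_of_subset_of_ncard_le (Set.union_subset p2 q2) ?_ (Set.toFinite _)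
    rw [Set.ncard_union_eq hdis (Set.toFinite _) (Set.toFinite _)]
    omega
  rw [eP, eQ] at eT hdj
  obtain ⟨a, ha, rfl⟩ := co_surj F.σ i
  obtain ⟨b, hb, rfl⟩ := co_surj F.σ j
  obtain ⟨c, hc, rfl⟩ := co_surj F.σ k
  obtain ⟨d, hd, rfl⟩ := co_surj F.σ l
  have k1 := hdj (co F.σ a) (by simp)
  have k2 := hdj (co F.σ b) (by simp)
  simp only [mem_insert_iff, mem_singleton_iff, not_or] at k1 k2
  obtain ⟨x, hx, hs⟩ := nf_of ha hb hc hd (fun e => hij (by rw [e])) (fun e => k1.1 (by rw [e]))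
    (fun e => k1.2 (by rw [e])) (fun e => k2.1 (by rw [e])) (fun e => k2.2 (by rw [e])) (fun e => hkl (by rw [e]))
  refine ⟨x, hx, CH.st (a := a) (b := b) (c := c) (d := d) ⟨h.cw, fun r hr => ?_, ⟨p, p1, eP⟩, ⟨q, q1, eQ⟩⟩ hs⟩
  rw [← eT]
  have ci : ∀ {m}, m < 6 → (co F.σ r = co F.σ m ↔ r = m) := fun {m} hm =>
    ⟨fun e => co_inj F.σ hr hm e, fun e => by rw [e]⟩
  simp only [mem_union, mem_insert_iff, mem_singleton_iff]
  rw [ci ha, ci hb, ci hc, ci hd]
  tauto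

/-! ### the palette of the point 1 and the letters at the slot 0 -/

theorem nb0 : nbf 2 TF.TB 0 0 = 1 := by decide +kernel

theorem slot_mem {M : Md 2 73 73 (nbf 2 TF.TB)} (hM : Mdl (tb (le_refl 73)) F M) {sd io : ℕ} (hsd : sd < 2)
    (hio : io < 2) : co F.σ (M.W 0 0 sd io) ∈ F.T (pt F.z F.b) := by
  have hw : M.W 0 0 sd io < 6 := M.wlt (by norm_num) (by norm_num) hsd hio
  have h1 := M.glue (x := 0) (t := 0) (by norm_num) (by norm_num) hsd hio (by rw [nb0]; norm_num)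
  rw [nb0] at h1
  have h2 : M.T 1 (M.W 0 0 sd io) := by
    refine M.vt ?_ (by norm_num) ?_ hw h1
    · interval_cases sd <;> interval_cases io <;> decide
    · interval_cases sd <;> decide
  have h3 := BlkV.av_t hM gp_one hw
  rw [BlkV.P_one kap_one] at h3
  refine h3.1 ?_
  rw [H820.K.av4 (by norm_num)]
  exact h2

/-- the literal is in the pattern -/
def mm (l : ℕ) (P : List ℕ) : Bool := P.any (Nat.beq l)

theorem mm_spec {l : ℕ} {P : List ℕ} (h : mm l P = true) : l ∈ P := by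
  unfold mm at h
  obtain ⟨x, h1, h2⟩ := List.any_eq_true.1 h
  rw [nbeq.1 h2]
  exact h1

/-- the letter of the side `sd`, `io` is not the colour `q` -/
def nq (P : List ℕ) (sd io q : ℕ) : Bool := mm (ng (En 9 0 0 (2 * sd + io) q)) P ||
  (List.range 6).any fun r => !(Nat.beq r q) && mm (ps (En 9 0 0 (2 * sd + io) r)) P

/-- the letter of the side `sd`, `io` is not one of the colours `a, b, c, d` -/
def nq4 (P : List ℕ) (a b c d sd io : ℕ) : Bool := (nq P sd io a && nq P sd io b) && (nq P sd io c && nq P sd io d)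

/-- the palette `a, b, c, d` is not possible -/
def imp (P : List ℕ) (a b c d : ℕ) : Bool :=
  ((nq4 P a b c d 0 0 || nq4 P a b c d 0 1) || (nq4 P a b c d 1 0 || nq4 P a b c d 1 1)) ||
  (((mm (ng (En 4 1 0 0 a)) P || mm (ng (En 4 1 0 0 b)) P) || (mm (ng (En 4 1 0 0 c)) P || mm (ng (En 4 1 0 0 d)) P)) ||
    (List.range 6).any fun q => !((Nat.beq q a || Nat.beq q b) || (Nat.beq q c || Nat.beq q d)) &&
      mm (ps (En 4 1 0 0 q)) P)

/-- check: the list `L` has all possible partitions of the pattern `P` -/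
def cov (P : List ℕ) (L : List (ℕ × ℕ × ℕ × ℕ)) : Bool := P45.all fun x => imp P x.1 x.2.1 x.2.2.1 x.2.2.2 ||
  L.any fun y => (Nat.beq y.1 x.1 && Nat.beq y.2.1 x.2.1) && (Nat.beq y.2.2.1 x.2.2.1 && Nat.beq y.2.2.2 x.2.2.2)

section
variable {M : Md 2 73 73 (nbf 2 TF.TB)} {P : List ℕ}

theorem nq_spec {sd io q : ℕ} (hsd : sd < 2) (hio : io < 2) (hP : ∀ l ∈ P, lv M l)
    (h : nq P sd io q = true) : M.W 0 0 sd io ≠ q := by
  have e : ∀ r, av M (En 9 0 0 (2 * sd + io) r) ↔ M.W 0 0 sd io = r := fun r => by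
    rw [av9 (by norm_num) (by norm_num) (by omega), show (2 * sd + io) / 2 = sd by omega,
      show (2 * sd + io) % 2 = io by omega]
  unfold nq at h
  rw [Bool.or_eq_true] at h
  rcases h with h | h
  · have h1 := hP _ (mm_spec h)
    rw [lv_ng, e] at h1
    exact h1
  · obtain ⟨r, -, h2⟩ := List.any_eq_true.1 h
    rw [Bool.and_eq_true, Bool.not_eq_true'] at h2
    have h3 := hP _ (mm_spec h2.2)
    rw [lv_ps, e] at h3
    rw [h3]
    intro h4
    rw [nbeq.2 h4] at h2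
    exact Bool.noConfusion h2.1

theorem imp_spec (hF : CH a b c d F) (h4 : a < 6 ∧ b < 6 ∧ c < 6 ∧ d < 6) (hM : Mdl (tb (le_refl 73)) F M)
    (hP : ∀ l ∈ P, lv M l) (h : imp P a b c d = true) : False := by
  obtain ⟨ha, hb, hc, hd⟩ := h4
  have key : ∀ {sd io}, sd < 2 → io < 2 → nq4 P a b c d sd io = true → False := by
    intro sd io hsd hio h
    unfold nq4 at h
    simp only [Bool.and_eq_true] at h
    have hw : M.W 0 0 sd io < 6 := M.wlt (by norm_num) (by norm_num) hsd hio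
    rcases (hF.tv _ hw).1 (slot_mem hM hsd hio) with e | e | e | e
    · exact nq_spec hsd hio hP h.1.1 e
    · exact nq_spec hsd hio hP h.1.2 e
    · exact nq_spec hsd hio hP h.2.1 e
    · exact nq_spec hsd hio hP h.2.2 e
  have e : ∀ q < 6, av M (En 4 1 0 0 q) ↔ (q = a ∨ q = b ∨ q = c ∨ q = d) := fun q hq => by
    rw [BlkV.av_t hM gp_one hq, BlkV.P_one kap_one]
    exact hF.tv q hq
  unfold imp at h
  simp only [Bool.or_eq_true] at h
  rcases h with ((h | h) | (h | h)) | (((h | h) | (h | h)) | h)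
  · exact key (by norm_num) (by norm_num) h
  · exact key (by norm_num) (by norm_num) h
  · exact key (by norm_num) (by norm_num) h
  · exact key (by norm_num) (by norm_num) h
  · have h1 := hP _ (mm_spec h)
    rw [lv_ng, e a ha] at h1
    exact h1 (Or.inl rfl)
  · have h1 := hP _ (mm_spec h)
    rw [lv_ng, e b hb] at h1
    exact h1 (Or.inr (Or.inl rfl))
  · have h1 := hP _ (mm_spec h)
    rw [lv_ng, e c hc] at h1
    exact h1 (Or.inr (Or.inr (Or.inl rfl)))
  · have h1 := hP _ (mm_spec h)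
    rw [lv_ng, e d hd] at h1
    exact h1 (Or.inr (Or.inr (Or.inr rfl)))
  · obtain ⟨q, hq, h2⟩ := List.any_eq_true.1 h
    rw [Bool.and_eq_true, Bool.not_eq_true'] at h2
    have h3 := hP _ (mm_spec h2.2)
    rw [lv_ps, e q (List.mem_range.1 hq)] at h3
    have h4 : ((Nat.beq q a || Nat.beq q b) || (Nat.beq q c || Nat.beq q d)) = true := by
      simp only [Bool.or_eq_true, nbeq]
      tauto
    rw [h4] at h2
    exact Bool.noConfusion h2.1

end

theorem p45_lt : ∀ x ∈ P45, x.1 < 6 ∧ x.2.1 < 6 ∧ x.2.2.1 < 6 ∧ x.2.2.2 < 6 := by decide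

/-- **A plain word is dead in `CD` if it is dead for all possible partitions.** -/
theorem wdC {P : List ℕ} {L : List (ℕ × ℕ × ℕ × ℕ)} (hv : Vl (Gp 73 TF.TC) (Ce 73 TF.TC) P) (hc : cov P L = true)
    (H : ∀ x ∈ L, Dead (kap TF.TC) (CH x.1 x.2.1 x.2.2.1 x.2.2.2) P) : Dead (kap TF.TC) CD P := by
  intro F hF hall
  obtain ⟨M, hM⟩ := exists_mdl (tb (le_refl 73)) hF.cw.cq.cn.ok
  obtain ⟨x, hx, hch⟩ := ch_of_cd hF
  have h := List.all_eq_true.1 hc x hx
  rw [Bool.or_eq_true] at h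
  rcases h with h | h
  · exact imp_spec hch (p45_lt x hx) hM (fun l hl => (hM.lv (hv l hl)).2 (hall l hl)) h
  · obtain ⟨y, hy, h2⟩ := List.any_eq_true.1 h
    simp only [Bool.and_eq_true, nbeq] at h2
    have e : y = x := Prod.ext h2.1.1 (Prod.ext h2.1.2 (Prod.ext h2.2.1 h2.2.2))
    rw [e] at hy
    exact H x hy F hch hall

/-- **the tree of a list of such words** -/
theorem trD {t : PTr} {L : List (List ℕ)} (h : chT 73 73 TF.TC t L = true)
    (hL : ∀ P ∈ L, Vl (Gp 73 TF.TC) (Ce 73 TF.TC) P → Dead (kap TF.TC) CD P) : DC CD t := by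
  refine (PTr.all_of (acc := []) fun x hx => ?_).1
  obtain ⟨h1, h2⟩ := chL_spec h x hx
  exact ⟨hL _ h1 h2, h2⟩

end

/-! ### the master and the conclusion -/

section
variable {F : Fr}

/-- frames of `CD` where the colours of the letters of the centre appear in order -/
structure CDS (F : Fr) : Prop where
  cd : CD F
  srt : SrtF 4 F

theorem CDS.cws (h : CDS F) : CWS N55 4 73 TF.TC F := ⟨h.cd.cw, h.srt⟩

theorem dead_srtD (H : Dead (kap TF.TC) CDS []) : Dead (kap TF.TC) CD [] := by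
  intro F hF hall
  obtain ⟨τ, hτ⟩ := exists_sorted F
  exact H _ ⟨hF.col _ (up5_five τ), hτ⟩ fun l hl => absurd hl List.not_mem_nil

/-- words of the block (5, 4) are words of `CD` -/
theorem dcD_of {t : PTr} (h : DC (CW N55 5 4 73 TF.TC) t) : DC CD t := DC.mono h fun _ hF => hF.cw

/-- **the master** : the codes of `Fam.master`, the tree `t2` may have words of `CD` -/
theorem masterD {t1 t2 : PTr} (ht1 : DQ N55 t1) (ht2 : DC CD t2) {xs : List ℕ}
    (hx : ∀ x ∈ xs, Gp 73 TF.TC x) {f : ℕ → List ℕ}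
    (hf : ∀ F (M : Md 2 73 73 (nbf 2 TF.TB)), CW N55 5 4 73 TF.TC F → Mdl (tb (le_refl 73)) F M → ∀ c, Ho M (f c))
    {cs : List ℕ} (hq : Qy 73 73 TF.TB (cs.map (mX3 (EXm xs) [] t1 t2 PX 120 PX 120 TG f))) :
    Dead (kap TF.TC) CD [] :=
  dead_srtD (dead_X3 (tb (le_refl 73)) g73 (fun _ hF => hF.cd.cw.cq.cn.ok)
    (fun _ hF => hF.cd.cw.cq) (fun _ hF => hF.cd) (fun _ hF => hF.rot tabs73 le_rfl)
    (fun _ hF => hF.mir inv_n55 tabs73 le_rfl) (fun _ hF => hF.mir)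
    (okPTQ_of okN5) (okPTD_of okN5) ht1 ht2
    (fun _ _ hF hM => ho_E4 hM hF.cws kap_zero gp_zero ce_zero kap_one gp_one hx)
    (fun F M hF hM => hf F M hF.cd.cw hM) (fun _ hl => absurd hl List.not_mem_nil) hq)

/-- **next to a five-coloured point there is no point with two disjoint pairs** -/
theorem nd5_of (hD : Dead (kap TF.TC) CD []) {U : Fin 6 → Set ℂ} {T : ℂ → Set (Fin 6)} (h : Irr U T) (hl : LF3 U T)
    (hc : ∀ y, Ctn U T y) (hn : Ln U T) (h5 : ∀ y, (T y).ncard ≤ 5) (h55 : N55 T) : ND5 T := by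
  intro x y hxy h1 h2 p q hp hq h3 h4 h6 h7 h8
  obtain ⟨b, hb⟩ := BlkV.exists_pt (z := x) (y := y) (by rw [dist_comm]; exact hxy)
  obtain ⟨σ, hσ⟩ := BlkV.exists_num (T x)
  obtain ⟨F, hF, e1, e2, e3, e4, e5⟩ := BlkV.exists_fr (NW := 73) (TC := TF.TC) h hl hc hn h5 x b σ
  have hx5 : (T x).ncard = 5 := le_antisymm (h5 x) h1
  have hy4 : 4 ≤ (T y).ncard := by
    have h9 := Set.ncard_le_ncard (Set.union_subset h3 h4) (Set.toFinite _)
    rw [Set.ncard_union_eq h8 (Set.toFinite _) (Set.toFinite _)] at h9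
    omega
  refine hD F ⟨⟨⟨⟨hF, fun q hq => ?_⟩, ?_⟩, ?_⟩, ?_⟩ fun l hl => absurd hl List.not_mem_nil
  · rw [e2, e3, e5, hσ q hq, hx5]
  · rw [e2]
    exact h55
  · rw [e2, e3, e4, hb]
    exact hy4
  · rw [e2, e3, e4, hb]
    exact ⟨p, q, hp, hq, h3, h4, h6, h7, h8⟩

end

end Vale.Agent.P032.X2d
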