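import Vale.Agent.P032X.H61.X2d
import Vale.Agent.P032X.H355.Hx

/-!
# P032: the block of the two-pair points in connected frames

`hX2_of` : the hypothesis `hX2` of `H355.n54_mapC`.
-/

open Set Filter Topology Metric

noncomputable section

namespace Vale.Agent.P032.X2d

open Vale.Agent.P032.Six Vale.Agent.P032.H61 Vale.Agent.P032.BlkE Vale.Agent.P032.H355

/-- **the block of the two-pair points** in connected frames with soft walls on lines -/
theorem hX2_of (hD : Dead (kap TF.TC) CD []) : ∀ U T, MapC U T → Ln U T → (∀ z, (T z).ncard ≤ 5) → N55 T → ND5 T :=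
  fun _ _ h hn h5 h55 => nd5_of hD h.irr h.lf (MapC.ctn' h) hn h5 h55

/-- **the blocks X1, X2, X3 together** -/
theorem n54_mapC' (h1 : Dead (kap TF.TC) (CW (fun _ => True) 5 5 73 TF.TC) []) (h2 : Dead (kap TF.TC) CD [])
    (h3 : Dead (kap TF.TC) (CW (fun T => N55 T ∧ ND5 T) 5 4 73 TF.TC) []) {U : Fin 6 → Set ℂ} {T : ℂ → Set (Fin 6)}
    (h : MapC U T) (h5 : ∀ z, (T z).ncard ≤ 5) : N54 T := n54_mapC h1 (hX2_of h2) h3 h h5

end Vale.Agent.P032.X2d
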